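import Vale.Agent.P338.PTX
import Mathlib

/-! P334: rational arithmetic is polynomial time. -/

namespace Vale.Agent.P334

open Vale.Agent.Lib.H23 Vale.Agent.P338

instance encRat : Enc ℚ := ⟨fun x => Enc.enc (x.num, x.den)⟩

variable {α : Type} [Enc α]

theorem ratPT_pair {f : α → ℚ} (hf : PT f) : PT fun x => ((f x).num, (f x).den) :=
  hf.of_enc fun _ => rfl

theorem ratPT_num {f : α → ℚ} (hf : PT f) : PT fun x => (f x).num := (ratPT_pair hf).fst

theorem ratPT_den {f : α → ℚ} (hf : PT f) : PT fun x => (f x).den := (ratPT_pair hf).snd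

theorem ratPT_of {f : α → ℚ} {a : α → ℤ} {b : α → ℕ} (ha : PT a) (hb : PT b)
    (h1 : ∀ x, (f x).num = a x) (h2 : ∀ x, (f x).den = b x) : PT f :=
  (ha.pair hb).of_enc fun x => by rw [← h1, ← h2]; rfl

theorem ratPT_mk {a : α → ℤ} {b : α → ℕ} (ha : PT a) (hb : PT b) :
    PT fun x => mkRat (a x) (b x) := by
  have hg : PT fun x => Nat.gcd (b x) (a x).natAbs := PT_gcd hb ha.natAbs
  have h0 : PT fun x => eqb (b x) 0 := PT.eqb hb (PT.const 0)
  refine ratPT_of (PT.cond h0 (PT.const 0) (PT_iediv ha hg.natCast))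
    (PT.cond h0 (PT.const 1) (PT.div hb hg)) (fun x => ?_) fun x => ?_
  · rw [Rat.num_mkRat]
    by_cases h : b x = 0 <;> simp [h]
  · rw [Rat.den_mkRat]
    by_cases h : b x = 0 <;> simp [h]

@[fun_prop] theorem pt_qadd {f g : α → ℚ} (hf : PT f) (hg : PT g) : PT fun x => f x + g x :=
  (ratPT_mk (((ratPT_num hf).imul (ratPT_den hg).natCast).iadd
    ((ratPT_num hg).imul (ratPT_den hf).natCast)) ((ratPT_den hf).mul (ratPT_den hg))).congr
    fun x => Rat.add_def' (f x) (g x)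
@[fun_prop] theorem pt_qneg {f : α → ℚ} (hf : PT f) : PT fun x => - f x :=
  ratPT_of (ratPT_num hf).neg (ratPT_den hf) (fun _ => rfl) fun _ => rfl
@[fun_prop] theorem pt_qsub {f g : α → ℚ} (hf : PT f) (hg : PT g) : PT fun x => f x - g x :=
  (pt_qadd hf (pt_qneg hg)).congr fun _ => sub_eq_add_neg _ _
@[fun_prop] theorem pt_qmul {f g : α → ℚ} (hf : PT f) (hg : PT g) : PT fun x => f x * g x :=
  (ratPT_mk ((ratPT_num hf).imul (ratPT_num hg)) ((ratPT_den hf).mul (ratPT_den hg))).congr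
    fun x => Rat.mul_def' (f x) (g x)

theorem ratPT_inv_eq (q : ℚ) :
    q⁻¹ = mkRat (bif isNeg q.num then -(q.den : ℤ) else q.den) q.num.natAbs := by
  rw [Rat.mkRat_eq_div]
  conv_lhs => rw [← Rat.num_div_den q, inv_div]
  rw [Nat.cast_natAbs]
  by_cases h : q.num < 0
  · rw [abs_of_neg h]
    simp [isNeg, h, neg_div_neg_eq]
  · rw [abs_of_nonneg (not_lt.1 h)]
    simp [isNeg, h]

@[fun_prop] theorem pt_qinv {f : α → ℚ} (hf : PT f) : PT fun x => (f x)⁻¹ :=
  (ratPT_mk (PT.cond (ratPT_num hf).isNeg (ratPT_den hf).natCast.neg (ratPT_den hf).natCast)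
    (ratPT_num hf).natAbs).congr fun x => ratPT_inv_eq (f x)
@[fun_prop] theorem pt_qdiv {f g : α → ℚ} (hf : PT f) (hg : PT g) : PT fun x => f x / g x :=
  (pt_qmul hf (pt_qinv hg)).congr fun _ => div_eq_mul_inv _ _
@[fun_prop] theorem pt_qpow {f : α → ℚ} (hf : PT f) (k : ℕ) : PT fun x => f x ^ k := by
  induction k with
  | zero => exact (PT.const 1).congr fun _ => pow_zero _
  | succ k ih => exact (pt_qmul ih hf).congr fun _ => pow_succ _ _
@[fun_prop] theorem pt_npow {f : α → ℕ} (hf : PT f) (k : ℕ) : PT fun x => f x ^ k := by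
  induction k with
  | zero => exact (PT.const 1).congr fun _ => pow_zero _
  | succ k ih => exact (PT.mul ih hf).congr fun _ => pow_succ _ _
@[fun_prop] theorem pt_qcast {f : α → ℕ} (hf : PT f) : PT fun x => ((f x : ℕ) : ℚ) :=
  ratPT_of hf.natCast (PT.const 1) (fun _ => rfl) fun _ => rfl
@[fun_prop] theorem pt_qlt {f g : α → ℚ} (hf : PT f) (hg : PT g) :
    PT fun x => decide (f x < g x) :=
  (PT.iltb ((ratPT_num hf).imul (ratPT_den hg).natCast)
    ((ratPT_num hg).imul (ratPT_den hf).natCast)).congr fun x => by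
      rw [iltb_eq, decide_eq_decide]
      exact Rat.lt_iff (f x) (g x)
@[fun_prop] theorem pt_qmin {f g : α → ℚ} (hf : PT f) (hg : PT g) :
    PT fun x => min (f x) (g x) :=
  (PT.cond (pt_qlt hf hg) hf hg).congr fun x => by
    by_cases h : f x < g x
    · simp [h, h.le]
    · simp [h, not_lt.1 h]
@[fun_prop] theorem pt_qmax {f g : α → ℚ} (hf : PT f) (hg : PT g) :
    PT fun x => max (f x) (g x) :=
  (PT.cond (pt_qlt hf hg) hg hf).congr fun x => by
    by_cases h : f x < g x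
    · simp [h, h.le]
    · simp [h, not_lt.1 h]

theorem ratPT_sz (q : ℚ) : sz q = sz q.num + sz q.den + 1 := sz_pair q.num q.den

theorem ratPT_mk_le (n : ℤ) {d : ℕ} (hd : d ≠ 0) :
    (mkRat n d).num.natAbs ≤ n.natAbs ∧ (mkRat n d).den ≤ d := by
  rw [Rat.num_mkRat, Rat.den_mkRat, if_neg hd, if_neg hd]
  exact ⟨Int.natAbs_ediv_le_natAbs _ _, Nat.div_le_self _ _⟩

theorem ratPT_sum_lt (l : List ℚ) : l.sum.num.natAbs < 2 ^ sz l ∧ l.sum.den < 2 ^ sz l := by
  induction l with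
  | nil => simp
  | cons a l ih =>
    rw [List.sum_cons, Rat.add_def', sz_cons, ratPT_sz]
    obtain ⟨h1, h2⟩ := ratPT_mk_le (a.num * l.sum.den + l.sum.num * a.den)
      (Nat.mul_ne_zero a.den_nz l.sum.den_nz)
    have h3 := Int.natAbs_add_le (a.num * l.sum.den) (l.sum.num * a.den)
    rw [Int.natAbs_mul, Int.natAbs_mul, Int.natAbs_natCast, Int.natAbs_natCast] at h3
    have h4 := Nat.mul_lt_mul'' (natAbs_lt_two_pow_sz a.num) ih.2
    have h5 := Nat.mul_lt_mul'' ih.1 (lt_two_pow_sz a.den)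
    have h6 := Nat.mul_lt_mul'' (lt_two_pow_sz a.den) ih.2
    rw [← pow_add] at h4 h5 h6
    have h7 : 2 ^ (sz a.num + sz l) ≤ 2 ^ (sz a.num + sz a.den + 1 + sz l) :=
      Nat.pow_le_pow_right (by omega) (by omega)
    have h8 : 2 ^ (sz l + sz a.den) ≤ 2 ^ (sz a.num + sz a.den + 1 + sz l) :=
      Nat.pow_le_pow_right (by omega) (by omega)
    have h9 : 2 ^ (sz a.den + sz l) ≤ 2 ^ (sz a.num + sz a.den + 1 + sz l) :=
      Nat.pow_le_pow_right (by omega) (by omega)
    rw [pow_succ]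
    omega

open Polynomial in
@[fun_prop] theorem pt_qsum {l : α → List ℚ} (hl : PT l) : PT fun x => (l x).sum := by
  have key : PT (fun l : List ℚ => l.sum) := by
    refine (PT.foldl (f := fun _ (s a : ℚ) => s + a) (by fun_prop) PT.id (PT.const 0)
      ⟨8 * X + 7, fun x k => ?_⟩).congr fun x => List.sum_eq_foldl
    rw [← List.sum_eq_foldl, ratPT_sz]
    have h1 := sz_int_le (ratPT_sum_lt (x.take k)).1
    have h2 := sz_nat_le (ratPT_sum_lt (x.take k)).2
    have h3 := sz_take_le x k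
    simp only [eval_add, eval_mul, eval_X, eval_ofNat]
    omega
  exact PT.comp key hl

theorem pt_ite {β : Type} [Enc β] {p : α → Prop} [DecidablePred p] {b : α → Bool} {f g : α → β}
    (hb : PT b) (h : ∀ x, b x = true ↔ p x) (hf : PT f) (hg : PT g) :
    PT fun x => if p x then f x else g x :=
  (PT.cond hb hf hg).congr fun x => by
    by_cases hp : p x
    · rw [if_pos hp, (h x).2 hp]; rfl
    · rw [if_neg hp, Bool.eq_false_iff.2 fun e => hp ((h x).1 e)]; rfl

end Vale.Agent.P334
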