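import Vale.Agent.P325.Stmt

/-! P334: definitions used in the statements about metric `k`-median. -/

namespace Vale.Agent.P334

open Vale.Agent.P325

/-- An instance: the distance matrix of the points `0, …, n-1` (a list of rows), the list of
clients, the list of candidate facilities, and `k`. -/
abbrev Inst : Type := List (List ℚ) × List ℕ × List ℕ × ℕ

/-- The distance between the points `u` and `v`. -/
def dist (I : Inst) (u v : ℕ) : ℚ := (I.1.getD u []).getD v 0

/-- The matrix is a metric on `0, …, n-1`, clients and facilities are points listed without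
repetition, and `1 ≤ k ≤ |F|`. -/
structure Valid (I : Inst) : Prop where
  square : ∀ r ∈ I.1, r.length = I.1.length
  zero_iff : ∀ u < I.1.length, ∀ v < I.1.length, dist I u v = 0 ↔ u = v
  symm : ∀ u < I.1.length, ∀ v < I.1.length, dist I u v = dist I v u
  triangle : ∀ u < I.1.length, ∀ v < I.1.length, ∀ w < I.1.length,
    dist I u w ≤ dist I u v + dist I v w
  clients : I.2.1.Nodup ∧ ∀ j ∈ I.2.1, j < I.1.length
  facilities : I.2.2.1.Nodup ∧ ∀ i ∈ I.2.2.1, i < I.1.length
  k_pos : 1 ≤ I.2.2.2
  k_le : I.2.2.2 ≤ I.2.2.1.length

/-- `S` is a feasible solution: `S ⊆ F` and `|S| ≤ k`. -/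
def Feas (I : Inst) (S : Finset ℕ) : Prop := S ⊆ I.2.2.1.toFinset ∧ S.card ≤ I.2.2.2

/-- The cost of a nonempty set of facilities: the sum over the clients of the distance to the
nearest member of `S`. -/
def cost (I : Inst) (S : Finset ℕ) (hS : S.Nonempty) : ℚ :=
  ∑ j ∈ I.2.1.toFinset, S.inf' hS (dist I j)

/-- Code of a rational number: sign, absolute value of the numerator, denominator. -/
def bRat (q : ℚ) : List Bool :=
  bPair (bPair bBool bNat) bNat ((decide (q.num < 0), q.num.natAbs), q.den)

/-- Code of an instance. -/
def codeInst : Inst → List Bool :=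
  bPair (bList (bList bRat)) (bPair (bList bNat) (bPair (bList bNat) bNat))

end Vale.Agent.P334
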