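import Vale.Agent.P334.CDefs
import Vale.Agent.P334.Stmt
import Vale.Agent.P334.QPT

/-! P334: the algorithm. `L` (accuracy) and `M` (number of Taylor pairs) are constants. -/

namespace Vale.Agent.P334

open Finset Vale.Agent.P338

/-- first minimiser of `f` on `a0 :: l` -/
def amin {α : Type} (f : α → ℚ) (a0 : α) (l : List α) : α :=
  l.foldl (fun b a => if f a < f b then a else b) a0

/-! ### integer instances -/

/-- distances, clients, facilities, `k`, number of points, diameter bound -/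
abbrev Ctx : Type := List (List ℕ) × List ℕ × List ℕ × ℕ × Un × Un

def dd (G : Ctx) (u v : ℕ) : ℕ := (G.1.getD u []).getD v 0
def dq (G : Ctx) (u v : ℕ) : ℚ := dd G u v
def cJ (G : Ctx) : List ℕ := G.2.1
def cF (G : Ctx) : List ℕ := G.2.2.1
def ck (G : Ctx) : ℕ := G.2.2.2.1
def nn (G : Ctx) : ℕ := G.2.2.2.2.1.n
def DD (G : Ctx) : ℕ := G.2.2.2.2.2.n
def NN (L : ℕ) (G : Ctx) : ℕ := nn G + DD G + L
def PP (L : ℕ) (G : Ctx) : ℕ := (L + 1) * NN L G ^ 5
def LL (L : ℕ) (G : Ctx) : ℕ := NN L G ^ 5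
def QQ (L : ℕ) (G : Ctx) : ℕ := NN L G ^ 10

structure CtxOK (L : ℕ) (G : Ctx) : Prop where
  L200 : 200 ≤ L
  refl : ∀ u < nn G, dd G u u = 0
  pos : ∀ u < nn G, ∀ v < nn G, u ≠ v → 1 ≤ dd G u v
  symm : ∀ u < nn G, ∀ v < nn G, dd G u v = dd G v u
  tri : ∀ u < nn G, ∀ v < nn G, ∀ w < nn G, dd G u w ≤ dd G u v + dd G v w
  le : ∀ u < nn G, ∀ v < nn G, dd G u v ≤ DD G
  Jn : (cJ G).Nodup
  Jlt : ∀ j ∈ cJ G, j < nn G
  Flt : ∀ i ∈ cF G, i < nn G
  Fne : cF G ≠ []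
  k1 : 1 ≤ ck G
  kn : ck G ≤ nn G
  hD : DD G = 4 * (L + 4) * nn G

/-- distance to the open set, capped -/
def dS (G : Ctx) (S : List ℕ) (v : ℕ) : ℕ := (S.map (dd G v)).foldr min (DD G)

/-! ### the linear program (conditional gradient on a smoothed objective) -/

def yb (G : Ctx) (y : ℕ → ℚ) (j r : ℕ) : ℚ := ∑ i ∈ range (nn G), if dd G j i ≤ r then y i else 0
def cj (G : Ctx) (y : ℕ → ℚ) (j : ℕ) : ℚ := ∑ r ∈ range (DD G), max (1 - yb G y j r) 0
def hg (Δ s : ℚ) : ℚ :=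
  if 1 ≤ s then 0 else if 1 - 1 / Δ ≤ s then Δ * (1 - s) ^ 2 / 2 else 1 - s - 1 / (2 * Δ)
def hd (Δ s : ℚ) : ℚ := -max 0 (min 1 ((1 - s) * Δ))
def hobj (G : Ctx) (y : ℕ → ℚ) : ℚ :=
  ((cJ G).map fun j => ∑ r ∈ range (DD G), hg (DD G) (yb G y j r)).sum
def grad (G : Ctx) (y : ℕ → ℚ) (i : ℕ) : ℚ :=
  ((cJ G).map fun j => ∑ r ∈ range (DD G),
    if dd G j i ≤ r then hd (DD G) (yb G y j r) else 0).sum
def fwy (G : Ctx) (t : ℕ) (cnt : List ℕ) (i : ℕ) : ℚ :=
  2 * (ck G : ℚ) * (cnt.getD i 0 : ℕ) / ((t : ℚ) * (t + 1))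
def fwPick (G : Ctx) (y : ℕ → ℚ) : ℕ := amin (grad G y) ((cF G).headD 0) (cF G)
def fwStep (G : Ctx) (cnt : List ℕ) (t : ℕ) : List ℕ :=
  (List.range (nn G)).map fun i =>
    cnt.getD i 0 + if i = fwPick G (fwy G t cnt) then t + 1 else 0
def fwCnt (G : Ctx) (t : ℕ) : List ℕ := (List.range t).foldl (fwStep G) []
def fwY (L : ℕ) (G : Ctx) : ℕ → ℚ := fwy G (NN L G ^ 6) (fwCnt G (NN L G ^ 6))

/-! ### the rounding process -/

/-- masses, client measures, open facilities, counting potential -/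
abbrev St : Type := List ℕ × List (List ℕ) × List ℕ × ℕ

section
variable (L M : ℕ) (G : Ctx)

def yq (s : St) (i : ℕ) : ℚ := (s.1.getD i 0 : ℕ) / (QQ L G : ℚ)
def xq (s : St) (j i : ℕ) : ℚ := ((s.2.1.getD j []).getD i 0 : ℕ) / (QQ L G : ℚ)
def Wq (s : St) : ℚ := (s.2.2.2 : ℕ) / (QQ L G : ℚ)
def Yq (s : St) : ℚ := mass (nn G) (yq L G s)
def δq (s : St) (j : ℕ) : ℚ := dS G s.2.2.1 j
def fl (v : ℚ) : ℕ := min (QQ L G) ⌊(QQ L G : ℚ) * v⌋₊

def ker (R d : ℚ) : ℚ := max 0 (min 1 ((R - d) / (ka * R)))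
def kmass (s : St) (i t : ℕ) : ℚ :=
  ∑ o ∈ range (nn G), yq L G s o * ker ((t : ℚ) / PP L G) (dq G i o)
def okR (s : St) (i t : ℕ) : Prop :=
  t * (L + 1) ≤ PP L G * L * dS G s.2.2.1 i ∧ kmass L G s i t ≤ 1
instance (s : St) (i : ℕ) : DecidablePred (okR L G s i) := fun _ => by
  unfold okR; infer_instance
def rad (s : St) (i : ℕ) : ℕ := Nat.findGreatest (okR L G s i) (PP L G * DD G)
def Rq (s : St) (i : ℕ) : ℚ := (rad L G s i : ℚ) / PP L G
def Kq (s : St) (i o : ℕ) : ℚ := ker (Rq L G s i) (dq G i o)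
def uq (s : St) (i : ℕ) : ℚ := 1 - ∑ o ∈ range (nn G), yq L G s o * Kq L G s i o
def Mq (s : St) (o : ℕ) : ℚ := ∑ i ∈ range (nn G), yq L G s i * Kq L G s i o
def βq (s : St) (o : ℕ) : ℚ := max 1 (Mq L G s o / (3 * (L : ℚ) ^ 2))
def Jq (s : St) (o : ℕ) : ℚ := 1 - Mq L G s o / βq L G s o
def fq (s : St) (o : ℕ) : ℚ := 1 - 1 / (L : ℚ) ^ 4 * Jq L G s o
def Dm (s : St) : ℚ := ∑ i ∈ range (nn G), yq L G s i * uq L G s i

/-- potential of a measure `x` of client `j` at backup distance `δ` -/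
def ph (x : ℕ → ℚ) (j : ℕ) (δ : ℚ) : ℚ :=
  phi (cN M) (200 / L) (2 * (1 / (L : ℚ) ^ 4)) (nn G) x (dq G j) δ

/-- events `e < n` open `e`; the event `e = n` is the pure decay -/
def lev (s : St) (e i : ℕ) : ℚ :=
  if e < nn G then Kq L G s i e / βq L G s e else uq L G s i / LL L G
def jump (s : St) (e : ℕ) : ℚ := if e < nn G then Jq L G s e else -(Dm L G s / LL L G)
def rate (s : St) (e : ℕ) : ℚ :=
  if e < nn G then yq L G s e * βq L G s e * fq L G s e else LL L G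
def nS (s : St) (e : ℕ) : List ℕ := if e < nn G then e :: s.2.2.1 else s.2.2.1
def xo (s : St) (e j : ℕ) : ℕ → ℚ := kill (xq L G s j) (lev L G s e)
def xd (s : St) (e j : ℕ) : ℕ → ℚ :=
  kill (xq L G s j) (dlev (1 / βq L G s e) (fun i => Kq L G s i e) (dq G j) (dq G j e))
def xn (s : St) (e j i : ℕ) : ℚ :=
  if e < nn G ∧ ph L M G (xd L G s e j) j (dS G (nS G s e) j) <
      ph L M G (xo L G s e j) j (dS G (nS G s e) j) then xd L G s e j i else xo L G s e j i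
def vt : ℚ := 1 / (4 * (L : ℚ) ^ 4)
def wf (s : St) (e : ℕ) : ℚ := 1 + vt L * jump L G s e + (vt L * jump L G s e) ^ 2
def ev (s : St) (e : ℕ) : St :=
  ((List.range (nn G)).map fun i => fl L G (kill (yq L G s) (lev L G s e) i),
   (List.range (nn G)).map fun j => (List.range (nn G)).map fun i => fl L G (xn L M G s e j i),
   nS G s e,
   min (QQ L G * NN L G) ⌈(QQ L G : ℚ) * (Wq L G s * wf L G s e)⌉₊)
def pot (s : St) : ℚ :=
  ((cJ G).map fun j => ph L M G (xq L G s j) j (δq G s j)).sum + nn G * Wq L G s +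
    (nn G : ℚ) / ck G * Yq L G s
def step (s : St) : St :=
  if Yq L G s < 1 / L then s else
    amin (pot L M G) (ev L M G s (nn G))
      (((List.range (nn G)).filter fun o => decide (0 < s.1.getD o 0)).map (ev L M G s))

def y0 (i : ℕ) : ℕ := fl L G (min 1 (fwY L G i))
def y0L : List ℕ := (List.range (nn G)).map (y0 L G)
/-- greedy filling of mass one in the order of distance, ties by index -/
def x0 (y : List ℕ) (j i : ℕ) : ℕ :=
  min (y.getD i 0) (QQ L G - ∑ o ∈ range (nn G),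
    if dd G j o < dd G j i ∨ (dd G j o = dd G j i ∧ o < i) then y.getD o 0 else 0)
def init : St :=
  (y0L L G, (List.range (nn G)).map fun j => (List.range (nn G)).map (x0 L G (y0L L G) j),
    [(cF G).headD 0], QQ L G)
def run : St := (List.range (NN L G ^ 8)).foldl (fun s _ => step L M G s) (init L G)

/-- the invariant of the process -/
structure Inv (s : St) : Prop where
  y1 : ∀ i < nn G, yq L G s i ≤ 1
  yF : ∀ i < nn G, 0 < s.1.getD i 0 → i ∈ cF G
  xy : ∀ j < nn G, ∀ i < nn G, xq L G s j i ≤ yq L G s i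
  xm : ∀ j < nn G, mass (nn G) (xq L G s j) ≤ 1
  Yk : Yq L G s ≤ ck G
  Sne : s.2.2.1 ≠ []
  SF : ∀ i ∈ s.2.2.1, i ∈ cF G
  cnt : Real.exp (((vt L * ((s.2.2.1.length : ℚ) + Yq L G s - 1 - ck G) : ℚ) : ℝ)) ≤
    (Wq L G s : ℝ)
  pb : pot L M G s ≤ 3 * (L + 4) * nn G

end

/-- number of additional facilities -/
def CC (L : ℕ) : ℕ := 1 + 12 * L ^ 4 * (L + 4)
def EE (L : ℕ) : ℕ := CC L + 8 * L ^ 2 * CC L + 2

/-! ### scaling, guessing, and the reduction to exactly `k` -/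

def sD (L : ℕ) (I : Inst) : ℕ := 4 * (L + 4) * I.1.length
def scale (L : ℕ) (I : Inst) (g : ℚ) (k : ℕ) : Ctx :=
  ((List.range I.1.length).map fun u => (List.range I.1.length).map fun v =>
      if u = v then 0 else min (sD L I) (⌊dist I u v * L * I.1.length / g⌋₊ + 1),
    I.2.1, I.2.2.1, k, ⟨I.1.length⟩, ⟨sD L I⟩)
def pseudo (L M : ℕ) (I : Inst) (g : ℚ) (k : ℕ) : List ℕ := (run L M (scale L I g k)).2.2.1
def guesses (I : Inst) : List ℚ :=
  (List.range I.1.length).flatMap fun u => (List.range I.1.length).flatMap fun v =>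
    (List.range (I.1.length + 1)).map fun t => (t : ℚ) * dist I u v

def near (I : Inst) (W : List ℕ) (j : ℕ) : ℕ := amin (dist I j) (W.headD 0) W
def costL (I : Inst) (S : List ℕ) : ℚ := (I.2.1.map fun j => dist I j (near I S j)).sum
def lloyd (I : Inst) (W : List ℕ) : List ℕ :=
  W.map fun w => amin (fun f => (I.2.1.map fun j => if near I W j = w then dist I j f else 0).sum)
    (I.2.2.1.headD 0) I.2.2.1
def tuples (F : List ℕ) : ℕ → List (List ℕ)
  | 0 => [[]]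
  | e + 1 => F.flatMap fun a => (tuples F e).map fun l => a :: l
def variants (L : ℕ) (I : Inst) (T : List ℕ) : List (List ℕ) :=
  T :: (tuples I.2.2.1 (EE L)).flatMap fun D => (tuples I.2.2.1 (EE L)).map fun V =>
    lloyd I ((T.filter fun i => decide (i ∉ D)) ++ V)
def cands (L M : ℕ) (I : Inst) : List (List ℕ) :=
  (List.range (I.1.length + 1)).flatMap fun k => (guesses I).flatMap fun g =>
    variants L I (pseudo L M I g k)
def feasB (I : Inst) (S : List ℕ) : Bool :=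
  !S.isEmpty && S.all (fun i => decide (i ∈ I.2.2.1)) &&
    decide (((List.range I.1.length).filter fun i => decide (i ∈ S)).length ≤ I.2.2.2)
def alg (L M : ℕ) (I : Inst) : List ℕ :=
  amin (costL I) [I.2.2.1.headD 0] ((cands L M I).filter (feasB I))

/-- ratio of the bicriteria algorithm -/
def al0 (L M : ℕ) : ℚ := (cN M 1 + 200 / L) * (L / (L - 1))
def al1 (L M : ℕ) : ℚ := al0 L M + 28 / L

/-- `v` is a lower bound for all solutions with at most `k` facilities -/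
def LB (I : Inst) (k : ℕ) (v : ℚ) : Prop :=
  ∀ (S : Finset ℕ) (hS : S.Nonempty), S ⊆ I.2.2.1.toFinset → S.card ≤ k → v ≤ cost I S hS

end Vale.Agent.P334
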