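import Vale.Agent.P334.DDefs

/-! P334: simple bounds for the potential.
PLAN. `phi_round`: D = m - m' ≥ 0; c m' A' ≤ c m A (mono, c_ge), (1-m') δ = q δ + D δ,
tau m' T' ≤ (tau m + 0.54 D) T (tau_step; T' ≤ T ≤ chi A ≤ Δ), m' (1-m') ≤ m q + D.
`phi_init`: c m A + tau T ≤ (c m + chi tau m) A ≤ c 1 A (c_tau), q δ (1 + tp m) ≤ (3/2) q Δ ≤ c 1 q Δ.
`phi_congr`: all sums only see indices below n. -/

namespace Vale.Agent.P334

open Finset

variable {c g : ℚ → ℚ} {n : ℕ} {x d : ℕ → ℚ} {δ ga tp Δ : ℚ}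

theorem phi_round (G : GoodC c g) (ms : Meas n x d δ) (ga0 : 0 ≤ ga) (tp0 : 0 ≤ tp) (tp1 : tp ≤ 1)
    {x' : ℕ → ℚ} (h0 : ∀ i < n, 0 ≤ x' i) (h1 : ∀ i < n, x' i ≤ x i) (hd : ∀ i < n, d i ≤ Δ)
    (hδ : δ ≤ Δ) :
    phi c ga tp n x' d δ ≤ phi c ga tp n x d δ + 3 * Δ * (mass n x - mass n x') := by
  have hle : mass n x' ≤ mass n x := sum_le_sum fun i hi => h1 i (mem_range.1 hi)
  have ms' : Meas n x' d δ := ⟨h0, hle.trans ms.m1, ms.d0, ms.δ0⟩
  have hA : acost n x' d ≤ acost n x d := sum_le_sum fun i hi =>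
    mul_le_mul_of_nonneg_right (h1 i (mem_range.1 hi)) (ms.d0 i (mem_range.1 hi))
  have hT : tcost n x' d δ ≤ tcost n x d δ := sum_le_sum fun i hi =>
    mul_le_mul_of_nonneg_right (h1 i (mem_range.1 hi)) (tcl_nonneg _ _)
  have hAΔ : acost n x d ≤ mass n x * Δ := by
    unfold acost mass
    rw [sum_mul]
    exact sum_le_sum fun i hi =>
      mul_le_mul_of_nonneg_left (hd i (mem_range.1 hi)) (ms.x0 i (mem_range.1 hi))
  have δ0 := ms.δ0
  have Δ0 : 0 ≤ Δ := δ0.trans hδ
  have m0 := ms.m0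
  have m0' := ms'.m0
  have m1 := ms.m1
  have a0 := ms.a0
  have t0 := ms.t0 δ
  have tl := ms.t_le δ
  unfold phi phi0
  generalize mass n x = m at *
  generalize mass n x' = m' at *
  generalize acost n x d = A at *
  generalize acost n x' d = A' at *
  generalize tcost n x d δ = T at *
  generalize tcost n x' d δ = T' at *
  obtain ⟨D, rfl⟩ : ∃ D, m' = m - D := ⟨m - m', by ring⟩
  have D0 : 0 ≤ D := by linarith
  have Dm : D ≤ m := by linarith
  have hTΔ : T ≤ Δ := by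
    have : m * Δ ≤ Δ := mul_le_of_le_one_left Δ0 m1
    unfold chi at tl
    linarith
  have e1 : c (m - D) * A' ≤ c m * A :=
    (mul_le_mul_of_nonneg_left hA (G.c_ge _ m0' (hle.trans m1))).trans
      (mul_le_mul_of_nonneg_right (G.mono m0' hle m1) a0)
  have e2 : D * δ ≤ D * Δ := mul_le_mul_of_nonneg_left hδ D0
  have e3 : tau (m - D) ≤ tau m + D := by
    have h2 := tau_step D0 Dm m1
    have h3 := mul_le_mul_of_nonneg_right (eta_le m0 m1) D0
    have h4 : D ^ 2 ≤ D := by nlinarith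
    linarith
  have e4 : tau (m - D) * T' ≤ tau m * T + D * Δ := by
    have h2 := mul_le_mul_of_nonneg_left hT (tau_nonneg m0' (hle.trans m1))
    have h3 := mul_le_mul_of_nonneg_right e3 t0
    have h4 := mul_le_mul_of_nonneg_left hTΔ D0
    linarith
  have e5 : ga * A' ≤ ga * A := mul_le_mul_of_nonneg_left hA ga0
  have e6 : tp * ((m - D) * (1 - (m - D)) * δ) ≤ tp * (m * (1 - m) * δ) + D * Δ := by
    have h2 : (m - D) * (1 - (m - D)) ≤ m * (1 - m) + D := by nlinarith
    have h3 := mul_le_mul_of_nonneg_left (mul_le_mul_of_nonneg_right h2 δ0) tp0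
    have h4 : tp * (D * δ) ≤ D * δ := mul_le_of_le_one_left (mul_nonneg D0 δ0) tp1
    linarith
  linarith

theorem phi_ge (G : GoodC c g) (ms : Meas n x d δ) (ga0 : 0 ≤ ga) (tp0 : 0 ≤ tp) :
    (1 - mass n x) * δ ≤ phi c ga tp n x d δ := by
  have m0 := ms.m0
  have m1 := ms.m1
  have e1 := mul_nonneg (G.c_ge _ m0 m1) ms.a0
  have e2 := mul_nonneg (tau_nonneg m0 m1) (ms.t0 δ)
  have e3 := mul_nonneg ga0 ms.a0
  have e4 := mul_nonneg tp0 (mul_nonneg (mul_nonneg m0 (sub_nonneg.2 m1)) ms.δ0)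
  unfold phi phi0
  linarith

theorem phi_init (G : GoodC c g) (ms : Meas n x d δ) (ga0 : 0 ≤ ga) (tp0 : 0 ≤ tp)
    (tp1 : tp ≤ 1 / 2) (hδ : δ ≤ Δ) :
    phi c ga tp n x d δ ≤ (c 1 + ga) * (acost n x d + (1 - mass n x) * Δ) := by
  have δ0 := ms.δ0
  have Δ0 : 0 ≤ Δ := δ0.trans hδ
  have m0 := ms.m0
  have m1 := ms.m1
  have a0 := ms.a0
  have q0 : 0 ≤ 1 - mass n x := sub_nonneg.2 m1
  have e1 := mul_le_mul_of_nonneg_left (ms.t_le δ) (tau_nonneg m0 m1)
  have e2 := mul_le_mul_of_nonneg_right (G.c_tau m0 m1) a0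
  have e3 := mul_le_mul_of_nonneg_left hδ q0
  have e4 := mul_le_mul_of_nonneg_right G.c_one (mul_nonneg q0 Δ0)
  have e5 := mul_nonneg ga0 (mul_nonneg q0 Δ0)
  have e6 : tp * (mass n x * (1 - mass n x) * δ) ≤ 1 / 2 * ((1 - mass n x) * δ) := by
    have h1 : tp * mass n x ≤ 1 / 2 := (mul_le_of_le_one_right tp0 m1).trans tp1
    have h2 := mul_le_mul_of_nonneg_right h1 (mul_nonneg q0 δ0)
    linarith
  unfold phi phi0
  linarith

theorem phi_congr {x' : ℕ → ℚ} (h : ∀ i < n, x' i = x i) :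
    phi c ga tp n x' d δ = phi c ga tp n x d δ := by
  have e1 : mass n x' = mass n x := sum_congr rfl fun i hi => h i (mem_range.1 hi)
  have e2 : acost n x' d = acost n x d :=
    sum_congr rfl fun i hi => by rw [h i (mem_range.1 hi)]
  have e3 : tcost n x' d δ = tcost n x d δ :=
    sum_congr rfl fun i hi => by rw [h i (mem_range.1 hi)]
  unfold phi phi0
  rw [e1, e2, e3]

theorem amin_mem {α : Type} (f : α → ℚ) (a0 : α) (l : List α) :
    l.foldl (fun b a => if f a < f b then a else b) a0 ∈ a0 :: l := by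
  induction l generalizing a0 with
  | nil => simp
  | cons b l ih =>
    rw [List.foldl_cons]
    have := ih (if f b < f a0 then b else a0)
    rcases List.mem_cons.1 this with h | h
    · rw [h]
      split_ifs <;> simp
    · exact List.mem_cons_of_mem _ (List.mem_cons_of_mem _ h)

theorem amin_le {α : Type} (f : α → ℚ) (a0 : α) (l : List α) :
    ∀ a ∈ a0 :: l, f (l.foldl (fun b a => if f a < f b then a else b) a0) ≤ f a := by
  induction l generalizing a0 with
  | nil => simp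
  | cons b l ih =>
    intro a ha
    rw [List.foldl_cons]
    have h := ih (if f b < f a0 then b else a0)
    have h0 := h _ List.mem_cons_self
    have h1 : f (if f b < f a0 then b else a0) ≤ f a0 ∧ f (if f b < f a0 then b else a0) ≤ f b := by
      split_ifs with hb
      · exact ⟨hb.le, le_rfl⟩
      · exact ⟨le_rfl, not_lt.1 hb⟩
    rcases List.mem_cons.1 ha with rfl | ha
    · exact h0.trans h1.1
    rcases List.mem_cons.1 ha with rfl | ha
    · exact h0.trans h1.2
    · exact h a (List.mem_cons_of_mem _ ha)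

end Vale.Agent.P334
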