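import Vale.Agent.P334.ADefs
import Vale.Agent.P334.EvR

/-! P334: basic facts on the state of the process.
PLAN. `dS` is a `foldr min`: induction on the list.  `getD` of `(List.range n).map f` at i < n is f i.
Sizes: nn ≥ 1 (1 ≤ ck ≤ nn), NN ≥ DD = 4(L+4) nn, NN ≥ L ≥ 200.  `fl`: QQ > 0, `Nat.floor_le`,
`Nat.lt_floor_add_one`, `Nat.floor_mono`. -/

namespace Vale.Agent.P334

open Finset

variable {L M : ℕ} {G : Ctx} {s : St}

theorem amin_mem' {α : Type} (f : α → ℚ) (a0 : α) (l : List α) : amin f a0 l ∈ a0 :: l := by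
  induction l generalizing a0 with
  | nil => simp [amin]
  | cons a l ih =>
    have h := ih (if f a < f a0 then a else a0)
    have e : amin f a0 (a :: l) = amin f (if f a < f a0 then a else a0) l := rfl
    rw [e]
    rcases List.mem_cons.1 h with h | h
    · rw [h]; split_ifs <;> simp
    · simp [h]
theorem amin_le' {α : Type} (f : α → ℚ) (a0 : α) (l : List α) :
    ∀ a ∈ a0 :: l, f (amin f a0 l) ≤ f a := by
  induction l generalizing a0 with
  | nil => simp [amin]
  | cons b l ih =>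
    have h := ih (if f b < f a0 then b else a0)
    have e : amin f a0 (b :: l) = amin f (if f b < f a0 then b else a0) l := rfl
    rw [e]
    have h0 := h _ List.mem_cons_self
    intro a ha
    rcases List.mem_cons.1 ha with rfl | ha
    · refine h0.trans ?_
      split_ifs with h1
      · exact h1.le
      · exact le_rfl
    · rcases List.mem_cons.1 ha with rfl | ha
      · refine h0.trans ?_
        split_ifs with h1
        · exact le_rfl
        · exact not_lt.1 h1
      · exact h a (List.mem_cons_of_mem _ ha)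
theorem getD_rmap {β : Type} {n i : ℕ} (hi : i < n) (f : ℕ → β) (b : β) :
    ((List.range n).map f).getD i b = f i := by
  simp [List.getD_eq_getElem?_getD, hi]

theorem dS_cons (G : Ctx) (e : ℕ) (S : List ℕ) (v : ℕ) :
    dS G (e :: S) v = min (dS G S v) (dd G v e) := by
  simp only [dS, List.map_cons, List.foldr_cons]
  exact min_comm _ _
theorem dS_le (G : Ctx) (S : List ℕ) (v : ℕ) : dS G S v ≤ DD G := by
  induction S with
  | nil => simp [dS]
  | cons e S ih => rw [dS_cons]; exact (min_le_left _ _).trans ih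
theorem dS_le_mem {S : List ℕ} {i : ℕ} (hi : i ∈ S) (v : ℕ) : dS G S v ≤ dd G v i := by
  induction S with
  | nil => simp at hi
  | cons e S ih =>
    rw [dS_cons]
    rcases List.mem_cons.1 hi with rfl | hi
    · exact min_le_right _ _
    · exact (min_le_left _ _).trans (ih hi)
theorem dS_ex (G : Ctx) (S : List ℕ) (v : ℕ) : dS G S v = DD G ∨ ∃ i ∈ S, dS G S v = dd G v i := by
  induction S with
  | nil => left; simp [dS]
  | cons e S ih =>
    rw [dS_cons]
    rcases min_choice (dS G S v) (dd G v e) with h | h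
    · rw [h]
      rcases ih with ih | ⟨i, hi, ih⟩
      · exact Or.inl ih
      · exact Or.inr ⟨i, List.mem_cons_of_mem _ hi, ih⟩
    · exact Or.inr ⟨e, List.mem_cons_self, h⟩
theorem dS_tri (h : CtxOK L G) {S : List ℕ} (hS : ∀ i ∈ S, i < nn G) {u v : ℕ} (hu : u < nn G)
    (hv : v < nn G) : dS G S u ≤ dd G u v + dS G S v := by
  rcases dS_ex G S v with h1 | ⟨i, hi, h1⟩
  · rw [h1]; exact (dS_le G S u).trans (Nat.le_add_left _ _)
  · rw [h1]; exact (dS_le_mem hi u).trans (h.tri u hu v hv i (hS i hi))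

theorem CtxOK.n1 (h : CtxOK L G) : 1 ≤ nn G := h.k1.trans h.kn
theorem CtxOK.nN (h : CtxOK L G) : nn G ≤ NN L G := by have := h.k1; unfold NN; omega
theorem CtxOK.DN (h : CtxOK L G) : DD G ≤ NN L G := by have := h.k1; unfold NN; omega
theorem CtxOK.LN (h : CtxOK L G) : L ≤ NN L G := by have := h.k1; unfold NN; omega
theorem CtxOK.N800 (h : CtxOK L G) : 800 ≤ NN L G := by
  refine le_trans ?_ h.DN
  rw [h.hD]
  have h1 := h.n1
  have h2 := h.L200
  nlinarith
theorem CtxOK.Jlen (h : CtxOK L G) : (cJ G).length ≤ nn G := by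
  rw [← List.toFinset_card_of_nodup h.Jn]
  calc _ ≤ (range (nn G)).card := card_le_card fun j hj =>
        mem_range.2 (h.Jlt j (List.mem_toFinset.1 hj))
    _ = _ := card_range _
theorem CtxOK.Q0 (h : CtxOK L G) : (0 : ℚ) < QQ L G := by
  have := h.N800
  have h1 : 0 < QQ L G := by unfold QQ; exact Nat.pow_pos (by omega)
  exact_mod_cast h1

theorem fl_le (h : CtxOK L G) {v : ℚ} (h0 : 0 ≤ v) : (fl L G v : ℚ) / QQ L G ≤ v := by
  have hQ := h.Q0
  rw [div_le_iff₀ hQ, mul_comm]
  have h1 : (fl L G v : ℚ) ≤ (⌊(QQ L G : ℚ) * v⌋₊ : ℚ) := by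
    exact_mod_cast (min_le_right _ _ : fl L G v ≤ _)
  exact h1.trans (Nat.floor_le (by positivity))
theorem fl_ge (h : CtxOK L G) {v : ℚ} (h1 : v ≤ 1) : v - 1 / QQ L G ≤ (fl L G v : ℚ) / QQ L G := by
  have hQ := h.Q0
  rw [le_div_iff₀ hQ, sub_mul, one_div, inv_mul_cancel₀ hQ.ne']
  unfold fl
  rw [Nat.cast_min]
  apply le_min
  · nlinarith
  · have := Nat.lt_floor_add_one ((QQ L G : ℚ) * v)
    linarith
theorem fl_mono (L : ℕ) (G : Ctx) {v w : ℚ} (h : v ≤ w) : fl L G v ≤ fl L G w :=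
  min_le_min le_rfl (Nat.floor_mono (mul_le_mul_of_nonneg_left h (Nat.cast_nonneg _)))
theorem fl_pos (L : ℕ) (G : Ctx) {v : ℚ} (h : 0 < fl L G v) : 0 < v := by
  by_contra hv
  have h1 := fl_mono L G (not_lt.1 hv)
  have h2 : fl L G 0 = 0 := by simp [fl]
  omega

theorem yq0 (L : ℕ) (G : Ctx) (s : St) (i : ℕ) : 0 ≤ yq L G s i := by unfold yq; positivity
theorem xq0 (L : ℕ) (G : Ctx) (s : St) (j i : ℕ) : 0 ≤ xq L G s j i := by unfold xq; positivity
theorem Wq0 (L : ℕ) (G : Ctx) (s : St) : 0 ≤ Wq L G s := by unfold Wq; positivity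
theorem Yq0 (L : ℕ) (G : Ctx) (s : St) : 0 ≤ Yq L G s :=
  sum_nonneg fun i _ => yq0 L G s i
theorem Inv.meas (h : Inv L M G s) {j : ℕ} (hj : j < nn G) (δ : ℕ) :
    Meas (nn G) (xq L G s j) (dq G j) δ :=
  ⟨fun i _ => xq0 L G s j i, h.xm j hj, fun i _ => by unfold dq; positivity, Nat.cast_nonneg _⟩
theorem Inv.Yn (hG : CtxOK L G) (h : Inv L M G s) : Yq L G s ≤ nn G :=
  h.Yk.trans (by exact_mod_cast hG.kn)

theorem ev_y {e i : ℕ} (hi : i < nn G) : yq L G (ev L M G s e) i =
    (fl L G (kill (yq L G s) (lev L G s e) i) : ℚ) / QQ L G := by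
  unfold yq
  rw [show (ev L M G s e).1.getD i 0 = _ from getD_rmap hi _ 0]
  rfl
theorem ev_x {e j i : ℕ} (hj : j < nn G) (hi : i < nn G) :
    xq L G (ev L M G s e) j i = (fl L G (xn L M G s e j i) : ℚ) / QQ L G := by
  unfold xq
  rw [show (ev L M G s e).2.1.getD j [] = _ from getD_rmap hj _ [], getD_rmap hi]
theorem ev_S (e : ℕ) : (ev L M G s e).2.2.1 = nS G s e := rfl

end Vale.Agent.P334
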