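import Mathlib

/-! P334: constants, the potential of one client, and the certificate hypotheses. -/

namespace Vale.Agent.P334

open Finset

/-- slope of the kernel -/
def ka : ℚ := 44 / 125
def chi : ℚ := 88 / 125
def ch : ℚ := 87 / 50
def th : ℚ := 57 / 100

def zeta (m : ℚ) : ℚ :=
  min (min (529 / 10000 + m / 20) (893 / 10000 - m / 50))
    (min (1451 / 10000 - 11 / 100 * m) (227 / 1000 * (1 - m)))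
def z1 (m : ℚ) : ℚ :=
  if m ≤ 13 / 25 then -1 / 20 else if m ≤ 31 / 50 then 1 / 50 else
    if m ≤ 7 / 10 then 11 / 100 else 227 / 1000
def tau (m : ℚ) : ℚ := (1 - m) * zeta m
def eta (m : ℚ) : ℚ := zeta m + (1 - m) * z1 m
def tcl (d δ : ℚ) : ℚ := max 0 (min (3 * d - δ) (chi * d))

def cU (m : ℚ) : ℚ :=
  1 + m - m ^ 2 / 3 + m ^ 3 / 12 - m ^ 4 / 60 + m ^ 5 / 360 - m ^ 6 / 2520 + m ^ 7 / 20160
def gU (m : ℚ) : ℚ :=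
  1 - 2 * m / 3 + m ^ 2 / 4 - m ^ 3 / 15 + m ^ 4 / 72 - m ^ 5 / 420 + m ^ 6 / 2880

/-- what is used about the coefficient `c` and its derivative `g` -/
structure GoodC (c g : ℚ → ℚ) : Prop where
  c_le : ∀ m, 0 ≤ m → m ≤ 1 → c m ≤ cU m
  g_le : ∀ m, 0 ≤ m → m ≤ 1 → g m ≤ gU m
  g_ge : ∀ m, 0 ≤ m → m ≤ 1 → 1 / 2 ≤ g m
  c_ge : ∀ m, 0 ≤ m → m ≤ 1 → 0 ≤ c m
  c_one : 3 / 2 ≤ c 1
  conc : ∀ m' m, 0 ≤ m' → m' ≤ m → m ≤ 1 → c m' ≤ c m - g m * (m - m') - 4 / 25 * (m - m') ^ 2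
  ode : ∀ m, 0 ≤ m → m ≤ 1 → 1 + 3 * m ≤ c m * (1 + m) + m * g m

def cN (M : ℕ) (m : ℚ) : ℚ := cU m - 2 * ∑ i ∈ range M,
  (m ^ (2 * i + 8) / ((2 * i + 9).factorial : ℚ) - m ^ (2 * i + 9) / ((2 * i + 10).factorial : ℚ))
def gN (M : ℕ) (m : ℚ) : ℚ := gU m - 2 * ∑ i ∈ range M,
  ((2 * i + 8) * m ^ (2 * i + 7) / ((2 * i + 9).factorial : ℚ) -
    (2 * i + 9) * m ^ (2 * i + 8) / ((2 * i + 10).factorial : ℚ))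

/-! ### the potential of one client -/

def mass (n : ℕ) (x : ℕ → ℚ) : ℚ := ∑ i ∈ range n, x i
def acost (n : ℕ) (x d : ℕ → ℚ) : ℚ := ∑ i ∈ range n, x i * d i
def tcost (n : ℕ) (x d : ℕ → ℚ) (δ : ℚ) : ℚ := ∑ i ∈ range n, x i * tcl (d i) δ
def phi0 (c : ℚ → ℚ) (n : ℕ) (x d : ℕ → ℚ) (δ : ℚ) : ℚ :=
  c (mass n x) * acost n x d + (1 - mass n x) * δ + tau (mass n x) * tcost n x d δ
def phi (c : ℚ → ℚ) (ga tp : ℚ) (n : ℕ) (x d : ℕ → ℚ) (δ : ℚ) : ℚ :=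
  phi0 c n x d δ + ga * acost n x d + tp * (mass n x * (1 - mass n x) * δ)
/-- marginal price of killing atom `i` at level `l` with backup `ρ` -/
def lam (c g : ℚ → ℚ) (n : ℕ) (x d : ℕ → ℚ) (δ ρ l : ℚ) (i : ℕ) : ℚ :=
  ρ - c (mass n x) * d i - tau (mass n x) * tcl (d i) δ - g (mass n x) * acost n x d +
    eta (mass n x) * tcost n x d δ + l * g (mass n x) * (acost n x d + mass n x * d i) / 2
/-- the measure left after killing at levels `l` -/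
def kill (x l : ℕ → ℚ) : ℕ → ℚ := fun i => x i * (1 - l i)
/-- levels of the direct update (`s = 1 / β`) -/
def dlev (s : ℚ) (K d : ℕ → ℚ) (z : ℚ) : ℕ → ℚ := fun i => s * (if z ≤ ch * d i then 1 else K i)

/-- a measure of mass at most one on atoms with nonnegative distances -/
structure Meas (n : ℕ) (x d : ℕ → ℚ) (δ : ℚ) : Prop where
  x0 : ∀ i < n, 0 ≤ x i
  m1 : mass n x ≤ 1
  d0 : ∀ i < n, 0 ≤ d i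
  δ0 : 0 ≤ δ

/-! ### the certificate -/

structure Par where
  c : ℚ
  b : ℚ
  b2 : ℚ
  tau : ℚ
  kap : ℚ
  r : ℚ
  sp : ℚ
  sn : ℚ
  kn : ℚ
  p0 : ℚ

namespace Par
variable (p : Par)
def kp : ℚ := 1 / 40 + p.sn - ka * p.sp
def kk : ℚ := 1 / 40 + p.sn + (1 - ka) * p.sp
def sl : ℚ := 2 - p.c + p.kp
def T (d : ℚ) : ℚ := 1 + (2 - p.c) * d - p.b
def B1 (d : ℚ) : ℚ := p.T d + p.sp * (1 - d)
def B0 (d : ℚ) : ℚ := p.B1 d - p.p0 * (th - d)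
def N (z : ℚ) : ℚ := p.kk * max (1 - z) 0 - p.p0 * max (th - z) 0
/-- the budget -/
def Bd (d : ℚ) : ℚ := p.T d + p.kp * (d - 1) + p.N d
def hc (K d : ℚ) : ℚ := K * p.b2 * (1 + d) / 2 + p.kn * chi * d
def lamK (K : ℚ) : ℚ := (1 - ka * K) * (1 + p.sp)
def lpK (K : ℚ) : ℚ := (1 - K) * (p.sp + 109 / 1000) + K * p.sp / 5
def mu : ℚ := (1 - ka) * (1 - p.sn) - p.kk
def F0 (d : ℚ) : ℚ := p.sp * max (1 - d) 0 + (p.sn - ka * p.sp) * max (d - 1) 0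
def Lam (K ξ : ℚ) : ℚ :=
  (1 - ka * K) * ((1 + p.sp) * max ξ 0 - (1 - p.sn) * max (-ξ) 0)
def Yv (d K δ ρ : ℚ) : ℚ := ρ - p.c * d - p.b + p.b * K * (1 + d) / 2 - p.tau * tcl d δ
def hv (d K δ ρ : ℚ) : ℚ := p.r * (ρ - δ) + p.b2 * K * (1 + d) / 2 - p.kap * tcl d δ

/-- conditions at a point `d` of the range `th ≤ d ≤ 1`, level `K` -/
def CL (K d : ℚ) : Prop :=
  p.hc K d + (p.lamK K + p.kk) * ka * (1 + d) ≤ p.B1 d ∧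
  p.hc K d + (p.lamK K + p.kk - p.p0 * th) ≤ p.B1 d ∧
  p.hc K d + (p.lamK K + p.kk) * (1 - th) ≤ p.B1 d
def CL1 (d : ℚ) : Prop := p.hc 1 d + p.kk * (ka * (1 + d) + 1 - th) ≤ p.B1 d
/-- slope conditions for `1 ≤ d` -/
def CS (K : ℚ) : Prop :=
  (ka - (1 - ka) * (113 / 1000)) * (p.lamK K + p.kk) + K * p.b2 / 2 + p.kn * chi ≤ p.sl ∧
  ka * (p.lamK K - 11 / 50 + p.kk) + K * p.b2 / 2 + p.kn * chi ≤ p.sl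
def C4 (K d : ℚ) : Prop :=
  p.hc K d + (p.lpK K + p.kk - p.p0 * th) ≤ p.B0 d ∧
  p.hc K d + (p.lpK K + p.kk) * (1 - th) ≤ p.B0 d
def C1 (t d : ℚ) : Prop :=
  t ^ 2 * (ka * (1 + d)) ≤ 1 - ch * d - p.p0 * (th - d) ∧
  p.hc 0 d + (p.lpK 0 + p.kk) * (ka * (1 + d)) + (1 - t) ^ 2 * (ka * (1 + d)) ≤ p.B0 d ∧
  p.hc 1 d + (p.lpK 1 + p.kk) * (ka * (1 + d)) + (1 - t) ^ 2 * (ka * (1 + d)) ≤ p.B0 d
def C2 (ω t d : ℚ) : Prop :=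
  t ^ 2 * (((1 - ka) * (1 - p.sn) + ω) * ka * (1 + d)) ≤
    (p.mu + ω) * (1 - ch * d) - p.p0 * (th - d) ∧
  ω * (1 + d) ≤ (p.mu + ω) * (1 - ch * d) - p.p0 * (th - d) ∧
  p.hc 1 d + p.kk * (1 - th) + (1 - t) ^ 2 * (((1 - ka) * (1 - p.sn) + ω) * ka * (1 + d)) ≤ p.B0 d

structure Hyp : Prop where
  b0 : 0 ≤ p.b
  b20 : 0 ≤ p.b2
  sp0 : 0 ≤ p.sp
  sn0 : 0 ≤ p.sn
  spn : p.sp = 0 ∨ p.sn = 0
  kn0 : 0 ≤ p.kn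
  spr : p.sp ≤ p.r
  sp1 : p.sp ≤ 43 / 100
  sn1 : p.sn ≤ 1 / 2
  gs : p.b + p.b2 ≤ 2 * ka * (1 + p.sp - p.sn)
  sk : p.sp - p.sn ≤ p.tau + p.kap
  tk : p.tau - (p.sp - p.sn) ≤ p.kn
  kp0 : p.kk ≤ p.p0
  mu0 : 0 ≤ p.mu
  l1 : p.CL1 th ∧ p.CL1 1 ∧ p.kk * ka + p.b2 / 2 + p.kn * chi ≤ p.sl
  l2 : p.CL 0 th ∧ p.CL 1 th ∧ p.CL 0 1 ∧ p.CL 1 1
  ls : p.CS 0 ∧ p.CS 1
  c4 : p.C4 0 0 ∧ p.C4 1 0 ∧ p.C4 0 th ∧ p.C4 1 th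
  c1 : (p.C1 1 0 ∧ p.C1 1 (3 / 20)) ∧ (p.C1 (1 / 2) (3 / 20) ∧ p.C1 (1 / 2) (43 / 100)) ∧
    p.C1 (1 / 10) (43 / 100) ∧ p.C1 (1 / 10) th
  c2 : (p.C2 (7 / 20) 1 0 ∧ p.C2 (7 / 20) 1 (3 / 50)) ∧
    (p.C2 0 (43 / 100) (3 / 50) ∧ p.C2 0 (43 / 100) (6 / 25)) ∧
    p.C2 0 (1 / 20) (6 / 25) ∧ p.C2 0 (1 / 20) th

/-- the data of one atom after the two summary bounds -/
structure Atom (d R K Y h : ℚ) : Prop where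
  d0 : 0 ≤ d
  R0 : 0 ≤ R
  K0 : 0 ≤ K
  K1 : K ≤ 1
  hA : Y + h ≤ p.T d + p.F0 d + p.Lam K (R - d - 1)
  hH : h ≤ p.hc K d

/-- the pointwise certificate for one atom -/
def Cert (d R Y h : ℚ) : Prop :=
  ∃ l : ℚ, ∀ z U : ℚ, 0 ≤ z → 0 ≤ U → U ≤ 1 → (0 < U → R - d - z ≤ ka * R * (1 - U)) →
    U * (Y - max (z - ch * d) 0) + p.N z - l * (z - 1) + h ≤ p.Bd d

end Par

/-- the parameters that belong to mass `m` -/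
def parOf (c g : ℚ → ℚ) (m sp sn kn p0 : ℚ) : Par :=
  ⟨c m, m * g m, (1 - m) * g m, tau m, (tau m - m * eta m) / m, (1 - m) / m, sp, sn, kn, p0⟩

/-! ### hypotheses of the drift lemma for one client -/

structure DH (n : ℕ) (x y d : ℕ → ℚ) (δ : ℚ) (R u β f : ℕ → ℚ) (K : ℕ → ℕ → ℚ)
    (e1 φ ψ ga Λ Δ κ : ℚ) : Prop where
  ms : Meas n x d δ
  xy : ∀ i < n, x i ≤ y i
  dΔ : ∀ i < n, d i ≤ Δ
  R0 : ∀ i < n, 0 ≤ R i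
  K0 : ∀ i < n, ∀ o < n, 0 ≤ K i o
  K1 : ∀ i < n, ∀ o < n, K i o ≤ 1
  P1 : ∀ i < n, ∀ o < n, 0 < K i o → d o ≤ d i + R i * (1 - ka * K i o)
  P2 : ∀ i < n, ∀ o < n, K i o < 1 → R i - d i - d o ≤ ka * R i * K i o
  hu : ∀ i < n, u i = 1 - ∑ o ∈ range n, y o * K i o
  u0 : ∀ i < n, 0 ≤ u i
  H1 : ∀ i < n, (1 + e1) * R i ≤ δ + d i
  H2 : ∀ i < n, u i * max (δ - d i - (1 + e1) * R i) 0 ≤ κ
  β1 : ∀ o < n, 1 ≤ β o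
  f1 : ∀ o < n, f o ≤ 1 + ψ
  f2 : ∀ o < n, 1 - φ * (1 - ∑ i ∈ range n, x i * K i o) ≤ f o
  e0 : 0 < e1
  e1' : e1 ≤ 1
  φ0 : 0 ≤ φ
  φ1 : φ ≤ 1 / 4
  ψ0 : 0 ≤ ψ
  ψ1 : 2 * ψ ≤ e1
  ga1 : ga ≤ 1
  ga0 : 32 * ψ / e1 + 6 * ψ + 33 * φ + 18 * e1 ≤ ga
  Λ1 : 1 ≤ Λ

end Vale.Agent.P334
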