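import Vale.Agent.P334.CDefs

/-! P334: bounds for the truncated series `cN`, `gN`.
PLAN. On `[0,1]` every summand of the tails is nonnegative (m^(a+1)/(a+2)! ≤ m^a/(a+1)!, and
(a+1) m^a/(a+2)! ≤ a m^(a-1)/(a+1)!), which gives the upper bounds.  For the lower bounds every summand
is at most (2i+8)/(2i+9)! ≤ 1/(2i+8)! ≤ (1/1000) (1/2)^i, so twice a tail is at most 1/250, while
cU m ≥ 1 (1 + m - m^2/3 - ...), cU 1 > 1.73 and gU m ≥ 0.52 on `[0,1]` (write gU m - 0.52 in the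
Bernstein basis, or nlinarith with m, 1 - m). -/

namespace Vale.Agent.P334

theorem cn1_fac (i : ℕ) : 1000 * 2 ^ i ≤ (2 * i + 8).factorial := by
  induction i with
  | zero => decide
  | succ i ih =>
    rw [show 2 * (i + 1) + 8 = 2 * i + 8 + 1 + 1 by ring, Nat.factorial_succ, Nat.factorial_succ,
      pow_succ, ← mul_assoc, mul_comm]
    exact Nat.mul_le_mul (by omega) (ih.trans (Nat.le_mul_of_pos_left _ (Nat.succ_pos _)))

theorem cn1_term (i : ℕ) {a : ℚ} (ha : a ≤ 2 * i + 9) :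
    a / ((2 * i + 9).factorial : ℚ) ≤ 1 / 1000 * (1 / 2) ^ i := by
  have h : (1000 * 2 ^ i : ℚ) ≤ (2 * i + 8).factorial := by exact_mod_cast cn1_fac i
  have e : ((2 * i + 9).factorial : ℚ) = (2 * i + 9) * (2 * i + 8).factorial := by
    rw [Nat.factorial_succ (2 * i + 8)]
    push_cast
    ring
  rw [one_div_pow, one_div_mul_one_div, e]
  refine le_trans (div_le_div_of_nonneg_right ha (by positivity)) ?_
  rw [div_mul_cancel_left₀ (by positivity), one_div]
  exact inv_anti₀ (by positivity) h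

theorem cn1_sum (M : ℕ) {f : ℕ → ℚ} (h : ∀ i, f i ≤ 1 / 1000 * (1 / 2) ^ i) :
    ∑ i ∈ Finset.range M, f i ≤ 1 / 500 := by
  have key : ∑ i ∈ Finset.range M, f i ≤ 1 / 500 - 1 / 500 * (1 / 2) ^ M := by
    induction M with
    | zero => simp
    | succ M ih =>
      rw [Finset.sum_range_succ, pow_succ]
      linarith [h M]
  have : (0 : ℚ) ≤ (1 / 2) ^ M := by positivity
  linarith

theorem cn1_low (M : ℕ) {m : ℚ} (h0 : 0 ≤ m) (h1 : m ≤ 1) : cU m - 1 / 250 ≤ cN M m := by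
  have := cn1_sum M (f := fun i => m ^ (2 * i + 8) / ((2 * i + 9).factorial : ℚ) -
      m ^ (2 * i + 9) / ((2 * i + 10).factorial : ℚ)) fun i =>
    (sub_le_self _ (by positivity)).trans (cn1_term i ((pow_le_one₀ h0 h1).trans (by
      linarith [Nat.cast_nonneg (α := ℚ) i])))
  unfold cN
  linarith

theorem cN_le (M : ℕ) {m : ℚ} (h0 : 0 ≤ m) (h1 : m ≤ 1) : cN M m ≤ cU m :=
  sub_le_self _ (mul_nonneg zero_le_two (Finset.sum_nonneg fun i _ => sub_nonneg.2
    (div_le_div₀ (by positivity) (pow_le_pow_of_le_one h0 h1 (by omega)) (by positivity)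
      (by exact_mod_cast Nat.factorial_le (by omega)))))
theorem gN_le (M : ℕ) {m : ℚ} (h0 : 0 ≤ m) (h1 : m ≤ 1) : gN M m ≤ gU m := by
  refine sub_le_self _ (mul_nonneg zero_le_two (Finset.sum_nonneg fun i _ => sub_nonneg.2 ?_))
  have e : ((2 * i + 10).factorial : ℚ) = (2 * i + 10) * (2 * i + 9).factorial := by
    rw [Nat.factorial_succ (2 * i + 9)]
    push_cast
    ring
  have hi := Nat.cast_nonneg (α := ℚ) i
  rw [e, ← div_div]
  refine div_le_div_of_nonneg_right ?_ (by positivity)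
  rw [mul_div_right_comm]
  exact mul_le_mul ((div_le_one (by positivity)).2 (by linarith) |>.trans (by linarith))
    (pow_le_pow_of_le_one h0 h1 (by omega)) (by positivity) (by positivity)
theorem gN_ge (M : ℕ) {m : ℚ} (h0 : 0 ≤ m) (h1 : m ≤ 1) : 1 / 2 ≤ gN M m := by
  have := cn1_sum M (f := fun i => (2 * i + 8) * m ^ (2 * i + 7) / ((2 * i + 9).factorial : ℚ) -
      (2 * i + 9) * m ^ (2 * i + 8) / ((2 * i + 10).factorial : ℚ)) fun i =>
    (sub_le_self _ (by positivity)).trans (cn1_term i ((mul_le_of_le_one_right (by positivity)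
      (pow_le_one₀ h0 h1)).trans (by linarith)))
  unfold gN gU
  nlinarith [pow_le_pow_of_le_one h0 h1 (show 2 ≤ 3 by norm_num),
    pow_le_pow_of_le_one h0 h1 (show 2 ≤ 5 by norm_num), pow_nonneg h0 4, pow_nonneg h0 6,
    sq_nonneg (1 - m)]
theorem cN_ge (M : ℕ) {m : ℚ} (h0 : 0 ≤ m) (h1 : m ≤ 1) : 0 ≤ cN M m := by
  have := cn1_low M h0 h1
  unfold cU at this
  linarith [pow_le_one₀ (n := 2) h0 h1, pow_le_one₀ (n := 4) h0 h1, pow_le_one₀ (n := 6) h0 h1,
    pow_nonneg h0 3, pow_nonneg h0 5, pow_nonneg h0 7]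
theorem cN_one (M : ℕ) : 3 / 2 ≤ cN M 1 :=
  le_trans (by norm_num [cU]) (cn1_low M zero_le_one le_rfl)

end Vale.Agent.P334
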