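import Vale.Agent.P334.CDefs

/-! P334: strong concavity of `cN`.
PLAN. (1) For `cU`: with u = m', v = m, `cU v - gU v (v-u) - cU u - 4/25 (v-u)^2 = (v-u)^2 * S(u,v)` where
S = 1/3 - 4/25 - S3/12 + S4/60 - S5/360 + S6/2520 - S7/20160 and S_n = sum over i < n-1 of
(i+1) v^i u^(n-2-i) (from u^n - v^n + n v^(n-1) (v-u) = (v-u)^2 S_n).  S ≥ 0.0004 on 0 ≤ u ≤ v ≤ 1
(minimum at u = v = 1): substitute v = 1 - s, u = 1 - s - t (s, t ≥ 0, s + t ≤ 1) or use a Bernstein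
certificate; alternatively pass to the reals and use that `-cU''/2 ≥ 0.1604` (one variable) with
`ConvexOn`/mean value theorems, then cast back.  (2) Every tail summand
P(m) = m^a/(a+1)! - m^(a+1)/(a+2)!, a = 2i+8, is convex on `[0,1]`:
P(u) ≥ P(v) - P'(v)(v-u), because S_(a+1) ≤ (a+2) S_a there (S_(a+1) = u S_a + a v^(a-1), and
a v^(a-1) ≤ (a+1)(a-1) v^(a-2) ≤ (a+1) S_a). Sum up. -/

namespace Vale.Agent.P334

theorem cn2_U {u v : ℚ} (h : u ≤ v) (h1 : v ≤ 1) :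
    cU u ≤ cU v - gU v * (v - u) - 4 / 25 * (v - u) ^ 2 := by
  obtain ⟨s, rfl⟩ : ∃ s, v = 1 - s := ⟨1 - v, by ring⟩
  obtain ⟨t, rfl⟩ : ∃ t, u = 1 - s - t := ⟨1 - s - u, by ring⟩
  have hs : 0 ≤ s := by linarith
  have ht : 0 ≤ t := by linarith
  have key : 0 ≤ t ^ 2 * (47 / 100800 + 257 / 6720 * t + 47 / 6720 * t ^ 2 + 29 / 20160 * t ^ 3 +
      1 / 20160 * t ^ 4 + 1 / 20160 * t ^ 5 + s * (257 / 2240 + 47 / 1680 * t + 29 / 4032 * t ^ 2 +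
      1 / 3360 * t ^ 3 + 1 / 2880 * t ^ 4) + s ^ 2 * (47 / 1120 + 29 / 2016 * t + 1 / 1344 * t ^ 2 +
      1 / 960 * t ^ 3) + s ^ 3 * (29 / 2016 + 1 / 1008 * t + 1 / 576 * t ^ 2) +
      s ^ 4 * (1 / 1344 + 1 / 576 * t) + 1 / 960 * s ^ 5) := by positivity
  unfold cU gU
  linarith

def cn2R (u v : ℚ) (b : ℕ) : ℚ := u ^ (b + 2) - v ^ (b + 2) + (b + 2) * v ^ (b + 1) * (v - u)

theorem cn2_succ (u v : ℚ) (b : ℕ) :
    cn2R u v (b + 1) = u * cn2R u v b + (b + 2) * v ^ (b + 1) * (v - u) ^ 2 := by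
  unfold cn2R
  push_cast
  ring

theorem cn2_ge {u v : ℚ} (h0 : 0 ≤ u) (h : u ≤ v) (b : ℕ) : v ^ b * (v - u) ^ 2 ≤ cn2R u v b := by
  have hv : 0 ≤ v := h0.trans h
  induction b with
  | zero => unfold cn2R; norm_num; nlinarith
  | succ b ih =>
    rw [cn2_succ]
    have h1 : 0 ≤ u * cn2R u v b := mul_nonneg h0 (le_trans (by positivity) ih)
    have h2 : 0 ≤ (b + 1 : ℚ) * (v ^ (b + 1) * (v - u) ^ 2) := by positivity
    linarith

theorem cn2_le {u v : ℚ} (h0 : 0 ≤ u) (h : u ≤ v) (h1 : v ≤ 1) (b : ℕ) :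
    cn2R u v (b + 1) ≤ (b + 4) * cn2R u v b := by
  have hv : 0 ≤ v := h0.trans h
  have h2 := cn2_ge h0 h b
  have h3 : 0 ≤ cn2R u v b := le_trans (by positivity) h2
  have h4 : u * cn2R u v b ≤ cn2R u v b := mul_le_of_le_one_left h3 (h.trans h1)
  have h5 : v * (v ^ b * (v - u) ^ 2) ≤ cn2R u v b :=
    (mul_le_of_le_one_left (by positivity) h1).trans h2
  have h6 := mul_le_mul_of_nonneg_left h5 (show (0 : ℚ) ≤ b + 2 by positivity)
  rw [cn2_succ, pow_succ']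
  linarith

theorem cn2_tail {u v : ℚ} (h0 : 0 ≤ u) (h : u ≤ v) (h1 : v ≤ 1) (i : ℕ) :
    v ^ (2 * i + 8) / ((2 * i + 9).factorial : ℚ) - v ^ (2 * i + 9) / ((2 * i + 10).factorial : ℚ) -
      ((2 * i + 8) * v ^ (2 * i + 7) / ((2 * i + 9).factorial : ℚ) -
        (2 * i + 9) * v ^ (2 * i + 8) / ((2 * i + 10).factorial : ℚ)) * (v - u) ≤
    u ^ (2 * i + 8) / ((2 * i + 9).factorial : ℚ) - u ^ (2 * i + 9) / ((2 * i + 10).factorial : ℚ) := by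
  have h2 := cn2_le h0 h h1 (2 * i + 6)
  have e : ((2 * i + 10).factorial : ℚ) = (2 * i + 10) * ((2 * i + 9).factorial : ℚ) := by
    rw [Nat.factorial_succ (2 * i + 9)]
    push_cast
    ring
  have hf : (0 : ℚ) < (2 * i + 9).factorial := by positivity
  have h3 : 0 ≤ ((((2 * i + 6 : ℕ) : ℚ) + 4) * cn2R u v (2 * i + 6) - cn2R u v (2 * i + 6 + 1)) /
      ((2 * i + 10) * ((2 * i + 9).factorial : ℚ)) := div_nonneg (sub_nonneg.2 h2) (by positivity)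
  rw [e, ← sub_nonneg]
  convert h3 using 1
  unfold cn2R
  push_cast
  field_simp
  ring

theorem cN_conc (M : ℕ) {m' m : ℚ} (h0 : 0 ≤ m') (h : m' ≤ m) (h1 : m ≤ 1) :
    cN M m' ≤ cN M m - gN M m * (m - m') - 4 / 25 * (m - m') ^ 2 := by
  have h2 := cn2_U h h1
  have h3 := Finset.sum_le_sum fun i (_ : i ∈ Finset.range M) => cn2_tail h0 h h1 i
  rw [Finset.sum_sub_distrib, ← Finset.sum_mul] at h3
  unfold cN gN
  linarith

end Vale.Agent.P334
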