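import Vale.Agent.P334.CN1
import Vale.Agent.P334.CN2

/-! P334: the differential inequality and the limit of `cN M 1`.
PLAN. `ode_eq` by induction on `M` (base: `ring`; step: `Nat.factorial_succ`, `field_simp`, `ring`).
Limit: cN M 1 = 1 + 2 * sum over k < 2M+9 of (-1)^k / k!  (induction on M), and these sums converge to
exp (-1) (`Real.exp_bound` with x = -1 gives the error ≤ (n+1)/(n! n)); 2 / exp 1 = 2 * exp (-1). -/

namespace Vale.Agent.P334

theorem cn3_cN_succ (M : ℕ) (m : ℚ) : cN (M + 1) m = cN M m - 2 *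
    (m ^ (2 * M + 8) / ((2 * M + 9).factorial : ℚ) -
      m ^ (2 * M + 9) / ((2 * M + 10).factorial : ℚ)) := by
  simp only [cN, Finset.sum_range_succ]
  ring

theorem cn3_gN_succ (M : ℕ) (m : ℚ) : gN (M + 1) m = gN M m - 2 *
    ((2 * M + 8) * m ^ (2 * M + 7) / ((2 * M + 9).factorial : ℚ) -
      (2 * M + 9) * m ^ (2 * M + 8) / ((2 * M + 10).factorial : ℚ)) := by
  simp only [gN, Finset.sum_range_succ]
  ring

theorem ode_eq (M : ℕ) (m : ℚ) : cN M m * (1 + m) + m * gN M m =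
    1 + 3 * m + 2 * m ^ (2 * M + 8) / ((2 * M + 8).factorial : ℚ) := by
  induction M with
  | zero =>
    simp only [cN, gN, cU, gU, Finset.range_zero, Finset.sum_empty]
    norm_num [Nat.factorial]
    ring
  | succ M ih =>
    rw [cn3_cN_succ, cn3_gN_succ]
    have e0 : 2 * (M + 1) + 8 = 2 * M + 10 := by ring
    rw [e0]
    have h9 : ((2 * M + 9).factorial : ℚ) = (2 * M + 9) * ((2 * M + 8).factorial : ℚ) := by
      rw [show 2 * M + 9 = (2 * M + 8) + 1 by ring, Nat.factorial_succ]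
      push_cast
      ring
    have h10 : ((2 * M + 10).factorial : ℚ) =
        (2 * M + 10) * ((2 * M + 9) * ((2 * M + 8).factorial : ℚ)) := by
      rw [← h9, show 2 * M + 10 = (2 * M + 9) + 1 by ring, Nat.factorial_succ]
      push_cast
      ring
    have hF : ((2 * M + 8).factorial : ℚ) ≠ 0 := by
      exact_mod_cast (Nat.factorial_pos _).ne'
    rw [h9, h10]
    set F : ℚ := ((2 * M + 8).factorial : ℚ) with hFdef
    have ha : (2 * (M : ℚ) + 9) ≠ 0 := by positivity
    have hb : (2 * (M : ℚ) + 10) ≠ 0 := by positivity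
    have p8 : m ^ (2 * M + 8) = m ^ (2 * M + 7) * m := by rw [← pow_succ]
    have p9 : m ^ (2 * M + 9) = m ^ (2 * M + 7) * m ^ 2 := by rw [← pow_add]
    have p10 : m ^ (2 * M + 10) = m ^ (2 * M + 7) * m ^ 3 := by rw [← pow_add]
    rw [p8] at ih
    rw [p8, p9, p10]
    set q : ℚ := m ^ (2 * M + 7) with hq
    have key : (-2 * (q * m / ((2 * M + 9) * F) - q * m ^ 2 / ((2 * M + 10) * ((2 * M + 9) * F)))) *
        (1 + m) + m * (-2 * ((2 * M + 8) * q / ((2 * M + 9) * F) -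
          (2 * M + 9) * (q * m) / ((2 * M + 10) * ((2 * M + 9) * F)))) =
        2 * (q * m ^ 3) / ((2 * M + 10) * ((2 * M + 9) * F)) - 2 * (q * m) / F := by
      field_simp
      ring
    linear_combination ih + key

theorem goodC (M : ℕ) : GoodC (cN M) (gN M) where
  c_le := fun _ h0 h1 => cN_le M h0 h1
  g_le := fun _ h0 h1 => gN_le M h0 h1
  g_ge := fun _ h0 h1 => gN_ge M h0 h1
  c_ge := fun _ h0 h1 => cN_ge M h0 h1
  c_one := cN_one M
  conc := fun _ _ h0 h1 h2 => cN_conc M h0 h1 h2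
  ode := fun m h0 _ => by
    rw [ode_eq]
    have : 0 ≤ 2 * m ^ (2 * M + 8) / ((2 * M + 8).factorial : ℚ) := by positivity
    linarith

theorem cn3_cN_one_eq (M : ℕ) : cN M 1 =
    1 + 2 * ∑ k ∈ Finset.range (2 * M + 9), (-1 : ℚ) ^ k / (k.factorial : ℚ) := by
  induction M with
  | zero =>
    simp only [cN, cU, Finset.range_zero, Finset.sum_empty, Finset.sum_range_succ]
    norm_num [Nat.factorial]
  | succ M ih =>
    rw [cn3_cN_succ, ih, show 2 * (M + 1) + 9 = (2 * M + 9) + 1 + 1 by ring,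
      Finset.sum_range_succ _ (2 * M + 9 + 1), Finset.sum_range_succ _ (2 * M + 9)]
    have o1 : (-1 : ℚ) ^ (2 * M + 9) = -1 := by
      rw [pow_add, pow_mul]; norm_num
    have o2 : (-1 : ℚ) ^ (2 * M + 9 + 1) = 1 := by
      rw [pow_succ, o1]; norm_num
    rw [o1, o2, show 2 * M + 9 + 1 = 2 * M + 10 by ring]
    simp only [one_pow]
    ring

theorem cN_lim {ε : ℝ} (hε : 0 < ε) : ∃ M : ℕ, ((cN M 1 : ℚ) : ℝ) ≤ 1 + 2 / Real.exp 1 + ε := by
  have hs : HasSum (fun k : ℕ => (-1 : ℝ) ^ k / (k.factorial : ℝ)) (Real.exp (-1)) := by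
    rw [Real.exp_eq_exp_ℝ]
    exact NormedSpace.expSeries_div_hasSum_exp (-1 : ℝ)
  have ht := hs.tendsto_sum_nat
  have hev := (ht.eventually (gt_mem_nhds (show Real.exp (-1) < Real.exp (-1) + ε / 2 by
    linarith))).exists_forall_of_atTop
  obtain ⟨N, hN⟩ := hev
  refine ⟨N, ?_⟩
  have h1 := hN (2 * N + 9) (by omega)
  rw [cn3_cN_one_eq]
  push_cast
  have h2 : 2 / Real.exp 1 = 2 * Real.exp (-1) := by
    rw [Real.exp_neg, div_eq_mul_inv]
  rw [h2]
  linarith

end Vale.Agent.P334
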