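import Vale.Agent.P334.Zeta

/-! P334: the two summary bounds for one atom.
PLAN. a = ka, chi = 2a, σ = sp - sn, t = tcl d δ, X = K(1+d), e = δ - ρ ≥ 0, ξ = R - d - 1,
s = d + R - ρ ≥ a R K, s0 = s - a K ξ ≥ a X, φ = (1 - aK) ξ.  As t ≥ 0 and kap ≥ σ - tau:
hv ≤ -r e + b2 X/2 - (σ - tau) t ≤ hc K d  (tk, tcl_le).
Yv + hv ≤ T d + φ - s0 + (b + b2) X/2 - σ t - r e, (b+b2) X/2 ≤ a (1+σ) X, and
3d - δ = w0 - φ - e with w0 = d - 1 + s0.  Let c(w) = max 0 (min w (chi d)) (monotone, 1-Lipschitz).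
Case sn = 0: c(w0-φ-e) ≥ c(w0) - max φ 0 - e, sp ≤ r kills e, and
-s0 + (1+sp) a X - sp c(w0) ≤ sp (min s0 (a(1+d)) - c(w0)) ≤ F0 d
(cases c(w0) = 0, w0, chi d; for d ≤ 1 each is ≤ 1 - d, for d ≥ 1 each is ≤ a (1 - d)).
Case sp = 0: c(w0-φ-e) ≤ c(w0) + max (-φ) 0, and -s0 + (1-sn) a X + sn c(w0) ≤ sn (c(w0) - s0)
≤ sn max (d-1) 0. -/

namespace Vale.Agent.P334

theorem Par.Hyp.atom {p : Par} (h : p.Hyp) {d R K δ ρ : ℚ} (d0 : 0 ≤ d) (R0 : 0 ≤ R) (K0 : 0 ≤ K)
    (K1 : K ≤ 1) (h1 : ρ ≤ δ) (h2 : ρ ≤ d + R * (1 - ka * K)) :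
    p.Atom d R K (p.Yv d K δ ρ) (p.hv d K δ ρ) := by
  have ha : ka = 44 / 125 := rfl
  have hchi : chi = 88 / 125 := rfl
  have t0 : 0 ≤ tcl d δ := le_max_left _ _
  have t1 : tcl d δ ≤ chi * d := max_le (by rw [hchi]; positivity) (min_le_right _ _)
  have r0 : 0 ≤ p.r := h.sp0.trans h.spr
  have e0 : 0 ≤ δ - ρ := sub_nonneg.2 h1
  have X0 : 0 ≤ K * (1 + d) := by positivity
  have X1 : K * (1 + d) ≤ 1 + d := mul_le_of_le_one_left (by positivity) K1
  have q0 : 0 ≤ 1 - ka * K := by rw [ha]; linarith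
  refine ⟨d0, R0, K0, K1, ?_, ?_⟩
  · have hb := mul_le_mul_of_nonneg_right h.gs X0
    have hk := mul_le_mul_of_nonneg_right h.sk t0
    have hr := mul_le_mul_of_nonneg_right h.spr e0
    have hL : p.Lam K (R - d - 1) = (1 + p.sp) * max ((1 - ka * K) * (R - d - 1)) 0 -
        (1 - p.sn) * max (-((1 - ka * K) * (R - d - 1))) 0 := by
      have e1 : max ((1 - ka * K) * (R - d - 1)) 0 = (1 - ka * K) * max (R - d - 1) 0 := by
        rw [mul_max_of_nonneg _ _ q0, mul_zero]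
      have e2 : max (-((1 - ka * K) * (R - d - 1))) 0 = (1 - ka * K) * max (-(R - d - 1)) 0 := by
        rw [mul_max_of_nonneg _ _ q0, mul_zero, mul_neg]
      rw [e1, e2, Par.Lam]; ring
    rw [hL]
    obtain ⟨φ, hφ⟩ : ∃ φ, φ = (1 - ka * K) * (R - d - 1) := ⟨_, rfl⟩
    obtain ⟨g, hg⟩ : ∃ g, g = d + R * (1 - ka * K) - ρ := ⟨_, rfl⟩
    obtain ⟨X, hX⟩ : ∃ X, X = K * (1 + d) := ⟨_, rfl⟩
    obtain ⟨e, he⟩ : ∃ e, e = δ - ρ := ⟨_, rfl⟩
    have g0 : 0 ≤ g := by rw [hg]; linarith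
    have hρ : ρ = 1 + 2 * d + φ - ka * X - g := by rw [hφ, hg, hX]; ring
    have hw : 3 * d - δ = d - 1 + ka * X + g - φ - e := by rw [he]; linarith
    have hpm : max φ 0 - max (-φ) 0 = φ := by
      rcases le_total 0 φ with h0 | h0
      · rw [max_eq_left h0, max_eq_right (by linarith)]; ring
      · rw [max_eq_right h0, max_eq_left (by linarith)]; ring
    have hY : p.Yv d K δ ρ + p.hv d K δ ρ = p.T d + (ρ - 1 - 2 * d) + (p.b + p.b2) * X / 2 -
        (p.tau + p.kap) * tcl d δ - p.r * e := by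
      rw [hX, he, Par.Yv, Par.hv, Par.T]; ring
    rw [hY, ← hφ, Par.F0]
    rw [← hX] at hb X0 X1
    rw [← he] at hr e0
    have fp := le_max_left φ 0
    have fp0 := le_max_right φ 0
    have fm := le_max_left (-φ) 0
    have fm0 := le_max_right (-φ) 0
    rcases h.spn with hs | hs
    · have key : tcl d δ - ka * X ≤ max (d - 1) 0 + max (-φ) 0 + g := by
        have m1 := le_max_left (d - 1) 0
        have m2 := le_max_right (d - 1) 0
        have : tcl d δ ≤ max (d - 1) 0 + max (-φ) 0 + g + ka * X := by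
          refine max_le ?_ ((min_le_left _ _).trans ?_)
          · rw [ha]; linarith
          · rw [hw]; linarith
        linarith
      have k1 := mul_le_mul_of_nonneg_left key h.sn0
      have k2 : p.sn * g ≤ g := mul_le_of_le_one_left g0 (by linarith [h.sn1])
      have k3 : 0 ≤ p.r * e := mul_nonneg r0 e0
      rw [hs] at hb hk ⊢
      nlinarith
    · have key : ka * X - tcl d δ - e - g ≤
          max (1 - d) 0 - ka * max (d - 1) 0 + max φ 0 := by
        have m0 : min (3 * d - δ) (chi * d) ≤ tcl d δ := le_max_right _ _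
        rw [hw, hchi] at m0
        rw [ha] at m0 ⊢
        rcases le_total d 1 with h0 | h0
        · rw [max_eq_left (by linarith : (0 : ℚ) ≤ 1 - d), max_eq_right (by linarith : d - 1 ≤ 0)]
          rcases min_le_iff.1 m0 with m | m <;> linarith
        · rw [max_eq_right (by linarith : 1 - d ≤ 0), max_eq_left (by linarith : (0 : ℚ) ≤ d - 1)]
          rcases min_le_iff.1 m0 with m | m <;> linarith
      have k1 := mul_le_mul_of_nonneg_left key h.sp0
      have k2 : p.sp * g ≤ g := mul_le_of_le_one_left g0 (by linarith [h.sp1])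
      rw [hs] at hb hk ⊢
      nlinarith
  · have hk := mul_le_mul_of_nonneg_right h.sk t0
    have ht := mul_le_mul_of_nonneg_right h.tk t0
    have hn := mul_le_mul_of_nonneg_left t1 h.kn0
    have k3 : 0 ≤ p.r * (δ - ρ) := mul_nonneg r0 e0
    rw [Par.hv, Par.hc]
    nlinarith

end Vale.Agent.P334
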