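import Vale.Agent.P334.CertH0

/-! P334: the certificate hypotheses on some intervals (generated). -/

namespace Vale.Agent.P334

theorem cH4_f1 {m : ℚ} (u : 0 ≤ m - 2 / 5) (v : 0 ≤ 13 / 25 - m) :
    cU m ≤ 5283 / 5000 + 37 / 50 * m := by
  unfold cU; linarith only [sq_nonneg (m - 461 / 1000), pw u v 0 7, pw u v 1 6, pw u v 2 5,
      pw u v 3 4, pw u v 4 3, pw u v 5 2, pw u v 6 1, pw u v 7 0]
theorem cH4_f2 {m : ℚ} (u : 0 ≤ m - 2 / 5) (v : 0 ≤ 13 / 25 - m) :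
    m * gU m ≤ 1003 / 10000 + 209 / 400 * m := by
  unfold gU; linarith only [sq_nonneg (m - 459 / 1000), pw u v 0 7, pw u v 1 6, pw u v 2 5,
      pw u v 3 4, pw u v 4 3, pw u v 5 2, pw u v 6 1, pw u v 7 0]
theorem cH4_f3 {m : ℚ} (u : 0 ≤ m - 2 / 5) (v : 0 ≤ 13 / 25 - m) :
    (1 - m) * gU m ≤ 25811 / 30000 - 299 / 300 * m := by
  unfold gU; linarith only [pw u v 0 7, pw u v 1 6, pw u v 2 5, pw u v 3 4, pw u v 4 3, pw u
      v 5 2, pw u v 6 1, pw u v 7 0]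
theorem cH4_f4 {m : ℚ} (u : 0 ≤ m - 2 / 5) (v : 0 ≤ 13 / 25 - m) :
    gU m ≤ 2 * ka * (1 + (1087 / 3000 - 101 / 150 * m) - (0)) := by
  unfold gU ka; linarith only [pw u v 0 6, pw u v 1 5, pw u v 2 4, pw u v 3 3, pw u v 4 2,
      pw u v 5 1, pw u v 6 0]
theorem cH4_f5 {m : ℚ} (u : 0 ≤ m - 2 / 5) (v : 0 ≤ 13 / 25 - m)
    (hz : z1 m = (-1 / 20)) (hζ : zeta m = 529 / 10000 - (-1 / 20) * m) :
    ((1087 / 3000 - 101 / 150 * m) - (0) - tau m) * m ≤ tau m - m * eta m := by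
  unfold tau eta; rw [hζ, hz]; linarith only [pw u v 0 3, pw u v 1 2, pw u v 2 1, pw u v 3 0]
theorem cH4_f6 {m : ℚ} (u : 0 ≤ m - 2 / 5) (v : 0 ≤ 13 / 25 - m)
    (hζ : zeta m = 529 / 10000 - (-1 / 20) * m) :
    tau m - ((1087 / 3000 - 101 / 150 * m) - (0)) ≤ (-2567 / 30000) + 257 / 1200 * m := by
  unfold tau; rw [hζ]; linarith only [pw u v 0 2, pw u v 1 1, pw u v 2 0]
theorem cH4_f7 {m : ℚ} (u : 0 ≤ m - 2 / 5) (v : 0 ≤ 13 / 25 - m) :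
    (1087 / 3000 - 101 / 150 * m) * m ≤ 1 - m := by
  linarith only [pw u v 0 2, pw u v 1 1, pw u v 2 0]
theorem cH4_e0 :
    (⟨6763 / 5000, 3093 / 10000, 4617 / 10000, 0, 0, 0, 93 / 1000, 0, 1 / 10000, 7 / 50⟩ :
        Par).Lin := by
  decide +kernel
theorem cH4_e1 :
    (⟨7207 / 5000, 93 / 250, 3421 / 10000, 0, 0, 0, 61 / 5000, 0, 129 / 5000, 37 / 200⟩ :
        Par).Lin := by
  decide +kernel
theorem GoodC.hyp4 {c g : ℚ → ℚ} (G : GoodC c g) {m : ℚ} (h0 : 2 / 5 < m) (h1 : m ≤ 13 / 25) :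
    (parOf c g m (1087 / 3000 - 101 / 150 * m) (0)
      ((-2567 / 30000) + 257 / 1200 * m) ((-1 / 100) + 3 / 8 * m)).Hyp := by
  have u : 0 ≤ m - 2 / 5 := by linarith
  have v : 0 ≤ 13 / 25 - m := by linarith
  have hz : z1 m = (-1 / 20) := by
    unfold z1; rw [if_pos (by linarith)]
  have hζ : zeta m = 529 / 10000 - (-1 / 20) * m := by
    rw [zeta_eq, hz, if_pos (by linarith)]
  obtain ⟨g1, g2, g3, g4, g5, g6, g7, g8⟩ := G.hyp_aux (by linarith) (by linarith)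
    (cH4_f1 u v) (cH4_f2 u v) (cH4_f3 u v) (cH4_f4 u v) (cH4_f5 u v hz hζ) (cH4_f7 u v)
  refine Par.hyp_of g1 g2 (Or.inr rfl) g8 g6 g7 (cH4_f6 u v hζ)
    (Par.Mix.lin (t := (m - 2 / 5) * (25 / 3)) ?_ cH4_e0 cH4_e1)
  constructor <;> (try simp only [parOf]) <;> linarith only [u, v, g3, g4, g5]

theorem cH5_f1 {m : ℚ} (u : 0 ≤ m - 13 / 25) (v : 0 ≤ 14 / 25 - m) :
    cU m ≤ 5377 / 5000 + 281 / 400 * m := by
  unfold cU; linarith only [pw u v 0 7, pw u v 1 6, pw u v 2 5, pw u v 3 4, pw u v 4 3, pw u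
      v 5 2, pw u v 6 1, pw u v 7 0]
theorem cH5_f2 {m : ℚ} (u : 0 ≤ m - 13 / 25) (v : 0 ≤ 14 / 25 - m) :
    m * gU m ≤ 651 / 5000 + 37 / 80 * m := by
  unfold gU; linarith only [pw u v 0 7, pw u v 1 6, pw u v 2 5, pw u v 3 4, pw u v 4 3, pw u
      v 5 2, pw u v 6 1, pw u v 7 0]
theorem cH5_f3 {m : ℚ} (u : 0 ≤ m - 13 / 25) (v : 0 ≤ 14 / 25 - m) :
    (1 - m) * gU m ≤ 8153 / 10000 - 91 / 100 * m := by
  unfold gU; linarith only [pw u v 0 7, pw u v 1 6, pw u v 2 5, pw u v 3 4, pw u v 4 3, pw u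
      v 5 2, pw u v 6 1, pw u v 7 0]
theorem cH5_f4 {m : ℚ} (u : 0 ≤ m - 13 / 25) (v : 0 ≤ 14 / 25 - m) :
    gU m ≤ 2 * ka * (1 + (427 / 2500 - 61 / 200 * m) - (0)) := by
  unfold gU ka; linarith only [pw u v 0 6, pw u v 1 5, pw u v 2 4, pw u v 3 3, pw u v 4 2,
      pw u v 5 1, pw u v 6 0]
theorem cH5_f5 {m : ℚ} (u : 0 ≤ m - 13 / 25) (v : 0 ≤ 14 / 25 - m)
    (hz : z1 m = 1 / 50) (hζ : zeta m = 893 / 10000 - 1 / 50 * m) :
    ((427 / 2500 - 61 / 200 * m) - (0) - tau m) * m ≤ tau m - m * eta m := by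
  unfold tau eta; rw [hζ, hz]; linarith only [pw u v 0 3, pw u v 1 2, pw u v 2 1, pw u v 3 0]
theorem cH5_f6 {m : ℚ} (u : 0 ≤ m - 13 / 25) (v : 0 ≤ 14 / 25 - m)
    (hζ : zeta m = 893 / 10000 - 1 / 50 * m) :
    tau m - ((427 / 2500 - 61 / 200 * m) - (0)) ≤ (-873 / 10000) + 87 / 400 * m := by
  unfold tau; rw [hζ]; linarith only [pw u v 0 2, pw u v 1 1, pw u v 2 0]
theorem cH5_f7 {m : ℚ} (u : 0 ≤ m - 13 / 25) (v : 0 ≤ 14 / 25 - m) :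
    (427 / 2500 - 61 / 200 * m) * m ≤ 1 - m := by
  linarith only [pw u v 0 2, pw u v 1 1, pw u v 2 0]
theorem cH5_e0 :
    (⟨14407 / 10000, 3707 / 10000, 3421 / 10000, 0, 0, 0, 61 / 5000, 0, 129 / 5000, 91 /
        500⟩ : Par).Lin := by
  decide +kernel
theorem cH5_e1 :
    (⟨918 / 625, 973 / 2500, 3057 / 10000, 0, 0, 0, 0, 0, 69 / 2000, 111 / 500⟩ : Par).Lin := by
  decide +kernel
theorem GoodC.hyp5 {c g : ℚ → ℚ} (G : GoodC c g) {m : ℚ} (h0 : 13 / 25 < m) (h1 : m ≤ 14 / 25) :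
    (parOf c g m (427 / 2500 - 61 / 200 * m) (0)
      ((-873 / 10000) + 87 / 400 * m) ((-169 / 500) + 1 * m)).Hyp := by
  have u : 0 ≤ m - 13 / 25 := by linarith
  have v : 0 ≤ 14 / 25 - m := by linarith
  have hz : z1 m = 1 / 50 := by
    unfold z1; rw [if_neg (by linarith), if_pos (by linarith)]
  have hζ : zeta m = 893 / 10000 - 1 / 50 * m := by
    rw [zeta_eq, hz, if_neg (by linarith), if_pos (by linarith)]
  obtain ⟨g1, g2, g3, g4, g5, g6, g7, g8⟩ := G.hyp_aux (by linarith) (by linarith)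
    (cH5_f1 u v) (cH5_f2 u v) (cH5_f3 u v) (cH5_f4 u v) (cH5_f5 u v hz hζ) (cH5_f7 u v)
  refine Par.hyp_of g1 g2 (Or.inr rfl) g8 g6 g7 (cH5_f6 u v hζ)
    (Par.Mix.lin (t := (m - 13 / 25) * (25)) ?_ cH5_e0 cH5_e1)
  constructor <;> (try simp only [parOf]) <;> linarith only [u, v, g3, g4, g5]

theorem cH6_f1 {m : ℚ} (u : 0 ≤ m - 14 / 25) (v : 0 ≤ 31 / 50 - m) :
    cU m ≤ 6523 / 6000 + 409 / 600 * m := by
  unfold cU; linarith only [pw u v 0 7, pw u v 1 6, pw u v 2 5, pw u v 3 4, pw u v 4 3, pw u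
      v 5 2, pw u v 6 1, pw u v 7 0]
theorem cH6_f2 {m : ℚ} (u : 0 ≤ m - 14 / 25) (v : 0 ≤ 31 / 50 - m) :
    m * gU m ≤ 2257 / 15000 + 32 / 75 * m := by
  unfold gU; linarith only [pw u v 0 7, pw u v 1 6, pw u v 2 5, pw u v 3 4, pw u v 4 3, pw u
      v 5 2, pw u v 6 1, pw u v 7 0]
theorem cH6_f3 {m : ℚ} (u : 0 ≤ m - 14 / 25) (v : 0 ≤ 31 / 50 - m) :
    (1 - m) * gU m ≤ 23591 / 30000 - 103 / 120 * m := by
  unfold gU; linarith only [pw u v 0 7, pw u v 1 6, pw u v 2 5, pw u v 3 4, pw u v 4 3, pw u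
      v 5 2, pw u v 6 1, pw u v 7 0]
theorem cH6_f4 {m : ℚ} (u : 0 ≤ m - 14 / 25) (v : 0 ≤ 31 / 50 - m) :
    gU m ≤ 2 * ka * (1 + (0) - ((-203 / 2500) + 29 / 200 * m)) := by
  unfold gU ka; linarith only [pw u v 0 6, pw u v 1 5, pw u v 2 4, pw u v 3 3, pw u v 4 2,
      pw u v 5 1, pw u v 6 0]
theorem cH6_f5 {m : ℚ} (u : 0 ≤ m - 14 / 25) (v : 0 ≤ 31 / 50 - m)
    (hz : z1 m = 1 / 50) (hζ : zeta m = 893 / 10000 - 1 / 50 * m) :
    ((0) - ((-203 / 2500) + 29 / 200 * m) - tau m) * m ≤ tau m - m * eta m := by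
  unfold tau eta; rw [hζ, hz]; linarith only [pw u v 0 3, pw u v 1 2, pw u v 2 1, pw u v 3 0]
theorem cH6_f6 {m : ℚ} (u : 0 ≤ m - 14 / 25) (v : 0 ≤ 31 / 50 - m)
    (hζ : zeta m = 893 / 10000 - 1 / 50 * m) :
    tau m - ((0) - ((-203 / 2500) + 29 / 200 * m)) ≤ 11 / 6000 + 7 / 120 * m := by
  unfold tau; rw [hζ]; linarith only [pw u v 0 2, pw u v 1 1, pw u v 2 0]
theorem cH6_f7 {m : ℚ} (u : 0 ≤ m - 14 / 25) (v : 0 ≤ 31 / 50 - m) :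
    (0) * m ≤ 1 - m := by
  linarith only [pw u v 0 2, pw u v 1 1, pw u v 2 0]
theorem cH6_e0 :
    (⟨14689 / 10000, 1947 / 5000, 3057 / 10000, 0, 0, 0, 0, 0, 69 / 2000, 223 / 1000⟩ :
        Par).Lin := by
  decide +kernel
theorem cH6_e1 :
    (⟨7549 / 5000, 83 / 200, 1271 / 5000, 0, 0, 0, 0, 87 / 10000, 19 / 500, 163 / 500⟩ :
        Par).Lin := by
  decide +kernel
theorem GoodC.hyp6 {c g : ℚ → ℚ} (G : GoodC c g) {m : ℚ} (h0 : 14 / 25 < m) (h1 : m ≤ 31 / 50) :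
    (parOf c g m (0) ((-203 / 2500) + 29 / 200 * m)
      (11 / 6000 + 7 / 120 * m) ((-443 / 600) + 103 / 60 * m)).Hyp := by
  have u : 0 ≤ m - 14 / 25 := by linarith
  have v : 0 ≤ 31 / 50 - m := by linarith
  have hz : z1 m = 1 / 50 := by
    unfold z1; rw [if_neg (by linarith), if_pos (by linarith)]
  have hζ : zeta m = 893 / 10000 - 1 / 50 * m := by
    rw [zeta_eq, hz, if_neg (by linarith), if_pos (by linarith)]
  obtain ⟨g1, g2, g3, g4, g5, g6, g7, g8⟩ := G.hyp_aux (by linarith) (by linarith)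
    (cH6_f1 u v) (cH6_f2 u v) (cH6_f3 u v) (cH6_f4 u v) (cH6_f5 u v hz hζ) (cH6_f7 u v)
  refine Par.hyp_of g1 g2 (Or.inl rfl) g8 g6 g7 (cH6_f6 u v hζ)
    (Par.Mix.lin (t := (m - 14 / 25) * (50 / 3)) ?_ cH6_e0 cH6_e1)
  constructor <;> (try simp only [parOf]) <;> linarith only [u, v, g3, g4, g5]

theorem cH7_f1 {m : ℚ} (u : 0 ≤ m - 31 / 50) (v : 0 ≤ 7 / 10 - m) :
    cU m ≤ 22107 / 20000 + 261 / 400 * m := by
  unfold cU; linarith only [pw u v 0 7, pw u v 1 6, pw u v 2 5, pw u v 3 4, pw u v 4 3, pw u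
      v 5 2, pw u v 6 1, pw u v 7 0]
theorem cH7_f2 {m : ℚ} (u : 0 ≤ m - 31 / 50) (v : 0 ≤ 7 / 10 - m) :
    m * gU m ≤ 3561 / 20000 + 153 / 400 * m := by
  unfold gU; linarith only [pw u v 0 7, pw u v 1 6, pw u v 2 5, pw u v 3 4, pw u v 4 3, pw u
      v 5 2, pw u v 6 1, pw u v 7 0]
theorem cH7_f3 {m : ℚ} (u : 0 ≤ m - 31 / 50) (v : 0 ≤ 7 / 10 - m) :
    (1 - m) * gU m ≤ 29791 / 40000 - 633 / 800 * m := by
  unfold gU; linarith only [pw u v 0 7, pw u v 1 6, pw u v 2 5, pw u v 3 4, pw u v 4 3, pw u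
      v 5 2, pw u v 6 1, pw u v 7 0]
theorem cH7_f4 {m : ℚ} (u : 0 ≤ m - 31 / 50) (v : 0 ≤ 7 / 10 - m) :
    gU m ≤ 2 * ka * (1 + (0) - ((-279 / 10000) + 23 / 200 * m)) := by
  unfold gU ka; linarith only [pw u v 0 6, pw u v 1 5, pw u v 2 4, pw u v 3 3, pw u v 4 2,
      pw u v 5 1, pw u v 6 0]
theorem cH7_f5 {m : ℚ} (u : 0 ≤ m - 31 / 50) (v : 0 ≤ 7 / 10 - m)
    (hz : z1 m = 11 / 100) (hζ : zeta m = 1451 / 10000 - 11 / 100 * m) :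
    ((0) - ((-279 / 10000) + 23 / 200 * m) - tau m) * m ≤ tau m - m * eta m := by
  unfold tau eta; rw [hζ, hz]; linarith only [sq_nonneg (m - 329 / 500), pw u v 0 3, pw u v
      1 2, pw u v 2 1, pw u v 3 0]
theorem cH7_f6 {m : ℚ} (u : 0 ≤ m - 31 / 50) (v : 0 ≤ 7 / 10 - m)
    (hζ : zeta m = 1451 / 10000 - 11 / 100 * m) :
    tau m - ((0) - ((-279 / 10000) + 23 / 200 * m)) ≤ 87 / 1250 + 1 / 200 * m := by
  unfold tau; rw [hζ]; linarith only [pw u v 0 2, pw u v 1 1, pw u v 2 0]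
theorem cH7_f7 {m : ℚ} (u : 0 ≤ m - 31 / 50) (v : 0 ≤ 7 / 10 - m) :
    (0) * m ≤ 1 - m := by
  linarith only [pw u v 0 2, pw u v 1 1, pw u v 2 0]
theorem cH7_e0 :
    (⟨15099 / 10000, 519 / 1250, 1271 / 5000, 0, 0, 0, 0, 217 / 5000, 727 / 10000, 103 /
        250⟩ : Par).Lin := by
  decide +kernel
theorem cH7_e1 :
    (⟨15621 / 10000, 2229 / 5000, 1909 / 10000, 0, 0, 0, 0, 263 / 5000, 731 / 10000, 267 /
        500⟩ : Par).Lin := by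
  decide +kernel
theorem GoodC.hyp7 {c g : ℚ → ℚ} (G : GoodC c g) {m : ℚ} (h0 : 31 / 50 < m) (h1 : m ≤ 7 / 10) :
    (parOf c g m (0) ((-279 / 10000) + 23 / 200 * m)
      (87 / 1250 + 1 / 200 * m) ((-1067 / 2000) + 61 / 40 * m)).Hyp := by
  have u : 0 ≤ m - 31 / 50 := by linarith
  have v : 0 ≤ 7 / 10 - m := by linarith
  have hz : z1 m = 11 / 100 := by
    unfold z1; rw [if_neg (by linarith), if_neg (by linarith), if_pos (by linarith)]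
  have hζ : zeta m = 1451 / 10000 - 11 / 100 * m := by
    rw [zeta_eq, hz, if_neg (by linarith), if_neg (by linarith), if_pos (by linarith)]
  obtain ⟨g1, g2, g3, g4, g5, g6, g7, g8⟩ := G.hyp_aux (by linarith) (by linarith)
    (cH7_f1 u v) (cH7_f2 u v) (cH7_f3 u v) (cH7_f4 u v) (cH7_f5 u v hz hζ) (cH7_f7 u v)
  refine Par.hyp_of g1 g2 (Or.inl rfl) g8 g6 g7 (cH7_f6 u v hζ)
    (Par.Mix.lin (t := (m - 31 / 50) * (25 / 2)) ?_ cH7_e0 cH7_e1)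
  constructor <;> (try simp only [parOf]) <;> linarith only [u, v, g3, g4, g5]

end Vale.Agent.P334
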