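import Vale.Agent.P334.CertH0

/-! P334: the certificate hypotheses on some intervals (generated). -/

namespace Vale.Agent.P334

theorem cH8_f1 {m : ℚ} (u : 0 ≤ m - 7 / 10) (v : 0 ≤ 4 / 5 - m) :
    cU m ≤ 11311 / 10000 + 77 / 125 * m := by
  unfold cU; linarith only [pw u v 0 7, pw u v 1 6, pw u v 2 5, pw u v 3 4, pw u v 4 3, pw u
      v 5 2, pw u v 6 1, pw u v 7 0]
theorem cH8_f2 {m : ℚ} (u : 0 ≤ m - 7 / 10) (v : 0 ≤ 4 / 5 - m) :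
    m * gU m ≤ 541 / 2500 + 41 / 125 * m := by
  unfold gU; linarith only [pw u v 0 7, pw u v 1 6, pw u v 2 5, pw u v 3 4, pw u v 4 3, pw u
      v 5 2, pw u v 6 1, pw u v 7 0]
theorem cH8_f3 {m : ℚ} (u : 0 ≤ m - 7 / 10) (v : 0 ≤ 4 / 5 - m) :
    (1 - m) * gU m ≤ 69 / 100 - 713 / 1000 * m := by
  unfold gU; linarith only [pw u v 0 7, pw u v 1 6, pw u v 2 5, pw u v 3 4, pw u v 4 3, pw u
      v 5 2, pw u v 6 1, pw u v 7 0]
theorem cH8_f4 {m : ℚ} (u : 0 ≤ m - 7 / 10) (v : 0 ≤ 4 / 5 - m) :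
    gU m ≤ 2 * ka * (1 + (0) - (101 / 500 - 81 / 500 * m)) := by
  unfold gU ka; linarith only [pw u v 0 6, pw u v 1 5, pw u v 2 4, pw u v 3 3, pw u v 4 2,
      pw u v 5 1, pw u v 6 0]
theorem cH8_f5 {m : ℚ} (u : 0 ≤ m - 7 / 10) (v : 0 ≤ 4 / 5 - m)
    (hz : z1 m = 227 / 1000) (hζ : zeta m = 227 / 1000 - 227 / 1000 * m) :
    ((0) - (101 / 500 - 81 / 500 * m) - tau m) * m ≤ tau m - m * eta m := by
  unfold tau eta; rw [hζ, hz]; linarith only [sq_nonneg (m - 187 / 250), pw u v 0 3, pw u v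
      1 2, pw u v 2 1, pw u v 3 0]
theorem cH8_f6 {m : ℚ} (u : 0 ≤ m - 7 / 10) (v : 0 ≤ 4 / 5 - m)
    (hζ : zeta m = 227 / 1000 - 227 / 1000 * m) :
    tau m - ((0) - (101 / 500 - 81 / 500 * m)) ≤ 377 / 1250 - 11 / 40 * m := by
  unfold tau; rw [hζ]; linarith only [pw u v 0 2, pw u v 1 1, pw u v 2 0]
theorem cH8_f7 {m : ℚ} (u : 0 ≤ m - 7 / 10) (v : 0 ≤ 4 / 5 - m) :
    (0) * m ≤ 1 - m := by
  linarith only [pw u v 0 2, pw u v 1 1, pw u v 2 0]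
theorem cH8_e0 :
    (⟨15623 / 10000, 223 / 500, 1909 / 10000, 0, 0, 0, 0, 443 / 5000, 1091 / 10000, 623 /
        1000⟩ : Par).Lin := by
  decide +kernel
theorem cH8_e1 :
    (⟨16239 / 10000, 1197 / 2500, 299 / 2500, 0, 0, 0, 0, 181 / 2500, 51 / 625, 139 / 200⟩ :
        Par).Lin := by
  decide +kernel
theorem GoodC.hyp8 {c g : ℚ → ℚ} (G : GoodC c g) {m : ℚ} (h0 : 7 / 10 < m) (h1 : m ≤ 4 / 5) :
    (parOf c g m (0) (101 / 500 - 81 / 500 * m)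
      (377 / 1250 - 11 / 40 * m) (119 / 1000 + 18 / 25 * m)).Hyp := by
  have u : 0 ≤ m - 7 / 10 := by linarith
  have v : 0 ≤ 4 / 5 - m := by linarith
  have hz : z1 m = 227 / 1000 := by
    unfold z1; rw [if_neg (by linarith), if_neg (by linarith), if_neg (by linarith)]
  have hζ : zeta m = 227 / 1000 - 227 / 1000 * m := by
    rw [zeta_eq, hz, if_neg (by linarith), if_neg (by linarith), if_neg (by linarith)]
  obtain ⟨g1, g2, g3, g4, g5, g6, g7, g8⟩ := G.hyp_aux (by linarith) (by linarith)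
    (cH8_f1 u v) (cH8_f2 u v) (cH8_f3 u v) (cH8_f4 u v) (cH8_f5 u v hz hζ) (cH8_f7 u v)
  refine Par.hyp_of g1 g2 (Or.inl rfl) g8 g6 g7 (cH8_f6 u v hζ)
    (Par.Mix.lin (t := (m - 7 / 10) * (10)) ?_ cH8_e0 cH8_e1)
  constructor <;> (try simp only [parOf]) <;> linarith only [u, v, g3, g4, g5]

theorem cH9_f1 {m : ℚ} (u : 0 ≤ m - 4 / 5) (v : 0 ≤ 9 / 10 - m) :
    cU m ≤ 11607 / 10000 + 579 / 1000 * m := by
  unfold cU; linarith only [pw u v 0 7, pw u v 1 6, pw u v 2 5, pw u v 3 4, pw u v 4 3, pw u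
      v 5 2, pw u v 6 1, pw u v 7 0]
theorem cH9_f2 {m : ℚ} (u : 0 ≤ m - 4 / 5) (v : 0 ≤ 9 / 10 - m) :
    m * gU m ≤ 2579 / 10000 + 69 / 250 * m := by
  unfold gU; linarith only [sq_nonneg (m - 849 / 1000), pw u v 0 7, pw u v 1 6, pw u v 2 5,
      pw u v 3 4, pw u v 4 3, pw u v 5 2, pw u v 6 1, pw u v 7 0]
theorem cH9_f3 {m : ℚ} (u : 0 ≤ m - 4 / 5) (v : 0 ≤ 9 / 10 - m) :
    (1 - m) * gU m ≤ 313 / 500 - 633 / 1000 * m := by
  unfold gU; linarith only [pw u v 0 7, pw u v 1 6, pw u v 2 5, pw u v 3 4, pw u v 4 3, pw u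
      v 5 2, pw u v 6 1, pw u v 7 0]
theorem cH9_f4 {m : ℚ} (u : 0 ≤ m - 4 / 5) (v : 0 ≤ 9 / 10 - m) :
    gU m ≤ 2 * ka * (1 + (0) - (194 / 625 - 149 / 500 * m)) := by
  unfold gU ka; linarith only [pw u v 0 6, pw u v 1 5, pw u v 2 4, pw u v 3 3, pw u v 4 2,
      pw u v 5 1, pw u v 6 0]
theorem cH9_f5 {m : ℚ} (u : 0 ≤ m - 4 / 5) (v : 0 ≤ 9 / 10 - m)
    (hz : z1 m = 227 / 1000) (hζ : zeta m = 227 / 1000 - 227 / 1000 * m) :
    ((0) - (194 / 625 - 149 / 500 * m) - tau m) * m ≤ tau m - m * eta m := by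
  unfold tau eta; rw [hζ, hz]; linarith only [sq_nonneg (m - 17 / 20), pw u v 0 3, pw u v 1
      2, pw u v 2 1, pw u v 3 0]
theorem cH9_f6 {m : ℚ} (u : 0 ≤ m - 4 / 5) (v : 0 ≤ 9 / 10 - m)
    (hζ : zeta m = 227 / 1000 - 227 / 1000 * m) :
    tau m - ((0) - (194 / 625 - 149 / 500 * m)) ≤ 187 / 500 - 183 / 500 * m := by
  unfold tau; rw [hζ]; linarith only [pw u v 0 2, pw u v 1 1, pw u v 2 0]
theorem cH9_f7 {m : ℚ} (u : 0 ≤ m - 4 / 5) (v : 0 ≤ 9 / 10 - m) :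
    (0) * m ≤ 1 - m := by
  linarith only [pw u v 0 2, pw u v 1 1, pw u v 2 0]
theorem cH9_e0 :
    (⟨16239 / 10000, 4787 / 10000, 299 / 2500, 0, 0, 0, 0, 9 / 125, 203 / 2500, 347 / 500⟩ :
        Par).Lin := by
  decide +kernel
theorem cH9_e1 :
    (⟨8409 / 5000, 5063 / 10000, 563 / 10000, 0, 0, 0, 0, 211 / 5000, 223 / 5000, 361 / 500⟩
        : Par).Lin := by
  decide +kernel
theorem GoodC.hyp9 {c g : ℚ → ℚ} (G : GoodC c g) {m : ℚ} (h0 : 4 / 5 < m) (h1 : m ≤ 9 / 10) :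
    (parOf c g m (0) (194 / 625 - 149 / 500 * m)
      (187 / 500 - 183 / 500 * m) (47 / 100 + 7 / 25 * m)).Hyp := by
  have u : 0 ≤ m - 4 / 5 := by linarith
  have v : 0 ≤ 9 / 10 - m := by linarith
  have hz : z1 m = 227 / 1000 := by
    unfold z1; rw [if_neg (by linarith), if_neg (by linarith), if_neg (by linarith)]
  have hζ : zeta m = 227 / 1000 - 227 / 1000 * m := by
    rw [zeta_eq, hz, if_neg (by linarith), if_neg (by linarith), if_neg (by linarith)]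
  obtain ⟨g1, g2, g3, g4, g5, g6, g7, g8⟩ := G.hyp_aux (by linarith) (by linarith)
    (cH9_f1 u v) (cH9_f2 u v) (cH9_f3 u v) (cH9_f4 u v) (cH9_f5 u v hz hζ) (cH9_f7 u v)
  refine Par.hyp_of g1 g2 (Or.inl rfl) g8 g6 g7 (cH9_f6 u v hζ)
    (Par.Mix.lin (t := (m - 4 / 5) * (10)) ?_ cH9_e0 cH9_e1)
  constructor <;> (try simp only [parOf]) <;> linarith only [u, v, g3, g4, g5]

theorem cH10_f1 {m : ℚ} (u : 0 ≤ m - 9 / 10) (v : 0 ≤ 1 - m) :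
    cU m ≤ 11913 / 10000 + 109 / 200 * m := by
  unfold cU; linarith only [pw u v 0 7, pw u v 1 6, pw u v 2 5, pw u v 3 4, pw u v 4 3, pw u
      v 5 2, pw u v 6 1, pw u v 7 0]
theorem cH10_f2 {m : ℚ} (u : 0 ≤ m - 9 / 10) (v : 0 ≤ 1 - m) :
    m * gU m ≤ 1501 / 5000 + 229 / 1000 * m := by
  unfold gU; linarith only [pw u v 0 7, pw u v 1 6, pw u v 2 5, pw u v 3 4, pw u v 4 3, pw u
      v 5 2, pw u v 6 1, pw u v 7 0]
theorem cH10_f3 {m : ℚ} (u : 0 ≤ m - 9 / 10) (v : 0 ≤ 1 - m) :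
    (1 - m) * gU m ≤ 5621 / 10000 - 281 / 500 * m := by
  unfold gU; linarith only [pw u v 0 7, pw u v 1 6, pw u v 2 5, pw u v 3 4, pw u v 4 3, pw u
      v 5 2, pw u v 6 1, pw u v 7 0]
theorem cH10_f4 {m : ℚ} (u : 0 ≤ m - 9 / 10) (v : 0 ≤ 1 - m) :
    gU m ≤ 2 * ka * (1 + (0) - (4073 / 10000 - 203 / 500 * m)) := by
  unfold gU ka; linarith only [pw u v 0 6, pw u v 1 5, pw u v 2 4, pw u v 3 3, pw u v 4 2,
      pw u v 5 1, pw u v 6 0]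
theorem cH10_f5 {m : ℚ} (u : 0 ≤ m - 9 / 10) (v : 0 ≤ 1 - m)
    (hz : z1 m = 227 / 1000) (hζ : zeta m = 227 / 1000 - 227 / 1000 * m) :
    ((0) - (4073 / 10000 - 203 / 500 * m) - tau m) * m ≤ tau m - m * eta m := by
  unfold tau eta; rw [hζ, hz]; linarith only [sq_nonneg (m - 949 / 1000), pw u v 0 3, pw u v
      1 2, pw u v 2 1, pw u v 3 0]
theorem cH10_f6 {m : ℚ} (u : 0 ≤ m - 9 / 10) (v : 0 ≤ 1 - m)
    (hζ : zeta m = 227 / 1000 - 227 / 1000 * m) :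
    tau m - ((0) - (4073 / 10000 - 203 / 500 * m)) ≤ 269 / 625 - 429 / 1000 * m := by
  unfold tau; rw [hζ]; linarith only [pw u v 0 2, pw u v 1 1, pw u v 2 0]
theorem cH10_f7 {m : ℚ} (u : 0 ≤ m - 9 / 10) (v : 0 ≤ 1 - m) :
    (0) * m ≤ 1 - m := by
  linarith only [pw u v 0 2, pw u v 1 1, pw u v 2 0]
theorem cH10_e0 :
    (⟨8409 / 5000, 5063 / 10000, 563 / 10000, 0, 0, 0, 0, 419 / 10000, 443 / 10000, 721 /
        1000⟩ : Par).Lin := by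
  decide +kernel
theorem cH10_e1 :
    (⟨17363 / 10000, 1323 / 2500, 1 / 10000, 0, 0, 0, 0, 13 / 10000, 7 / 5000, 357 / 500⟩ :
        Par).Lin := by
  decide +kernel
theorem GoodC.hyp10 {c g : ℚ → ℚ} (G : GoodC c g) {m : ℚ} (h0 : 9 / 10 < m) (h1 : m ≤ 1) :
    (parOf c g m (0) (4073 / 10000 - 203 / 500 * m)
      (269 / 625 - 429 / 1000 * m) (98 / 125 - 7 / 100 * m)).Hyp := by
  have u : 0 ≤ m - 9 / 10 := by linarith
  have v : 0 ≤ 1 - m := by linarith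
  have hz : z1 m = 227 / 1000 := by
    unfold z1; rw [if_neg (by linarith), if_neg (by linarith), if_neg (by linarith)]
  have hζ : zeta m = 227 / 1000 - 227 / 1000 * m := by
    rw [zeta_eq, hz, if_neg (by linarith), if_neg (by linarith), if_neg (by linarith)]
  obtain ⟨g1, g2, g3, g4, g5, g6, g7, g8⟩ := G.hyp_aux (by linarith) (by linarith)
    (cH10_f1 u v) (cH10_f2 u v) (cH10_f3 u v) (cH10_f4 u v) (cH10_f5 u v hz hζ) (cH10_f7 u v)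
  refine Par.hyp_of g1 g2 (Or.inl rfl) g8 g6 g7 (cH10_f6 u v hζ)
    (Par.Mix.lin (t := (m - 9 / 10) * (10)) ?_ cH10_e0 cH10_e1)
  constructor <;> (try simp only [parOf]) <;> linarith only [u, v, g3, g4, g5]

end Vale.Agent.P334
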