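import Vale.Agent.P334.CertH1
import Vale.Agent.P334.CertH2
import Vale.Agent.P334.CertH3

/-! P334: the certificate hypotheses hold for every mass. -/

namespace Vale.Agent.P334

theorem GoodC.hyp {c g : ℚ → ℚ} (G : GoodC c g) {m : ℚ} (h0 : 0 < m) (h1 : m ≤ 1) :
    ∃ sp sn kn p0 : ℚ, (parOf c g m sp sn kn p0).Hyp := by
  rcases le_or_gt m (1 / 10) with a0 | a0
  · exact ⟨_, _, _, _, G.hyp0 h0 a0⟩
  rcases le_or_gt m (1 / 5) with a1 | a1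
  · exact ⟨_, _, _, _, G.hyp1 a0 a1⟩
  rcases le_or_gt m (3 / 10) with a2 | a2
  · exact ⟨_, _, _, _, G.hyp2 a1 a2⟩
  rcases le_or_gt m (2 / 5) with a3 | a3
  · exact ⟨_, _, _, _, G.hyp3 a2 a3⟩
  rcases le_or_gt m (13 / 25) with a4 | a4
  · exact ⟨_, _, _, _, G.hyp4 a3 a4⟩
  rcases le_or_gt m (14 / 25) with a5 | a5
  · exact ⟨_, _, _, _, G.hyp5 a4 a5⟩
  rcases le_or_gt m (31 / 50) with a6 | a6
  · exact ⟨_, _, _, _, G.hyp6 a5 a6⟩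
  rcases le_or_gt m (7 / 10) with a7 | a7
  · exact ⟨_, _, _, _, G.hyp7 a6 a7⟩
  rcases le_or_gt m (4 / 5) with a8 | a8
  · exact ⟨_, _, _, _, G.hyp8 a7 a8⟩
  rcases le_or_gt m (9 / 10) with a9 | a9
  · exact ⟨_, _, _, _, G.hyp9 a8 a9⟩
  exact ⟨_, _, _, _, G.hyp10 a9 h1⟩

end Vale.Agent.P334
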