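import Vale.Agent.P334.Zeta

/-! P334: helper facts for the certificate hypotheses. -/

namespace Vale.Agent.P334

theorem pw {u v : ℚ} (hu : 0 ≤ u) (hv : 0 ≤ v) (i j : ℕ) : 0 ≤ u ^ i * v ^ j :=
  mul_nonneg (pow_nonneg hu i) (pow_nonneg hv j)

theorem GoodC.hyp_aux {c g : ℚ → ℚ} (G : GoodC c g) {m cl bl b2l gl σ sp : ℚ} (h0 : 0 < m)
    (h1 : m ≤ 1) (f1 : cU m ≤ cl) (f2 : m * gU m ≤ bl) (f3 : (1 - m) * gU m ≤ b2l)
    (f4 : gU m ≤ gl) (f5 : (σ - tau m) * m ≤ tau m - m * eta m) (f7 : sp * m ≤ 1 - m) :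
    0 ≤ m * g m ∧ 0 ≤ (1 - m) * g m ∧ c m ≤ cl ∧ m * g m ≤ bl ∧ (1 - m) * g m ≤ b2l ∧
      m * g m + (1 - m) * g m ≤ gl ∧ σ ≤ tau m + (tau m - m * eta m) / m ∧ sp ≤ (1 - m) / m := by
  have a1 := G.g_ge m h0.le h1
  have a2 := G.g_le m h0.le h1
  have a3 : 0 ≤ 1 - m := by linarith
  have a4 := (le_div_iff₀ h0).2 f5
  refine ⟨mul_nonneg h0.le (by linarith), mul_nonneg a3 (by linarith),
    (G.c_le m h0.le h1).trans f1, (mul_le_mul_of_nonneg_left a2 h0.le).trans f2,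
    (mul_le_mul_of_nonneg_left a2 a3).trans f3, by linarith, by linarith, (le_div_iff₀ h0).2 f7⟩

namespace Par

/-- the conditions that are affine in the parameters -/
def Lin (p : Par) : Prop := (0 ≤ p.sp ∧ 0 ≤ p.sn ∧ 0 ≤ p.kn ∧ p.sp ≤ 43 / 100 ∧ p.sn ≤ 1 / 2 ∧
  p.kk ≤ p.p0 ∧ 0 ≤ p.mu) ∧ (p.CL1 th ∧ p.CL1 1 ∧ p.kk * ka + p.b2 / 2 + p.kn * chi ≤ p.sl) ∧
  (p.CL 0 th ∧ p.CL 1 th ∧ p.CL 0 1 ∧ p.CL 1 1) ∧ (p.CS 0 ∧ p.CS 1) ∧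
  (p.C4 0 0 ∧ p.C4 1 0 ∧ p.C4 0 th ∧ p.C4 1 th) ∧
  ((p.C1 1 0 ∧ p.C1 1 (3 / 20)) ∧ (p.C1 (1 / 2) (3 / 20) ∧ p.C1 (1 / 2) (43 / 100)) ∧
    p.C1 (1 / 10) (43 / 100) ∧ p.C1 (1 / 10) th) ∧
  (p.C2 (7 / 20) 1 0 ∧ p.C2 (7 / 20) 1 (3 / 50)) ∧
    (p.C2 0 (43 / 100) (3 / 50) ∧ p.C2 0 (43 / 100) (6 / 25)) ∧
    p.C2 0 (1 / 20) (6 / 25) ∧ p.C2 0 (1 / 20) th

instance (p : Par) (d : ℚ) : Decidable (p.CL1 d) := by unfold CL1; infer_instance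
instance (p : Par) (K d : ℚ) : Decidable (p.CL K d) := by unfold CL; infer_instance
instance (p : Par) (K : ℚ) : Decidable (p.CS K) := by unfold CS; infer_instance
instance (p : Par) (K d : ℚ) : Decidable (p.C4 K d) := by unfold C4; infer_instance
instance (p : Par) (K d : ℚ) : Decidable (p.C1 K d) := by unfold C1; infer_instance
instance (p : Par) (ω K d : ℚ) : Decidable (p.C2 ω K d) := by unfold C2; infer_instance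
instance (p : Par) : Decidable p.Lin := by
  unfold Lin
  refine @instDecidableAnd _ _ inferInstance (@instDecidableAnd _ _ inferInstance
    (@instDecidableAnd _ _ inferInstance (@instDecidableAnd _ _ inferInstance
    (@instDecidableAnd _ _ inferInstance (@instDecidableAnd _ _ inferInstance inferInstance)))))

theorem hyp_of {p : Par} (b0 : 0 ≤ p.b) (b20 : 0 ≤ p.b2) (spn : p.sp = 0 ∨ p.sn = 0)
    (spr : p.sp ≤ p.r) (gs : p.b + p.b2 ≤ 2 * ka * (1 + p.sp - p.sn))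
    (sk : p.sp - p.sn ≤ p.tau + p.kap) (tk : p.tau - (p.sp - p.sn) ≤ p.kn) (h : p.Lin) :
    p.Hyp := by
  obtain ⟨⟨a1, a2, a3, a4, a5, a6, a7⟩, a8, a9, a10, a11, a12, a13⟩ := h
  exact ⟨b0, b20, a1, a2, spn, a3, spr, a4, a5, gs, sk, tk, a6, a7, a8, a9, a10, a11, a12, a13⟩

/-- `r` is at least as good as the mixture of `p` and `q` -/
structure Mix (t : ℚ) (p q r : Par) : Prop where
  t0 : 0 ≤ t
  t1 : t ≤ 1
  c : r.c ≤ (1 - t) * p.c + t * q.c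
  b : r.b ≤ (1 - t) * p.b + t * q.b
  b2 : r.b2 ≤ (1 - t) * p.b2 + t * q.b2
  sp : r.sp = (1 - t) * p.sp + t * q.sp
  sn : r.sn = (1 - t) * p.sn + t * q.sn
  kn : r.kn = (1 - t) * p.kn + t * q.kn
  p0 : r.p0 = (1 - t) * p.p0 + t * q.p0

namespace Mix
variable {t K d : ℚ} {p q r : Par} (h : Mix t p q r)
include h

theorem le {a b a' b' : ℚ} (h1 : a ≤ b) (h2 : a' ≤ b') :
    (1 - t) * a + t * a' ≤ (1 - t) * b + t * b' :=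
  add_le_add (mul_le_mul_of_nonneg_left h1 (sub_nonneg.2 h.t1)) (mul_le_mul_of_nonneg_left h2 h.t0)
theorem kk : r.kk = (1 - t) * p.kk + t * q.kk := by unfold Par.kk; rw [h.sp, h.sn]; ring
theorem mu : r.mu = (1 - t) * p.mu + t * q.mu := by unfold Par.mu; rw [h.kk, h.sn]; ring
theorem lamK (K : ℚ) : r.lamK K = (1 - t) * p.lamK K + t * q.lamK K := by
  unfold Par.lamK; rw [h.sp]; ring
theorem lpK (K : ℚ) : r.lpK K = (1 - t) * p.lpK K + t * q.lpK K := by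
  unfold Par.lpK; rw [h.sp]; ring
theorem sl : (1 - t) * p.sl + t * q.sl ≤ r.sl := by
  unfold Par.sl Par.kp; rw [h.sp, h.sn]; linarith [h.c]
theorem kb (K0 : 0 ≤ K) : K * r.b2 ≤ K * ((1 - t) * p.b2 + t * q.b2) :=
  mul_le_mul_of_nonneg_left h.b2 K0
theorem hc (K0 : 0 ≤ K) (d0 : 0 ≤ d) : r.hc K d ≤ (1 - t) * p.hc K d + t * q.hc K d := by
  have := mul_le_mul_of_nonneg_right (h.kb K0) (add_nonneg zero_le_one d0)
  unfold Par.hc; rw [h.kn]; linarith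
theorem B1 (d0 : 0 ≤ d) : (1 - t) * p.B1 d + t * q.B1 d ≤ r.B1 d := by
  have := mul_le_mul_of_nonneg_right h.c d0
  unfold Par.B1 Par.T; rw [h.sp]; linarith [h.b]
theorem B0 (d0 : 0 ≤ d) : (1 - t) * p.B0 d + t * q.B0 d ≤ r.B0 d := by
  unfold Par.B0; rw [h.p0]; linarith [h.B1 d0]
theorem CL (K0 : 0 ≤ K) (d0 : 0 ≤ d) (a : p.CL K d) (b : q.CL K d) : r.CL K d := by
  have h1 := h.hc K0 d0
  have h2 := h.B1 d0
  unfold Par.CL; rw [h.kk, h.lamK, h.p0]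
  exact ⟨by linarith [h.le a.1 b.1], by linarith [h.le a.2.1 b.2.1], by linarith [h.le a.2.2 b.2.2]⟩
theorem CL1 (d0 : 0 ≤ d) (a : p.CL1 d) (b : q.CL1 d) : r.CL1 d := by
  unfold Par.CL1 at *; rw [h.kk]; linarith [h.le a b, h.hc zero_le_one d0, h.B1 d0]
theorem CS (K0 : 0 ≤ K) (a : p.CS K) (b : q.CS K) : r.CS K := by
  have h1 := h.kb K0
  have h2 := h.sl
  unfold Par.CS; rw [h.kk, h.lamK, h.kn]
  exact ⟨by linarith [h.le a.1 b.1], by linarith [h.le a.2 b.2]⟩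
theorem C4 (K0 : 0 ≤ K) (d0 : 0 ≤ d) (a : p.C4 K d) (b : q.C4 K d) : r.C4 K d := by
  have h1 := h.hc K0 d0
  have h2 := h.B0 d0
  unfold Par.C4; rw [h.kk, h.lpK, h.p0]
  exact ⟨by linarith [h.le a.1 b.1], by linarith [h.le a.2 b.2]⟩
theorem C1 {s : ℚ} (d0 : 0 ≤ d) (a : p.C1 s d) (b : q.C1 s d) : r.C1 s d := by
  have h2 := h.B0 d0
  unfold Par.C1; rw [h.kk, h.lpK, h.lpK, h.p0]
  exact ⟨by linarith [h.le a.1 b.1], by linarith [h.le a.2.1 b.2.1, h.hc le_rfl d0],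
    by linarith [h.le a.2.2 b.2.2, h.hc zero_le_one d0]⟩
theorem C2 {ω s : ℚ} (d0 : 0 ≤ d) (a : p.C2 ω s d) (b : q.C2 ω s d) : r.C2 ω s d := by
  unfold Par.C2; rw [h.kk, h.mu, h.p0, h.sn]
  exact ⟨by linarith [h.le a.1 b.1], by linarith [h.le a.2.1 b.2.1],
    by linarith [h.le a.2.2 b.2.2, h.hc zero_le_one d0, h.B0 d0]⟩

theorem lin (a : p.Lin) (b : q.Lin) : r.Lin := by
  obtain ⟨⟨a1, a2, a3, a4, a5, a6, a7⟩, ⟨a8, a9, a10⟩, ⟨a11, a12, a13, a14⟩, ⟨a15, a16⟩,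
    ⟨a17, a18, a19, a20⟩, ⟨⟨a21, a22⟩, ⟨a23, a24⟩, a25, a26⟩, ⟨a27, a28⟩, ⟨a29, a30⟩, a31, a32⟩ := a
  obtain ⟨⟨b1, b2, b3, b4, b5, b6, b7⟩, ⟨b8, b9, b10⟩, ⟨b11, b12, b13, b14⟩, ⟨b15, b16⟩,
    ⟨b17, b18, b19, b20⟩, ⟨⟨b21, b22⟩, ⟨b23, b24⟩, b25, b26⟩, ⟨b27, b28⟩, ⟨b29, b30⟩, b31, b32⟩ := b
  have z : (0 : ℚ) ≤ 0 := le_rfl
  have o : (0 : ℚ) ≤ 1 := zero_le_one
  have w : 0 ≤ th := by norm_num [th]
  refine ⟨⟨?_, ?_, ?_, ?_, ?_, ?_, ?_⟩, ⟨h.CL1 w a8 b8, h.CL1 o a9 b9, ?_⟩,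
    ⟨h.CL z w a11 b11, h.CL o w a12 b12, h.CL z o a13 b13, h.CL o o a14 b14⟩,
    ⟨h.CS z a15 b15, h.CS o a16 b16⟩,
    ⟨h.C4 z z a17 b17, h.C4 o z a18 b18, h.C4 z w a19 b19, h.C4 o w a20 b20⟩,
    ⟨⟨h.C1 z a21 b21, h.C1 (by norm_num) a22 b22⟩,
      ⟨h.C1 (by norm_num) a23 b23, h.C1 (by norm_num) a24 b24⟩,
      h.C1 (by norm_num) a25 b25, h.C1 w a26 b26⟩,
    ⟨h.C2 z a27 b27, h.C2 (by norm_num) a28 b28⟩,
    ⟨h.C2 (by norm_num) a29 b29, h.C2 (by norm_num) a30 b30⟩,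
    h.C2 (by norm_num) a31 b31, h.C2 w a32 b32⟩
  · linarith only [h.le a1 b1, h.sp]
  · linarith only [h.le a2 b2, h.sn]
  · linarith only [h.le a3 b3, h.kn]
  · linarith only [h.le a4 b4, h.sp]
  · linarith only [h.le a5 b5, h.sn]
  · linarith only [h.le a6 b6, h.kk, h.p0]
  · linarith only [h.le a7 b7, h.mu]
  · rw [h.kk, h.kn]; linarith only [h.le a10 b10, h.sl, h.b2]

end Mix
end Par

end Vale.Agent.P334
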