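import Vale.Agent.P334.CertH0

/-! P334: the certificate hypotheses on some intervals (generated). -/

namespace Vale.Agent.P334

theorem cH0_f1 {m : ℚ} (u : 0 ≤ m - 0) (v : 0 ≤ 1 / 10 - m) :
    cU m ≤ 10009 / 10000 + 121 / 125 * m := by
  unfold cU; linarith only [pw u v 0 7, pw u v 1 6, pw u v 2 5, pw u v 3 4, pw u v 4 3, pw u
      v 5 2, pw u v 6 1, pw u v 7 0]
theorem cH0_f2 {m : ℚ} (u : 0 ≤ m - 0) (v : 0 ≤ 1 / 10 - m) :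
    m * gU m ≤ 17 / 10000 + 117 / 125 * m := by
  unfold gU; linarith only [sq_nonneg (m - 1 / 20), pw u v 0 7, pw u v 1 6, pw u v 2 5, pw u
      v 3 4, pw u v 4 3, pw u v 5 2, pw u v 6 1, pw u v 7 0]
theorem cH0_f3 {m : ℚ} (u : 0 ≤ m - 0) (v : 0 ≤ 1 / 10 - m) :
    (1 - m) * gU m ≤ 10001 / 10000 - 789 / 500 * m := by
  unfold gU; linarith only [pw u v 0 7, pw u v 1 6, pw u v 2 5, pw u v 3 4, pw u v 4 3, pw u
      v 5 2, pw u v 6 1, pw u v 7 0]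
theorem cH0_f4 {m : ℚ} (u : 0 ≤ m - 0) (v : 0 ≤ 1 / 10 - m) :
    gU m ≤ 2 * ka * (1 + (2103 / 5000 - 913 / 1000 * m) - (0)) := by
  unfold gU ka; linarith only [pw u v 0 6, pw u v 1 5, pw u v 2 4, pw u v 3 3, pw u v 4 2,
      pw u v 5 1, pw u v 6 0]
theorem cH0_f5 {m : ℚ} (u : 0 ≤ m - 0) (v : 0 ≤ 1 / 10 - m)
    (hz : z1 m = (-1 / 20)) (hζ : zeta m = 529 / 10000 - (-1 / 20) * m) :
    ((2103 / 5000 - 913 / 1000 * m) - (0) - tau m) * m ≤ tau m - m * eta m := by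
  unfold tau eta; rw [hζ, hz]; linarith only [pw u v 0 3, pw u v 1 2, pw u v 2 1, pw u v 3 0]
theorem cH0_f6 {m : ℚ} (u : 0 ≤ m - 0) (v : 0 ≤ 1 / 10 - m)
    (hζ : zeta m = 529 / 10000 - (-1 / 20) * m) :
    tau m - ((2103 / 5000 - 913 / 1000 * m) - (0)) ≤ 1 / 10000 := by
  unfold tau; rw [hζ]; linarith only [pw u v 0 2, pw u v 1 1, pw u v 2 0]
theorem cH0_f7 {m : ℚ} (u : 0 ≤ m - 0) (v : 0 ≤ 1 / 10 - m) :
    (2103 / 5000 - 913 / 1000 * m) * m ≤ 1 - m := by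
  linarith only [pw u v 0 2, pw u v 1 1, pw u v 2 0]
theorem cH0_e0 :
    (⟨10009 / 10000, 17 / 10000, 10001 / 10000, 0, 0, 0, 2103 / 5000, 0, 1 / 10000, 449 /
        1000⟩ : Par).Lin := by
  decide +kernel
theorem cH0_e1 :
    (⟨10977 / 10000, 953 / 10000, 8423 / 10000, 0, 0, 0, 3293 / 10000, 0, 1 / 10000, 177 /
        500⟩ : Par).Lin := by
  decide +kernel
theorem GoodC.hyp0 {c g : ℚ → ℚ} (G : GoodC c g) {m : ℚ} (h0 : 0 < m) (h1 : m ≤ 1 / 10) :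
    (parOf c g m (2103 / 5000 - 913 / 1000 * m) (0)
      (1 / 10000) (449 / 1000 - 19 / 20 * m)).Hyp := by
  have u : 0 ≤ m - 0 := by linarith
  have v : 0 ≤ 1 / 10 - m := by linarith
  have hz : z1 m = (-1 / 20) := by
    unfold z1; rw [if_pos (by linarith)]
  have hζ : zeta m = 529 / 10000 - (-1 / 20) * m := by
    rw [zeta_eq, hz, if_pos (by linarith)]
  obtain ⟨g1, g2, g3, g4, g5, g6, g7, g8⟩ := G.hyp_aux (by linarith) (by linarith)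
    (cH0_f1 u v) (cH0_f2 u v) (cH0_f3 u v) (cH0_f4 u v) (cH0_f5 u v hz hζ) (cH0_f7 u v)
  refine Par.hyp_of g1 g2 (Or.inr rfl) g8 g6 g7 (cH0_f6 u v hζ)
    (Par.Mix.lin (t := (m - 0) * (10)) ?_ cH0_e0 cH0_e1)
  constructor <;> (try simp only [parOf]) <;> linarith only [u, v, g3, g4, g5]

theorem cH1_f1 {m : ℚ} (u : 0 ≤ m - 1 / 10) (v : 0 ≤ 1 / 5 - m) :
    cU m ≤ 1007 / 1000 + 453 / 500 * m := by
  unfold cU; linarith only [pw u v 0 7, pw u v 1 6, pw u v 2 5, pw u v 3 4, pw u v 4 3, pw u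
      v 5 2, pw u v 6 1, pw u v 7 0]
theorem cH1_f2 {m : ℚ} (u : 0 ≤ m - 1 / 10) (v : 0 ≤ 1 / 5 - m) :
    m * gU m ≤ 27 / 2000 + 102 / 125 * m := by
  unfold gU; linarith only [sq_nonneg (m - 3 / 20), pw u v 0 7, pw u v 1 6, pw u v 2 5, pw u
      v 3 4, pw u v 4 3, pw u v 5 2, pw u v 6 1, pw u v 7 0]
theorem cH1_f3 {m : ℚ} (u : 0 ≤ m - 1 / 10) (v : 0 ≤ 1 / 5 - m) :
    (1 - m) * gU m ≤ 2459 / 2500 - 1413 / 1000 * m := by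
  unfold gU; linarith only [pw u v 0 7, pw u v 1 6, pw u v 2 5, pw u v 3 4, pw u v 4 3, pw u
      v 5 2, pw u v 6 1, pw u v 7 0]
theorem cH1_f4 {m : ℚ} (u : 0 ≤ m - 1 / 10) (v : 0 ≤ 1 / 5 - m) :
    gU m ≤ 2 * ka * (1 + (207 / 500 - 847 / 1000 * m) - (0)) := by
  unfold gU ka; linarith only [pw u v 0 6, pw u v 1 5, pw u v 2 4, pw u v 3 3, pw u v 4 2,
      pw u v 5 1, pw u v 6 0]
theorem cH1_f5 {m : ℚ} (u : 0 ≤ m - 1 / 10) (v : 0 ≤ 1 / 5 - m)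
    (hz : z1 m = (-1 / 20)) (hζ : zeta m = 529 / 10000 - (-1 / 20) * m) :
    ((207 / 500 - 847 / 1000 * m) - (0) - tau m) * m ≤ tau m - m * eta m := by
  unfold tau eta; rw [hζ, hz]; linarith only [pw u v 0 3, pw u v 1 2, pw u v 2 1, pw u v 3 0]
theorem cH1_f6 {m : ℚ} (u : 0 ≤ m - 1 / 10) (v : 0 ≤ 1 / 5 - m)
    (hζ : zeta m = 529 / 10000 - (-1 / 20) * m) :
    tau m - ((207 / 500 - 847 / 1000 * m) - (0)) ≤ 1 / 10000 := by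
  unfold tau; rw [hζ]; linarith only [pw u v 0 2, pw u v 1 1, pw u v 2 0]
theorem cH1_f7 {m : ℚ} (u : 0 ≤ m - 1 / 10) (v : 0 ≤ 1 / 5 - m) :
    (207 / 500 - 847 / 1000 * m) * m ≤ 1 - m := by
  linarith only [pw u v 0 2, pw u v 1 1, pw u v 2 0]
theorem cH1_e0 :
    (⟨686 / 625, 951 / 10000, 8423 / 10000, 0, 0, 0, 3293 / 10000, 0, 1 / 10000, 177 / 500⟩
        : Par).Lin := by
  decide +kernel
theorem cH1_e1 :
    (⟨5941 / 5000, 1767 / 10000, 701 / 1000, 0, 0, 0, 1223 / 5000, 0, 1 / 10000, 33 / 125⟩ :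
        Par).Lin := by
  decide +kernel
theorem GoodC.hyp1 {c g : ℚ → ℚ} (G : GoodC c g) {m : ℚ} (h0 : 1 / 10 < m) (h1 : m ≤ 1 / 5) :
    (parOf c g m (207 / 500 - 847 / 1000 * m) (0)
      (1 / 10000) (111 / 250 - 9 / 10 * m)).Hyp := by
  have u : 0 ≤ m - 1 / 10 := by linarith
  have v : 0 ≤ 1 / 5 - m := by linarith
  have hz : z1 m = (-1 / 20) := by
    unfold z1; rw [if_pos (by linarith)]
  have hζ : zeta m = 529 / 10000 - (-1 / 20) * m := by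
    rw [zeta_eq, hz, if_pos (by linarith)]
  obtain ⟨g1, g2, g3, g4, g5, g6, g7, g8⟩ := G.hyp_aux (by linarith) (by linarith)
    (cH1_f1 u v) (cH1_f2 u v) (cH1_f3 u v) (cH1_f4 u v) (cH1_f5 u v hz hζ) (cH1_f7 u v)
  refine Par.hyp_of g1 g2 (Or.inr rfl) g8 g6 g7 (cH1_f6 u v hζ)
    (Par.Mix.lin (t := (m - 1 / 10) * (10)) ?_ cH1_e0 cH1_e1)
  constructor <;> (try simp only [parOf]) <;> linarith only [u, v, g3, g4, g5]

theorem cH2_f1 {m : ℚ} (u : 0 ≤ m - 1 / 5) (v : 0 ≤ 3 / 10 - m) :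
    cU m ≤ 2037 / 2000 + 106 / 125 * m := by
  unfold cU; linarith only [sq_nonneg (m - 1 / 4), pw u v 0 7, pw u v 1 6, pw u v 2 5, pw u
      v 3 4, pw u v 4 3, pw u v 5 2, pw u v 6 1, pw u v 7 0]
theorem cH2_f2 {m : ℚ} (u : 0 ≤ m - 1 / 5) (v : 0 ≤ 3 / 10 - m) :
    m * gU m ≤ 173 / 5000 + 71 / 100 * m := by
  unfold gU; linarith only [sq_nonneg (m - 1 / 4), pw u v 0 7, pw u v 1 6, pw u v 2 5, pw u
      v 3 4, pw u v 4 3, pw u v 5 2, pw u v 6 1, pw u v 7 0]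
theorem cH2_f3 {m : ℚ} (u : 0 ≤ m - 1 / 5) (v : 0 ≤ 3 / 10 - m) :
    (1 - m) * gU m ≤ 596 / 625 - 1263 / 1000 * m := by
  unfold gU; linarith only [pw u v 0 7, pw u v 1 6, pw u v 2 5, pw u v 3 4, pw u v 4 3, pw u
      v 5 2, pw u v 6 1, pw u v 7 0]
theorem cH2_f4 {m : ℚ} (u : 0 ≤ m - 1 / 5) (v : 0 ≤ 3 / 10 - m) :
    gU m ≤ 2 * ka * (1 + (2009 / 5000 - 393 / 500 * m) - (0)) := by
  unfold gU ka; linarith only [pw u v 0 6, pw u v 1 5, pw u v 2 4, pw u v 3 3, pw u v 4 2,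
      pw u v 5 1, pw u v 6 0]
theorem cH2_f5 {m : ℚ} (u : 0 ≤ m - 1 / 5) (v : 0 ≤ 3 / 10 - m)
    (hz : z1 m = (-1 / 20)) (hζ : zeta m = 529 / 10000 - (-1 / 20) * m) :
    ((2009 / 5000 - 393 / 500 * m) - (0) - tau m) * m ≤ tau m - m * eta m := by
  unfold tau eta; rw [hζ, hz]; linarith only [pw u v 0 3, pw u v 1 2, pw u v 2 1, pw u v 3 0]
theorem cH2_f6 {m : ℚ} (u : 0 ≤ m - 1 / 5) (v : 0 ≤ 3 / 10 - m)
    (hζ : zeta m = 529 / 10000 - (-1 / 20) * m) :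
    tau m - ((2009 / 5000 - 393 / 500 * m) - (0)) ≤ 1 / 10000 := by
  unfold tau; rw [hζ]; linarith only [pw u v 0 2, pw u v 1 1, pw u v 2 0]
theorem cH2_f7 {m : ℚ} (u : 0 ≤ m - 1 / 5) (v : 0 ≤ 3 / 10 - m) :
    (2009 / 5000 - 393 / 500 * m) * m ≤ 1 - m := by
  linarith only [pw u v 0 2, pw u v 1 1, pw u v 2 0]
theorem cH2_e0 :
    (⟨11881 / 10000, 883 / 5000, 701 / 1000, 0, 0, 0, 1223 / 5000, 0, 1 / 10000, 33 / 125⟩ :
        Par).Lin := by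
  decide +kernel
theorem cH2_e1 :
    (⟨12729 / 10000, 619 / 2500, 5747 / 10000, 0, 0, 0, 83 / 500, 0, 1 / 10000, 9 / 50⟩ :
        Par).Lin := by
  decide +kernel
theorem GoodC.hyp2 {c g : ℚ → ℚ} (G : GoodC c g) {m : ℚ} (h0 : 1 / 5 < m) (h1 : m ≤ 3 / 10) :
    (parOf c g m (2009 / 5000 - 393 / 500 * m) (0)
      (1 / 10000) (54 / 125 - 21 / 25 * m)).Hyp := by
  have u : 0 ≤ m - 1 / 5 := by linarith
  have v : 0 ≤ 3 / 10 - m := by linarith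
  have hz : z1 m = (-1 / 20) := by
    unfold z1; rw [if_pos (by linarith)]
  have hζ : zeta m = 529 / 10000 - (-1 / 20) * m := by
    rw [zeta_eq, hz, if_pos (by linarith)]
  obtain ⟨g1, g2, g3, g4, g5, g6, g7, g8⟩ := G.hyp_aux (by linarith) (by linarith)
    (cH2_f1 u v) (cH2_f2 u v) (cH2_f3 u v) (cH2_f4 u v) (cH2_f5 u v hz hζ) (cH2_f7 u v)
  refine Par.hyp_of g1 g2 (Or.inr rfl) g8 g6 g7 (cH2_f6 u v hζ)
    (Par.Mix.lin (t := (m - 1 / 5) * (10)) ?_ cH2_e0 cH2_e1)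
  constructor <;> (try simp only [parOf]) <;> linarith only [u, v, g3, g4, g5]

theorem cH3_f1 {m : ℚ} (u : 0 ≤ m - 3 / 10) (v : 0 ≤ 2 / 5 - m) :
    cU m ≤ 10347 / 10000 + 397 / 500 * m := by
  unfold cU; linarith only [pw u v 0 7, pw u v 1 6, pw u v 2 5, pw u v 3 4, pw u v 4 3, pw u
      v 5 2, pw u v 6 1, pw u v 7 0]
theorem cH3_f2 {m : ℚ} (u : 0 ≤ m - 3 / 10) (v : 0 ≤ 2 / 5 - m) :
    m * gU m ≤ 63 / 1000 + 123 / 200 * m := by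
  unfold gU; linarith only [sq_nonneg (m - 7 / 20), pw u v 0 7, pw u v 1 6, pw u v 2 5, pw u
      v 3 4, pw u v 4 3, pw u v 5 2, pw u v 6 1, pw u v 7 0]
theorem cH3_f3 {m : ℚ} (u : 0 ≤ m - 3 / 10) (v : 0 ≤ 2 / 5 - m) :
    (1 - m) * gU m ≤ 9137 / 10000 - 113 / 100 * m := by
  unfold gU; linarith only [pw u v 0 7, pw u v 1 6, pw u v 2 5, pw u v 3 4, pw u v 4 3, pw u
      v 5 2, pw u v 6 1, pw u v 7 0]
theorem cH3_f4 {m : ℚ} (u : 0 ≤ m - 3 / 10) (v : 0 ≤ 2 / 5 - m) :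
    gU m ≤ 2 * ka * (1 + (77 / 200 - 73 / 100 * m) - (0)) := by
  unfold gU ka; linarith only [pw u v 0 6, pw u v 1 5, pw u v 2 4, pw u v 3 3, pw u v 4 2,
      pw u v 5 1, pw u v 6 0]
theorem cH3_f5 {m : ℚ} (u : 0 ≤ m - 3 / 10) (v : 0 ≤ 2 / 5 - m)
    (hz : z1 m = (-1 / 20)) (hζ : zeta m = 529 / 10000 - (-1 / 20) * m) :
    ((77 / 200 - 73 / 100 * m) - (0) - tau m) * m ≤ tau m - m * eta m := by
  unfold tau eta; rw [hζ, hz]; linarith only [pw u v 0 3, pw u v 1 2, pw u v 2 1, pw u v 3 0]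
theorem cH3_f6 {m : ℚ} (u : 0 ≤ m - 3 / 10) (v : 0 ≤ 2 / 5 - m)
    (hζ : zeta m = 529 / 10000 - (-1 / 20) * m) :
    tau m - ((77 / 200 - 73 / 100 * m) - (0)) ≤ 1 / 10000 := by
  unfold tau; rw [hζ]; linarith only [pw u v 0 2, pw u v 1 1, pw u v 2 0]
theorem cH3_f7 {m : ℚ} (u : 0 ≤ m - 3 / 10) (v : 0 ≤ 2 / 5 - m) :
    (77 / 200 - 73 / 100 * m) * m ≤ 1 - m := by
  linarith only [pw u v 0 2, pw u v 1 1, pw u v 2 0]
theorem cH3_e0 :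
    (⟨12729 / 10000, 99 / 400, 5747 / 10000, 0, 0, 0, 83 / 500, 0, 1 / 10000, 9 / 50⟩ :
        Par).Lin := by
  decide +kernel
theorem cH3_e1 :
    (⟨13523 / 10000, 309 / 1000, 4617 / 10000, 0, 0, 0, 93 / 1000, 0, 1 / 10000, 7 / 50⟩ :
        Par).Lin := by
  decide +kernel
theorem GoodC.hyp3 {c g : ℚ → ℚ} (G : GoodC c g) {m : ℚ} (h0 : 3 / 10 < m) (h1 : m ≤ 2 / 5) :
    (parOf c g m (77 / 200 - 73 / 100 * m) (0)
      (1 / 10000) (3 / 10 - 2 / 5 * m)).Hyp := by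
  have u : 0 ≤ m - 3 / 10 := by linarith
  have v : 0 ≤ 2 / 5 - m := by linarith
  have hz : z1 m = (-1 / 20) := by
    unfold z1; rw [if_pos (by linarith)]
  have hζ : zeta m = 529 / 10000 - (-1 / 20) * m := by
    rw [zeta_eq, hz, if_pos (by linarith)]
  obtain ⟨g1, g2, g3, g4, g5, g6, g7, g8⟩ := G.hyp_aux (by linarith) (by linarith)
    (cH3_f1 u v) (cH3_f2 u v) (cH3_f3 u v) (cH3_f4 u v) (cH3_f5 u v hz hζ) (cH3_f7 u v)
  refine Par.hyp_of g1 g2 (Or.inr rfl) g8 g6 g7 (cH3_f6 u v hζ)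
    (Par.Mix.lin (t := (m - 3 / 10) * (10)) ?_ cH3_e0 cH3_e1)
  constructor <;> (try simp only [parOf]) <;> linarith only [u, v, g3, g4, g5]

end Vale.Agent.P334
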