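import Vale.Agent.P334.Zeta

/-! P334: certificate, `th ≤ d`, `R ≤ d + 1`.
PLAN. Take l = 0, k = p.kk, a = ka, V = 1 - U, η = d + 1 - R ≥ 0.  For th ≤ d:
Bd d = B1 d if d ≤ 1, Bd d = B1 1 + sl (d - 1) if d ≥ 1, and T d + F0 d ≤ Bd d.
First: for all d ≥ th, `hc 1 d + k (a (1+d) + 1 - th) ≤ Bd d` (affine in d: from l1; on [th,1] interpolate
the two end points, beyond 1 use the slope condition); hc K d ≤ hc 1 d.
N z ≤ k (1 - th) for all z ≥ 0 (kp0: k ≤ p0) and N z ≤ k max (1-z) 0.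
U = 0: done.  U > 0: 1 - z ≤ a R V + η, so N z ≤ (1-V) k (a R V + η) + V k (1 - th);
U (Y - max ..) ≤ (1-V) Y; total ≤ (1-V)(Y + h + k η) + V (h + k (1-th) + k a R (1-V)); hA with
Lam = -(1-aK)(1-sn) η ≤ -k η (mu0); R ≤ 1 + d. -/

namespace Vale.Agent.P334

theorem certL1_kk {p : Par} (hp : p.Hyp) : 0 ≤ p.kk := by
  have h1 := hp.sp0
  have h2 := hp.sn0
  unfold Par.kk ka
  positivity

theorem certL1_N {p : Par} (hp : p.Hyp) (z : ℚ) :
    p.N z ≤ p.kk * (1 - th) ∧ p.N z ≤ p.kk * max (1 - z) 0 := by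
  have hk := certL1_kk hp
  have h0 := hp.kp0
  have h1 : p.kk * max (th - z) 0 ≤ p.p0 * max (th - z) 0 :=
    mul_le_mul_of_nonneg_right h0 (le_max_right _ _)
  have h2 : max (1 - z) 0 - max (th - z) 0 ≤ 1 - th := by
    have h3 := le_max_left (th - z) 0
    have h4 := le_max_right (th - z) 0
    have h5 : th ≤ 1 := by norm_num [th]
    rcases le_total (1 - z) 0 with h | h
    · rw [max_eq_right h]
      linarith
    · rw [max_eq_left h]
      linarith
  have h3 := mul_le_mul_of_nonneg_left h2 hk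
  have h4 := mul_nonneg hk (le_max_right (th - z) 0)
  unfold Par.N
  constructor <;> linarith

theorem certL1_Bd {p : Par} (hp : p.Hyp) {d : ℚ} (hd : th ≤ d) :
    p.T d + p.F0 d ≤ p.Bd d ∧ p.hc 1 d + p.kk * (ka * (1 + d) + 1 - th) ≤ p.Bd d := by
  obtain ⟨h1, h2, h3⟩ := hp.l1
  unfold Par.CL1 Par.B1 at h1 h2
  unfold Par.sl at h3
  unfold Par.Bd Par.N Par.F0
  rw [max_eq_right (sub_nonpos.2 hd)]
  rcases le_total d 1 with h | h
  · rw [max_eq_left (sub_nonneg.2 h), max_eq_right (sub_nonpos.2 h)]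
    have e : p.kk = p.kp + p.sp := by unfold Par.kk Par.kp; ring
    have k1 := mul_le_mul_of_nonneg_left h1 (sub_nonneg.2 h)
    have k2 := mul_le_mul_of_nonneg_left h2 (sub_nonneg.2 hd)
    rw [e] at k1 k2 ⊢
    unfold Par.hc Par.T ka chi th at *
    constructor <;> linarith
  · rw [max_eq_right (sub_nonpos.2 h), max_eq_left (sub_nonneg.2 h)]
    have k1 := mul_le_mul_of_nonneg_left h3 (sub_nonneg.2 h)
    unfold Par.hc Par.T Par.kp at *
    constructor <;> linarith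

theorem certL1_B {p : Par} (hp : p.Hyp) {K η : ℚ} (K1 : K ≤ 1) (hη : 0 ≤ η) :
    p.Lam K (-η) ≤ -(p.kk * η) := by
  have h1 := hp.mu0
  have h2 : 0 ≤ 1 - p.sn := by linarith [hp.sn1]
  unfold Par.mu at h1
  unfold Par.Lam
  rw [max_eq_right (neg_nonpos.2 hη), neg_neg, max_eq_left hη]
  have h3 := mul_nonneg h1 hη
  have h4 := mul_nonneg (mul_nonneg (sub_nonneg.2 K1) h2) hη
  unfold ka at *
  linarith

theorem Par.Hyp.certL1 {p : Par} (hp : p.Hyp) {d R K Y h : ℚ} (ha : p.Atom d R K Y h)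
    (hd : th ≤ d) (hR : R ≤ d + 1) : p.Cert d R Y h := by
  obtain ⟨b1, b2⟩ := certL1_Bd hp hd
  have hk := certL1_kk hp
  have ha0 : (0 : ℚ) ≤ ka := by norm_num [ka]
  have hη : 0 ≤ d + 1 - R := sub_nonneg.2 hR
  have hB := certL1_B hp ha.K1 hη
  have hA := ha.hA
  rw [show R - d - 1 = -(d + 1 - R) by ring] at hA
  have hc : p.hc K d ≤ p.hc 1 d := by
    have h1 := mul_nonneg (mul_nonneg (sub_nonneg.2 ha.K1) hp.b20) (add_nonneg zero_le_one ha.d0)
    unfold Par.hc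
    linarith
  have hH := ha.hH
  have h1 : Y + h + p.kk * (d + 1 - R) ≤ p.Bd d := by linarith
  refine ⟨0, fun z U _ U0 U1 hU => ?_⟩
  obtain ⟨n1, n2⟩ := certL1_N hp z
  have hV : 0 ≤ 1 - U := sub_nonneg.2 U1
  have hkR : 0 ≤ p.kk * ka * R := mul_nonneg (mul_nonneg hk ha0) ha.R0
  have h2 : h + p.kk * (1 - th) + p.kk * ka * R * U ≤ p.Bd d := by
    have k1 := mul_le_mul_of_nonneg_left U1 hkR
    have k2 := mul_le_mul_of_nonneg_left hR (mul_nonneg hk ha0)
    linarith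
  have h3 : U * p.N z ≤ U * (p.kk * (ka * R * (1 - U) + (d + 1 - R))) := by
    rcases U0.eq_or_lt with h0 | h0
    · rw [← h0, zero_mul, zero_mul]
    · have k1 := hU h0
      have k2 := mul_nonneg (mul_nonneg ha0 ha.R0) hV
      refine mul_le_mul_of_nonneg_left (n2.trans (mul_le_mul_of_nonneg_left ?_ hk)) U0
      exact max_le (by linarith) (by linarith)
  have h4 := mul_le_mul_of_nonneg_left n1 hV
  have h5 := mul_le_mul_of_nonneg_left h1 U0
  have h6 := mul_le_mul_of_nonneg_left h2 hV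
  have h7 := mul_nonneg U0 (le_max_right (z - ch * d) 0)
  linarith

end Vale.Agent.P334
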