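import Vale.Agent.P334.Zeta

/-! P334: certificate, `th ≤ d`, `d + 1 ≤ R`.
PLAN. k = p.kk ≥ 0, a = ka, V = 1 - U, ξ = R - d - 1 ≥ 0, G = a R - ξ = a (1+d) - (1-a) ξ.
Bd d = B1 d if d ≤ 1, Bd d = B1 1 + sl (d-1) if d ≥ 1, and Bd d = T d + F0 d + (1/40) max (d-1) 0.
Choose l = lamK K, except when d ≥ 1 and ξ ≤ (113/1000)(d-1), where l = lamK K - 11/50 (≥ 0).
(i) Y + h - l ξ ≤ Bd d (hA: Lam = lamK K * ξ; (11/50)(113/1000) ≤ 1/40).
(ii) hc K d + (l + k) max G 0 ≤ Bd d: the conditions CL, CS are affine in K (interpolate K = 0, 1) and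
in d (interpolate th, 1; beyond 1 use the value at 1 plus the slope CS; hc K d ≤ Bd d for G < 0 follows
from CL (lamK + k ≥ 0) and from CS beyond 1).
(iii) for all z ≥ 0: N z - l (z-1) ≤ max (k + l - p0 th) ((k+l)(1-th)), and hc K d + that ≤ Bd d
(CL parts 2, 3 with l ≤ lamK K; slope K b2/2 + kn chi ≤ sl from CS).
U = 0: (iii).  U > 0: z - 1 ≥ ξ - a R V, N z ≤ k max (a R V - ξ) 0 ≤ k V max G 0, so
total ≤ (1-V)(Y + h - l ξ) + V (h + l G + k max G 0). -/

namespace Vale.Agent.P334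

private theorem l2_kk {p : Par} (hp : p.Hyp) : 0 ≤ p.kk := by
  have h1 := hp.sp0
  have h2 := hp.sn0
  unfold Par.kk ka
  linarith

private theorem l2_core {p : Par} (hp : p.Hyp) {d R Y h l G : ℚ} (hl : 0 ≤ l) (hR : d + 1 ≤ R)
    (hR0 : 0 ≤ R) (h1 : Y + h - l * (R - d - 1) ≤ p.Bd d) (hG0 : 0 ≤ G)
    (hG : ka * R - (R - d - 1) ≤ G)
    (h2 : h + (l + p.kk) * G ≤ p.Bd d) (h3 : h + (l + p.kk - p.p0 * th) ≤ p.Bd d)
    (h4 : h + (l + p.kk) * (1 - th) ≤ p.Bd d) : p.Cert d R Y h := by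
  have hk := l2_kk hp
  have hp0 : 0 ≤ p.p0 := hk.trans hp.kp0
  have hkl : 0 ≤ l + p.kk := add_nonneg hl hk
  refine ⟨l, fun z U hz hU0 hU1 hU => ?_⟩
  rcases hU0.eq_or_lt with rfl | hU2
  · rw [zero_mul, zero_add]
    unfold Par.N
    rcases le_total z th with hz1 | hz1
    · have hz2 : 0 ≤ 1 - z := by unfold th at hz1; linarith
      rw [max_eq_left hz2, max_eq_left (sub_nonneg.2 hz1)]
      have e1 := mul_nonneg (sub_nonneg.2 hz1) (sub_nonneg.2 h3)
      have e2 := mul_nonneg hz (sub_nonneg.2 h4)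
      unfold th at *
      nlinarith
    · rw [max_eq_right (sub_nonpos.2 hz1)]
      rcases le_total z 1 with hz2 | hz2
      · rw [max_eq_left (sub_nonneg.2 hz2)]
        have e1 := mul_nonneg hkl (sub_nonneg.2 hz1)
        nlinarith
      · rw [max_eq_right (sub_nonpos.2 hz2)]
        have e1 := mul_nonneg hl (sub_nonneg.2 hz2)
        unfold th at *
        nlinarith
  · have hz1 := hU hU2
    have hV : 0 ≤ 1 - U := sub_nonneg.2 hU1
    have hξ : 0 ≤ R - d - 1 := by linarith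
    have e1 : max (1 - z) 0 ≤ (1 - U) * G := by
      refine max_le ?_ (mul_nonneg hV hG0)
      have e2 := mul_le_mul_of_nonneg_left hG hV
      have e3 := mul_nonneg hU0 hξ
      nlinarith
    have e2 : p.N z ≤ p.kk * ((1 - U) * G) := by
      unfold Par.N
      have e3 := mul_le_mul_of_nonneg_left e1 hk
      have e4 := mul_nonneg hp0 (le_max_right (th - z) 0)
      linarith
    have e3 := mul_nonneg hU0 (le_max_right (z - ch * d) 0)
    have e4 := mul_le_mul_of_nonneg_left hz1 hl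
    have e5 := mul_le_mul_of_nonneg_left h1 hU0
    have e6 := mul_le_mul_of_nonneg_left h2 hV
    have e7 := mul_le_mul_of_nonneg_left (mul_le_mul_of_nonneg_left hG hV) hl
    nlinarith

private theorem l2_CLK {p : Par} {K d : ℚ} (h0 : p.CL 0 d) (h1 : p.CL 1 d) (K0 : 0 ≤ K)
    (K1 : K ≤ 1) : p.CL K d := by
  have hK := sub_nonneg.2 K1
  obtain ⟨a1, a2, a3⟩ := h0
  obtain ⟨b1, b2, b3⟩ := h1
  have c1 := mul_le_mul_of_nonneg_left a1 hK
  have c2 := mul_le_mul_of_nonneg_left a2 hK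
  have c3 := mul_le_mul_of_nonneg_left a3 hK
  have d1 := mul_le_mul_of_nonneg_left b1 K0
  have d2 := mul_le_mul_of_nonneg_left b2 K0
  have d3 := mul_le_mul_of_nonneg_left b3 K0
  unfold Par.CL
  unfold Par.hc Par.lamK at *
  refine ⟨?_, ?_, ?_⟩
  · linarith
  · linarith
  · linarith

private theorem l2_CLd {p : Par} {K d : ℚ} (h0 : p.CL K th) (h1 : p.CL K 1) (d0 : th ≤ d)
    (d1 : d ≤ 1) : p.CL K d := by
  have hK := sub_nonneg.2 d1
  have K0 := sub_nonneg.2 d0
  obtain ⟨a1, a2, a3⟩ := h0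
  obtain ⟨b1, b2, b3⟩ := h1
  have c1 := mul_le_mul_of_nonneg_left a1 hK
  have c2 := mul_le_mul_of_nonneg_left a2 hK
  have c3 := mul_le_mul_of_nonneg_left a3 hK
  have d1 := mul_le_mul_of_nonneg_left b1 K0
  have d2 := mul_le_mul_of_nonneg_left b2 K0
  have d3 := mul_le_mul_of_nonneg_left b3 K0
  unfold Par.CL
  unfold Par.hc Par.B1 Par.T th at *
  refine ⟨?_, ?_, ?_⟩
  · linarith
  · linarith
  · linarith

private theorem l2_CSK {p : Par} {K : ℚ} (h0 : p.CS 0) (h1 : p.CS 1) (K0 : 0 ≤ K)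
    (K1 : K ≤ 1) : p.CS K := by
  have hK := sub_nonneg.2 K1
  obtain ⟨a1, a2⟩ := h0
  obtain ⟨b1, b2⟩ := h1
  have c1 := mul_le_mul_of_nonneg_left a1 hK
  have c2 := mul_le_mul_of_nonneg_left a2 hK
  have d1 := mul_le_mul_of_nonneg_left b1 K0
  have d2 := mul_le_mul_of_nonneg_left b2 K0
  unfold Par.CS
  unfold Par.lamK at *
  refine ⟨?_, ?_⟩
  · linarith
  · linarith

theorem Par.Hyp.certL2 {p : Par} (hp : p.Hyp) {d R K Y h : ℚ} (ha : p.Atom d R K Y h)
    (hd : th ≤ d) (hR : d + 1 ≤ R) : p.Cert d R Y h := by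
  have hk := l2_kk hp
  have hξ : 0 ≤ R - d - 1 := by linarith
  have hd0 := ha.d0
  have hlam : 11 / 50 ≤ p.lamK K := by
    have e1 := mul_nonneg (sub_nonneg.2 ha.K1) hp.sp0
    have e2 := ha.K1
    have e3 := hp.sp0
    unfold Par.lamK ka
    nlinarith
  have hA : Y + h - p.lamK K * (R - d - 1) ≤ p.T d + p.F0 d := by
    have e1 := ha.hA
    unfold Par.Lam at e1
    rw [max_eq_left hξ, max_eq_right (neg_nonpos.2 hξ)] at e1
    unfold Par.lamK
    linarith
  have hH := ha.hH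
  have hL1 := l2_CLK hp.l2.2.2.1 hp.l2.2.2.2 ha.K0 ha.K1
  have hG : ka * R - (R - d - 1) ≤ ka * (1 + d) := by
    unfold ka
    linarith
  have hG0 : 0 ≤ ka * (1 + d) := by
    unfold ka
    linarith
  rcases le_total d 1 with hd1 | hd1
  · obtain ⟨a1, a2, a3⟩ := l2_CLd (l2_CLK hp.l2.1 hp.l2.2.1 ha.K0 ha.K1) hL1 hd hd1
    have hB : p.Bd d = p.B1 d := by
      unfold Par.Bd Par.N Par.B1 Par.kp Par.kk
      rw [max_eq_left (sub_nonneg.2 hd1), max_eq_right (sub_nonpos.2 hd)]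
      ring
    have hF : p.T d + p.F0 d = p.B1 d := by
      unfold Par.F0 Par.B1
      rw [max_eq_left (sub_nonneg.2 hd1), max_eq_right (sub_nonpos.2 hd1)]
      ring
    refine l2_core hp (l := p.lamK K) (by linarith) hR ha.R0 (by linarith) hG0 hG ?_ ?_ ?_
    · linarith
    · linarith
    · linarith
  · obtain ⟨a1, a2, a3⟩ := hL1
    obtain ⟨s1, s2⟩ := l2_CSK hp.ls.1 hp.ls.2 ha.K0 ha.K1
    have hδ := sub_nonneg.2 hd1
    have hB : p.Bd d = p.B1 1 + p.sl * (d - 1) := by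
      unfold Par.Bd Par.N Par.B1 Par.sl Par.T
      rw [max_eq_right (sub_nonpos.2 hd1), max_eq_right (sub_nonpos.2 hd)]
      ring
    have hF : p.T d + p.F0 d + 1 / 40 * (d - 1) = p.Bd d := by
      unfold Par.F0 Par.Bd Par.N Par.kp
      rw [max_eq_right (sub_nonpos.2 hd1), max_eq_left hδ, max_eq_right (sub_nonpos.2 hd)]
      ring
    have hc : p.hc K d = p.hc K 1 + (K * p.b2 / 2 + p.kn * chi) * (d - 1) := by
      unfold Par.hc
      ring
    have t1 := mul_le_mul_of_nonneg_right s1 hδ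
    have t2 := mul_le_mul_of_nonneg_right s2 hδ
    have t3 : h ≤ p.hc K 1 + p.sl * (d - 1) := by
      have e1 := mul_nonneg (show 0 ≤ p.lamK K + p.kk by linarith) hδ
      unfold ka at t1
      linarith
    rcases le_total (R - d - 1) (113 / 1000 * (d - 1)) with hx | hx
    · refine l2_core hp (l := p.lamK K - 11 / 50) (by linarith) hR ha.R0 (by linarith) hG0 hG
        ?_ ?_ ?_
      · unfold ka at *
        linarith
      · linarith
      · unfold th at *
        linarith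
    · refine l2_core hp (l := p.lamK K) (by linarith) hR ha.R0 (by linarith)
        (G := ka * 2 + (ka - (1 - ka) * (113 / 1000)) * (d - 1)) ?_ ?_ ?_ ?_ ?_
      · unfold ka
        linarith
      · unfold ka
        linarith
      · linarith
      · linarith
      · linarith

end Vale.Agent.P334
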