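import Vale.Agent.P334.Zeta

/-! P334: certificate, `d ≤ th`, `d + 1 ≤ R`.
PLAN. l = lpK K ≥ 0, k = p.kk, a = ka, V = 1 - U, ξ = R - d - 1 ≥ 0, w = a (1+d), Bd d = B0 d,
T d + F0 d = B1 d = B0 d + p0 (th - d), Lam = lamK K * ξ.
U = 0: N z - l (z-1) ≤ max (k + l - p0 th) ((k+l)(1-th)) and C4 (affine in K and d: interpolate
K = 0,1 and d = 0, th).
U > 0: z ≥ 1 + ξ - a R V, max (z - ch d) 0 ≥ z - ch d, N z ≤ k max (a R V - ξ) 0 ≤ k w V.  With
R = 1 + d + ξ: total - B0 d ≤ -(1-V) s - V q + w V (1-V) + ξ E, where s = 1 - ch d - p0 (th - d),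
q = B0 d - hc K d - (l + k) w, E = (1-V)(lamK K - 1 + a V) - l (1 - a V).
E ≤ 0: affine in K; K = 0: sp (1-V) ≤ sp (1 - aV) and a V (1-V) ≤ (109/1000)(1 - aV) (a square);
K = 1: with W = 1-V, W ((1-a) sp - a W) ≤ ((1-a) sp)^2/(4a) ≤ (1-a) sp/5 ≤ (sp/5)(1 - aV) (sp ≤ 43/100).
Rest: on each of the ranges [0,3/20], [3/20,43/100], [43/100,th] with t = 1, 1/2, 1/10 the conditions C1
(affine in d; the last two parts are K = 0, 1) give s ≥ t^2 w, q ≥ (1-t)^2 w, and
V (1-V) ≤ t^2 (1-V) + (1-t)^2 V because the difference is (V - t)^2. -/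

namespace Vale.Agent.P334

private lemma certS1_aff (F : ℚ → ℚ) (hF : ∀ x, F x = F 0 + (F 1 - F 0) * x) {x0 x1 x : ℚ}
    (h0 : 0 ≤ F x0) (h1 : 0 ≤ F x1) (hx0 : x0 ≤ x) (hx1 : x ≤ x1) : 0 ≤ F x := by
  rw [hF] at h0 h1 ⊢
  rcases le_total 0 (F 1 - F 0) with hB | hB
  · nlinarith [mul_le_mul_of_nonneg_left hx0 hB]
  · nlinarith [mul_le_mul_of_nonpos_left hx1 hB]

private lemma certS1_C1 (p : Par) {t d0 d1 d : ℚ} (h0 : p.C1 t d0) (h1 : p.C1 t d1)
    (hx0 : d0 ≤ d) (hx1 : d ≤ d1) : p.C1 t d := by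
  obtain ⟨a0, b0, c0⟩ := h0
  obtain ⟨a1, b1, c1⟩ := h1
  refine ⟨?_, ?_, ?_⟩
  · have := certS1_aff (fun x => 1 - ch * x - p.p0 * (th - x) - t ^ 2 * (ka * (1 + x)))
      (by intro x; ring) (x0 := d0) (x1 := d1) (x := d) (by simpa using a0) (by simpa using a1) hx0 hx1
    simpa using this
  · have := certS1_aff (fun x => p.B0 x - (p.hc 0 x + (p.lpK 0 + p.kk) * (ka * (1 + x)) +
      (1 - t) ^ 2 * (ka * (1 + x))))
      (by intro x; simp only [Par.B0, Par.B1, Par.T, Par.hc]; ring) (x0 := d0) (x1 := d1) (x := d)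
      (by simpa using b0) (by simpa using b1) hx0 hx1
    simpa using this
  · have := certS1_aff (fun x => p.B0 x - (p.hc 1 x + (p.lpK 1 + p.kk) * (ka * (1 + x)) +
      (1 - t) ^ 2 * (ka * (1 + x))))
      (by intro x; simp only [Par.B0, Par.B1, Par.T, Par.hc]; ring) (x0 := d0) (x1 := d1) (x := d)
      (by simpa using c0) (by simpa using c1) hx0 hx1
    simpa using this

private lemma certS1_C4d (p : Par) {K d : ℚ} (h0 : p.C4 K 0) (h1 : p.C4 K th)
    (hx0 : 0 ≤ d) (hx1 : d ≤ th) : p.C4 K d := by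
  obtain ⟨a0, b0⟩ := h0
  obtain ⟨a1, b1⟩ := h1
  refine ⟨?_, ?_⟩
  · have := certS1_aff (fun x => p.B0 x - (p.hc K x + (p.lpK K + p.kk - p.p0 * th)))
      (by intro x; simp only [Par.B0, Par.B1, Par.T, Par.hc]; ring) (x0 := 0) (x1 := th) (x := d)
      (by simpa using a0) (by simpa using a1) hx0 hx1
    simpa using this
  · have := certS1_aff (fun x => p.B0 x - (p.hc K x + (p.lpK K + p.kk) * (1 - th)))
      (by intro x; simp only [Par.B0, Par.B1, Par.T, Par.hc]; ring) (x0 := 0) (x1 := th) (x := d)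
      (by simpa using b0) (by simpa using b1) hx0 hx1
    simpa using this

private lemma certS1_C4K (p : Par) {K d : ℚ} (h0 : p.C4 0 d) (h1 : p.C4 1 d)
    (hx0 : 0 ≤ K) (hx1 : K ≤ 1) : p.C4 K d := by
  obtain ⟨a0, b0⟩ := h0
  obtain ⟨a1, b1⟩ := h1
  refine ⟨?_, ?_⟩
  · have := certS1_aff (fun x => p.B0 d - (p.hc x d + (p.lpK x + p.kk - p.p0 * th)))
      (by intro x; simp only [Par.lpK, Par.hc]; ring) (x0 := 0) (x1 := 1) (x := K)
      (by simpa using a0) (by simpa using a1) hx0 hx1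
    simpa using this
  · have := certS1_aff (fun x => p.B0 d - (p.hc x d + (p.lpK x + p.kk) * (1 - th)))
      (by intro x; simp only [Par.lpK, Par.hc]; ring) (x0 := 0) (x1 := 1) (x := K)
      (by simpa using b0) (by simpa using b1) hx0 hx1
    simpa using this

private lemma certS1_E (p : Par) (h0 : 0 ≤ p.sp) (h1 : p.sp ≤ 43 / 100) {K V : ℚ}
    (hK0 : 0 ≤ K) (hK1 : K ≤ 1) (hV0 : 0 ≤ V) (hV1 : V ≤ 1) :
    (1 - V) * (p.lamK K - 1 + ka * V) ≤ p.lpK K * (1 - ka * V) := by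
  have := certS1_aff (fun x => p.lpK x * (1 - ka * V) - (1 - V) * (p.lamK x - 1 + ka * V))
    (by intro x; simp only [Par.lpK, Par.lamK]; ring) (x0 := 0) (x1 := 1) (x := K) ?_ ?_ hK0 hK1
  · simpa using this
  · simp only [Par.lpK, Par.lamK, ka]
    nlinarith [mul_nonneg h0 hV0, sq_nonneg (V - 1109 / 2000)]
  · simp only [Par.lpK, Par.lamK, ka]
    nlinarith [mul_nonneg h0 hV0, mul_nonneg h0 (sub_nonneg.2 hV1), mul_nonneg h0 (sub_nonneg.2 h1),
      sq_nonneg (81 / 125 * p.sp - 88 / 125 * (1 - V))]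

private lemma certS1_rest (p : Par) {t d K V : ℚ} (hc : p.C1 t d) (hd : 0 ≤ d)
    (hK0 : 0 ≤ K) (hK1 : K ≤ 1) (hV0 : 0 ≤ V) (hV1 : V ≤ 1) :
    ka * (1 + d) * V * (1 - V) ≤ (1 - V) * (1 - ch * d - p.p0 * (th - d)) +
      V * (p.B0 d - p.hc K d - (p.lpK K + p.kk) * (ka * (1 + d))) := by
  obtain ⟨a, b, c⟩ := hc
  have hq := certS1_aff (fun x => p.B0 d - (p.hc x d + (p.lpK x + p.kk) * (ka * (1 + d)) +
      (1 - t) ^ 2 * (ka * (1 + d))))
      (by intro x; simp only [Par.lpK, Par.hc]; ring) (x0 := 0) (x1 := 1) (x := K)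
      (by simpa using b) (by simpa using c) hK0 hK1
  have hw : 0 ≤ ka * (1 + d) := by unfold ka; positivity
  set w := ka * (1 + d) with hwdef
  have h1 := mul_le_mul_of_nonneg_left a (sub_nonneg.2 hV1)
  have h2 := mul_nonneg hV0 hq
  have h3 := mul_nonneg hw (sq_nonneg (V - t))
  nlinarith [h1, h2, h3]

theorem Par.Hyp.certS1 {p : Par} (hp : p.Hyp) {d R K Y h : ℚ} (ha : p.Atom d R K Y h)
    (hd : d ≤ th) (hR : d + 1 ≤ R) : p.Cert d R Y h := by
  obtain ⟨d0, R0, K0, K1, hA, hH⟩ := ha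
  have hth : th = 57 / 100 := rfl
  have hka : ka = 44 / 125 := rfl
  have hsp := hp.sp0
  have hsn := hp.sn0
  have hk : 0 ≤ p.kk := by unfold Par.kk; rw [hka]; positivity
  have hp0 : 0 ≤ p.p0 := le_trans hk hp.kp0
  have hl : 0 ≤ p.lpK K := by
    unfold Par.lpK
    have := sub_nonneg.2 K1
    positivity
  have hd1 : d ≤ 1 := by rw [hth] at hd; linarith
  have hBd : p.Bd d = p.B0 d := by
    unfold Par.Bd Par.B0 Par.B1 Par.N
    rw [max_eq_left (sub_nonneg.2 hd1), max_eq_left (sub_nonneg.2 hd)]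
    unfold Par.kp Par.kk
    ring
  have hξ : 0 ≤ R - d - 1 := by linarith
  have hA' : Y + h ≤ p.B0 d + p.p0 * (th - d) + p.lamK K * (R - d - 1) := by
    refine le_trans hA (le_of_eq ?_)
    unfold Par.F0 Par.Lam Par.B0 Par.B1 Par.lamK
    rw [max_eq_left (sub_nonneg.2 hd1), max_eq_right (sub_nonpos.2 hd1), max_eq_left hξ,
      max_eq_right (neg_nonpos.2 hξ)]
    ring
  refine ⟨p.lpK K, fun z U hz hU0 hU1 hU => ?_⟩
  rw [hBd]
  rcases eq_or_lt_of_le hU0 with hU00 | hUpos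
  · subst hU00
    obtain ⟨c1, c2⟩ : p.C4 K d := certS1_C4K p (certS1_C4d p hp.c4.1 hp.c4.2.2.1 d0 hd)
      (certS1_C4d p hp.c4.2.1 hp.c4.2.2.2 d0 hd) K0 K1
    have hkl : 0 ≤ p.lpK K + p.kk := add_nonneg hl hk
    unfold Par.N
    rcases le_total z th with h1 | h1
    · have hz1 : z ≤ 1 := by rw [hth] at h1; linarith
      rw [max_eq_left (sub_nonneg.2 hz1), max_eq_left (sub_nonneg.2 h1)]
      have := certS1_aff (fun x => p.B0 d - (p.hc K d + (p.lpK K + p.kk) * (1 - x) -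
        p.p0 * (th - x))) (by intro x; ring) (x0 := 0) (x1 := th) (x := z)
        (by linarith) (by linarith) hz h1
      linarith
    · rw [max_eq_right (sub_nonpos.2 h1)]
      rcases le_total z 1 with h2 | h2
      · rw [max_eq_left (sub_nonneg.2 h2)]
        have := mul_le_mul_of_nonneg_left (sub_le_sub_left h1 1) hkl
        linarith
      · rw [max_eq_right (sub_nonpos.2 h2)]
        have h3 := mul_nonneg hl (sub_nonneg.2 h2)
        have h4 : 0 ≤ (p.lpK K + p.kk) * (1 - th) := mul_nonneg hkl (by rw [hth]; norm_num)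
        linarith
  · have hz0 := hU hUpos
    obtain ⟨V, hV⟩ : ∃ V, V = 1 - U := ⟨_, rfl⟩
    have hUV : U = 1 - V := by linarith
    have hV0 : 0 ≤ V := by linarith
    have hV1 : V ≤ 1 := by linarith
    subst hUV
    obtain ⟨ξ, hξd⟩ : ∃ ξ, ξ = R - d - 1 := ⟨_, rfl⟩
    have hRξ : R = 1 + d + ξ := by linarith
    subst hRξ
    have hξ0 : 0 ≤ ξ := by linarith
    have hrest : ka * (1 + d) * V * (1 - V) ≤ (1 - V) * (1 - ch * d - p.p0 * (th - d)) +
      V * (p.B0 d - p.hc K d - (p.lpK K + p.kk) * (ka * (1 + d))) := by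
      rcases le_total d (3 / 20) with h1 | h1
      · exact certS1_rest p (certS1_C1 p hp.c1.1.1 hp.c1.1.2 d0 h1) d0 K0 K1 hV0 hV1
      · rcases le_total d (43 / 100) with h2 | h2
        · exact certS1_rest p (certS1_C1 p hp.c1.2.1.1 hp.c1.2.1.2 h1 h2) d0 K0 K1 hV0 hV1
        · exact certS1_rest p (certS1_C1 p hp.c1.2.2.1 hp.c1.2.2.2 h2 hd) d0 K0 K1 hV0 hV1
    have hE := mul_le_mul_of_nonneg_left (certS1_E p hsp hp.sp1 K0 K1 hV0 hV1) hξ0
    have hz1 : 1 + ξ - ka * (1 + d + ξ) * V ≤ z := by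
      have : 1 - (1 - V) = V := by ring
      rw [this] at hz0
      linarith
    have hN : p.N z ≤ p.kk * (ka * (1 + d) * V) := by
      unfold Par.N
      have h1 : 0 ≤ p.p0 * max (th - z) 0 := mul_nonneg hp0 (le_max_right _ _)
      have h2 : max (1 - z) 0 ≤ ka * (1 + d) * V := by
        apply max_le
        · have : 0 ≤ ξ * (1 - ka * V) := mul_nonneg hξ0 (by rw [hka]; linarith)
          nlinarith
        · rw [hka]; positivity
      have h3 := mul_le_mul_of_nonneg_left h2 hk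
      linarith
    have hm : 1 + ξ - ka * (1 + d + ξ) * V - ch * d ≤ max (z - ch * d) 0 :=
      le_trans (by linarith) (le_max_left _ _)
    have h1 := mul_le_mul_of_nonneg_left hm hU0
    have h2 := mul_le_mul_of_nonneg_left hA' hU0
    have h3 := mul_le_mul_of_nonneg_left hH hV0
    have h4 := mul_le_mul_of_nonneg_left hz1 hl
    nlinarith [h1, h2, h3, h4, hN, hE, hrest]

end Vale.Agent.P334
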