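import Vale.Agent.P334.Zeta

/-! P334: certificate, `d ≤ th`, `R ≤ d + 1`.
PLAN. l = 0, k = p.kk, a = ka, V = 1 - U, η = d + 1 - R ∈ [0, 1+d], Bd d = B0 d,
T d + F0 d = B0 d + p0 (th - d), Lam ≤ -(1-a)(1-sn) η = -(mu + k) η.  N z ≤ k (1 - th) (kp0).
Pick the range of d: (ω, t) = (7/20, 1) on [0,3/50], (0, 43/100) on [3/50, 6/25], (0, 1/20) on
[6/25, th]; C2 is affine in d, so it holds at d.  μ = mu + ω ∈ [0,1] (mu ≤ 0.623).
Let s = μ (1 - ch d) - p0 (th - d), q = B0 d - hc 1 d - k (1-th), w = (μ + k) a (1+d).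
U = 0: q ≥ 0.  U > 0: z ≥ 1 - η - a R V, max (z - ch d) 0 ≥ μ (z - ch d),
N z ≤ (1-V) k (η + a R V) + V k (1-th), hence
total - B0 d ≤ -(1-V)(s - ω η) - V q + (μ + k) a (1 + d - η) V (1-V).
This is affine in η; at η = 1+d it is ≤ 0 by the second part of C2 and q ≥ 0; at η = 0 use s ≥ t^2 w,
q ≥ (1-t)^2 w and V (1-V) ≤ t^2 (1-V) + (1-t)^2 V (the difference is (V-t)^2). -/

namespace Vale.Agent.P334

theorem certS2_aff (f : ℚ → ℚ) (hf : ∀ x, f x = f 0 + (f 1 - f 0) * x) {d0 d1 d : ℚ}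
    (h0 : 0 ≤ f d0) (h1 : 0 ≤ f d1) (hd0 : d0 ≤ d) (hd1 : d ≤ d1) : 0 ≤ f d := by
  rw [hf] at h0 h1 ⊢
  rcases le_total 0 (f 1 - f 0) with h | h
  · nlinarith [mul_le_mul_of_nonneg_left hd0 h]
  · nlinarith [mul_le_mul_of_nonpos_left hd1 h]

theorem certS2_C2 {p : Par} {ω t d0 d1 d : ℚ} (h0 : p.C2 ω t d0) (h1 : p.C2 ω t d1)
    (hd0 : d0 ≤ d) (hd1 : d ≤ d1) : p.C2 ω t d := by
  refine ⟨sub_nonneg.1 ?_, sub_nonneg.1 ?_, sub_nonneg.1 ?_⟩
  · exact certS2_aff (fun d => (p.mu + ω) * (1 - ch * d) - p.p0 * (th - d) -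
      t ^ 2 * (((1 - ka) * (1 - p.sn) + ω) * ka * (1 + d))) (fun x => by ring)
      (sub_nonneg.2 h0.1) (sub_nonneg.2 h1.1) hd0 hd1
  · exact certS2_aff (fun d => (p.mu + ω) * (1 - ch * d) - p.p0 * (th - d) - ω * (1 + d))
      (fun x => by ring) (sub_nonneg.2 h0.2.1) (sub_nonneg.2 h1.2.1) hd0 hd1
  · exact certS2_aff (fun d => p.B0 d - (p.hc 1 d + p.kk * (1 - th) +
      (1 - t) ^ 2 * (((1 - ka) * (1 - p.sn) + ω) * ka * (1 + d))))
      (fun x => by simp only [Par.B0, Par.B1, Par.T, Par.hc]; ring)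
      (sub_nonneg.2 h0.2.2) (sub_nonneg.2 h1.2.2) hd0 hd1

theorem certS2_core {s q w ω t D η V : ℚ} (hD : 0 < D) (hη0 : 0 ≤ η) (hη1 : η ≤ D) (hw : 0 ≤ w)
    (hV0 : 0 ≤ V) (hV1 : V ≤ 1) (h1 : t ^ 2 * (w * D) ≤ s) (h2 : ω * D ≤ s)
    (h3 : (1 - t) ^ 2 * (w * D) ≤ q) :
    -(V * q) - (1 - V) * (s - ω * η) + w * (D - η) * (V * (1 - V)) ≤ 0 := by
  have hU : 0 ≤ 1 - V := by linarith
  have hwD : 0 ≤ w * D := by positivity
  have hq : 0 ≤ q := le_trans (by positivity) h3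
  have e0 : -(V * q) - (1 - V) * s + w * D * (V * (1 - V)) ≤ 0 := by
    have a1 := mul_le_mul_of_nonneg_left h1 hU
    have a2 := mul_le_mul_of_nonneg_left h3 hV0
    have a3 := mul_nonneg hwD (sq_nonneg (V - t))
    nlinarith
  have e1 : -(V * q) - (1 - V) * (s - ω * D) ≤ 0 := by
    have a1 := mul_nonneg hU (sub_nonneg.2 h2)
    have a2 := mul_nonneg hV0 hq
    linarith
  have a1 := mul_nonpos_of_nonneg_of_nonpos (sub_nonneg.2 hη1) e0
  have a2 := mul_nonpos_of_nonneg_of_nonpos hη0 e1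
  refine le_of_mul_le_mul_left ?_ hD
  nlinarith

theorem certS2_main {p : Par} (hp : p.Hyp) {d R K Y h ω t : ℚ} (ha : p.Atom d R K Y h)
    (hd : d ≤ th) (hR : R ≤ d + 1) (hω0 : 0 ≤ ω) (hω1 : ω ≤ 7 / 20) (hc : p.C2 ω t d) :
    p.Cert d R Y h := by
  have hka : ka = 44 / 125 := rfl
  have hth : th = 57 / 100 := rfl
  have hd0 := ha.d0
  have hR0 := ha.R0
  have hsp := hp.sp0
  have hsn := hp.sn0
  have hsn1 := hp.sn1
  have hk : 1 / 40 ≤ p.kk := by
    have : 0 ≤ (1 - ka) * p.sp := mul_nonneg (by rw [hka]; norm_num) hsp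
    unfold Par.kk
    linarith
  have hkp := hp.kp0
  have hB : p.Bd d = p.B0 d := by
    simp only [Par.Bd, Par.N, Par.B0, Par.B1, Par.kp, Par.kk]
    rw [max_eq_left (by linarith), max_eq_left (by linarith)]
    ring
  obtain ⟨m, hm⟩ : ∃ m : ℚ, m = (1 - ka) * (1 - p.sn) := ⟨_, rfl⟩
  have hmu : p.mu = m - p.kk := by rw [hm]; rfl
  have hm1 : m ≤ 81 / 125 := by rw [hm, hka]; linarith
  have hμ0 : 0 ≤ p.mu + ω := add_nonneg hp.mu0 hω0
  have hμ1 : p.mu + ω ≤ 1 := by linarith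
  obtain ⟨η, hη⟩ : ∃ η : ℚ, η = d + 1 - R := ⟨_, rfl⟩
  have hη0 : 0 ≤ η := by linarith
  have hA : Y + h ≤ p.B0 d + p.p0 * (th - d) - m * η := by
    have h1 := ha.hA
    simp only [Par.F0, Par.Lam] at h1
    rw [max_eq_left (by linarith : (0 : ℚ) ≤ 1 - d), max_eq_right (by linarith : d - 1 ≤ 0),
      max_eq_right (by linarith : R - d - 1 ≤ 0),
      max_eq_left (by linarith : (0 : ℚ) ≤ -(R - d - 1))] at h1
    have h2 : 0 ≤ ka * (1 - K) * ((1 - p.sn) * η) :=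
      mul_nonneg (mul_nonneg (by rw [hka]; norm_num) (sub_nonneg.2 ha.K1))
        (mul_nonneg (by linarith) hη0)
    simp only [Par.B0, Par.B1]
    rw [hm]
    rw [hη] at h2 ⊢
    linarith
  have hH : h ≤ p.hc 1 d := by
    refine ha.hH.trans ?_
    have : 0 ≤ (1 - K) * (p.b2 * (1 + d)) :=
      mul_nonneg (sub_nonneg.2 ha.K1) (mul_nonneg hp.b20 (by linarith))
    unfold Par.hc
    linarith
  have hw : 0 ≤ (m + ω) * ka := by
    have := hp.mu0
    exact mul_nonneg (by linarith) (by rw [hka]; norm_num)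
  obtain ⟨c1, c2, c3⟩ := hc
  rw [← hm] at c1 c3
  have c3' : (1 - t) ^ 2 * ((m + ω) * ka * (1 + d)) ≤ p.B0 d - p.hc 1 d - p.kk * (1 - th) := by
    linarith
  refine ⟨0, fun z U hz hU0 hU1 hzU => ?_⟩
  have hN1 : p.N z ≤ p.kk * (1 - th) := by
    unfold Par.N
    rcases le_total z th with h1 | h1
    · rw [max_eq_left (by linarith), max_eq_left (by linarith)]
      linarith [mul_nonneg (sub_nonneg.2 hkp) (sub_nonneg.2 h1)]
    · rw [max_eq_right (by linarith : th - z ≤ 0), mul_zero, sub_zero]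
      exact mul_le_mul_of_nonneg_left (max_le (by linarith) (by linarith)) (by linarith)
  rw [hB]
  rcases hU0.eq_or_lt with h0 | h0
  · have : 0 ≤ (1 - t) ^ 2 * ((m + ω) * ka * (1 + d)) := by positivity
    rw [← h0]
    linarith
  have hz1 := hzU h0
  have hV : 0 ≤ 1 - U := by linarith
  have haR : 0 ≤ ka * R * (1 - U) :=
    mul_nonneg (mul_nonneg (by rw [hka]; norm_num) hR0) hV
  have hN2 : p.N z ≤ p.kk * (η + ka * R * (1 - U)) := by
    unfold Par.N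
    have h1 : 0 ≤ p.p0 * max (th - z) 0 := mul_nonneg (by linarith) (le_max_right _ _)
    have h2 : p.kk * max (1 - z) 0 ≤ p.kk * (η + ka * R * (1 - U)) :=
      mul_le_mul_of_nonneg_left (max_le (by linarith) (by linarith)) (by linarith)
    linarith
  have hM : (p.mu + ω) * (1 - η - ka * R * (1 - U) - ch * d) ≤ max (z - ch * d) 0 := by
    refine le_trans (mul_le_mul_of_nonneg_left (le_max_of_le_left (by linarith) :
      _ ≤ max (z - ch * d) 0) hμ0) ?_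
    exact mul_le_of_le_one_left (le_max_right _ _) hμ1
  have core := certS2_core (t := t) (D := 1 + d) (η := η) (V := 1 - U) (by linarith) hη0
    (by linarith) hw hV (by linarith) c1 c2 c3'
  have b1 := mul_le_mul_of_nonneg_left hA hU0
  have b2 := mul_le_mul_of_nonneg_left hH hV
  have b3 := mul_le_mul_of_nonneg_left hM hU0
  have b4 := mul_le_mul_of_nonneg_left hN2 hU0
  have b5 := mul_le_mul_of_nonneg_left hN1 hV
  have hRη : 1 + d - η = R := by rw [hη]; ring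
  rw [hRη] at core
  rw [hmu] at core b3
  linarith

theorem Par.Hyp.certS2 {p : Par} (hp : p.Hyp) {d R K Y h : ℚ} (ha : p.Atom d R K Y h)
    (hd : d ≤ th) (hR : R ≤ d + 1) : p.Cert d R Y h := by
  obtain ⟨⟨a0, a1⟩, ⟨b0, b1⟩, c0, c1⟩ := hp.c2
  rcases le_total d (3 / 50) with h1 | h1
  · exact certS2_main hp ha hd hR (by norm_num) le_rfl (certS2_C2 a0 a1 ha.d0 h1)
  rcases le_total d (6 / 25) with h2 | h2
  · exact certS2_main hp ha hd hR le_rfl (by norm_num) (certS2_C2 b0 b1 h1 h2)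
  · exact certS2_main hp ha hd hR le_rfl (by norm_num) (certS2_C2 c0 c1 h2 hd)

end Vale.Agent.P334
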