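import Vale.Agent.P334.CertA
import Vale.Agent.P334.CertL1
import Vale.Agent.P334.CertL2
import Vale.Agent.P334.CertS1
import Vale.Agent.P334.CertS2

/-! P334: the certificate summed over a measure.
PLAN. `cert`: four cases.  `cert_sum`: m = mass, A = acost, μ = A / m.  If μ > 0 apply `atom` and `cert`
to d i / μ, R i / μ, K i, δ / μ, ρ i / μ (tcl_smul), with z = d o / μ, multiply by μ x i x o and add:
the terms N cancel (sum over o of x o N (d o/μ) against sum over i), the terms l i (d o/μ - 1) and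
kp (d i/μ - 1) sum to zero because sum x o d o/μ = m, and sum x i T (d i/μ) = m (3 - c - b).
If μ = 0 every i with x i > 0 has d i = 0; then tcl = 0 (δ ≥ 0), U > 0 forces R i = 0 hence ρ i ≤ 0,
and r ≥ 0 (sp ≤ r), so every term is ≤ 0. -/

namespace Vale.Agent.P334

open Finset

theorem Par.Hyp.cert {p : Par} (hp : p.Hyp) {d R K Y h : ℚ} (ha : p.Atom d R K Y h) :
    p.Cert d R Y h := by
  rcases le_total th d with h1 | h1 <;> rcases le_total R (d + 1) with h2 | h2
  exacts [hp.certL1 ha h1 h2, hp.certL2 ha h1 h2, hp.certS2 ha h1 h2, hp.certS1 ha h1 h2]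

private lemma cs_sum {n : ℕ} {x e N l : ℕ → ℚ} {m α β μ : ℚ} (h1 : ∑ i ∈ range n, x i = m)
    (h2 : ∑ i ∈ range n, x i * e i = m) :
    ∑ i ∈ range n, ∑ o ∈ range n, x i * x o *
      (μ * (α + β * e i + N i - N o + l i * (e o - 1))) = μ * m * m * (α + β) := by
  have h3 : ∀ i, ∑ o ∈ range n, x i * x o * (μ * (α + β * e i + N i - N o + l i * (e o - 1))) =
      (μ * m * α - μ * ∑ o ∈ range n, x o * N o) * x i + μ * m * β * (x i * e i) +
        μ * m * (x i * N i) := by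
    intro i
    have : ∀ o, x i * x o * (μ * (α + β * e i + N i - N o + l i * (e o - 1))) =
        x i * μ * (α + β * e i + N i - l i) * x o - x i * μ * (x o * N o) +
          x i * μ * l i * (x o * e o) := fun o => by ring
    simp only [this, sum_add_distrib, sum_sub_distrib, ← mul_sum, h1, h2]
    ring
  simp only [h3, sum_add_distrib, ← mul_sum, h1, h2]
  ring

private lemma cs_point {p : Par} (hp : p.Hyp) {μ e δ R K ρ : ℚ} (hμ : 0 < μ) (e0 : 0 ≤ e)
    (R0 : 0 ≤ R) (K0 : 0 ≤ K) (K1 : K ≤ 1) (h1 : ρ ≤ δ) (h2 : ρ ≤ μ * e + R * (1 - ka * K)) :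
    ∃ l : ℚ, ∀ z U : ℚ, 0 ≤ z → 0 ≤ U → U ≤ 1 →
      (0 < U → R - μ * e - μ * z ≤ ka * R * (1 - U)) →
      U * (ρ - p.c * (μ * e) - p.b * μ + p.b * K * (μ + μ * e) / 2 - p.tau * tcl (μ * e) δ -
          max (μ * z - ch * (μ * e)) 0) +
        (p.r * (ρ - δ) + p.b2 * K * (μ + μ * e) / 2 - p.kap * tcl (μ * e) δ) ≤
      μ * (1 - p.b - p.kp + (2 - p.c + p.kp) * e + p.N e - p.N z + l * (z - 1)) := by
  obtain ⟨δ, rfl⟩ : ∃ δ', δ = μ * δ' := ⟨δ / μ, by field_simp⟩
  obtain ⟨R, rfl⟩ : ∃ R', R = μ * R' := ⟨R / μ, by field_simp⟩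
  obtain ⟨ρ, rfl⟩ : ∃ ρ', ρ = μ * ρ' := ⟨ρ / μ, by field_simp⟩
  have R0' : 0 ≤ R := (mul_nonneg_iff_of_pos_left hμ).1 R0
  have h1' : ρ ≤ δ := le_of_mul_le_mul_left h1 hμ
  have h2' : ρ ≤ e + R * (1 - ka * K) := le_of_mul_le_mul_left (by linarith) hμ
  obtain ⟨l, hl⟩ := hp.cert (hp.atom e0 R0' K0 K1 h1' h2')
  refine ⟨l, fun z U z0 U0 U1 hU => ?_⟩
  have h3 := hl z U z0 U0 U1 fun h => le_of_mul_le_mul_left (by linarith [hU h]) hμ
  have h4 : max (μ * z - ch * (μ * e)) 0 = μ * max (z - ch * e) 0 := by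
    rw [mul_max_of_nonneg _ _ hμ.le]
    congr 1 <;> ring
  rw [tcl_smul hμ.le, h4]
  have h5 := mul_le_mul_of_nonneg_left h3 hμ.le
  simp only [Par.Yv, Par.hv, Par.Bd, Par.T] at h5
  linarith

theorem Par.Hyp.cert_sum {p : Par} (hp : p.Hyp) {n : ℕ} {x d : ℕ → ℚ} {δ : ℚ} (ms : Meas n x d δ)
    (hm : 0 < mass n x) {R K ρ : ℕ → ℚ} {U : ℕ → ℕ → ℚ} (R0 : ∀ i < n, 0 ≤ R i)
    (K0 : ∀ i < n, 0 ≤ K i) (K1 : ∀ i < n, K i ≤ 1) (h1 : ∀ i < n, ρ i ≤ δ)
    (h2 : ∀ i < n, ρ i ≤ d i + R i * (1 - ka * K i)) (U0 : ∀ i < n, ∀ o < n, 0 ≤ U i o)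
    (U1 : ∀ i < n, ∀ o < n, U i o ≤ 1)
    (hU : ∀ i < n, ∀ o < n, 0 < U i o → R i - d i - d o ≤ ka * R i * (1 - U i o)) :
    ∑ i ∈ range n, ∑ o ∈ range n, x i * x o *
      (U i o * (ρ i - p.c * d i - p.b * (acost n x d / mass n x) +
          p.b * K i * (acost n x d / mass n x + d i) / 2 - p.tau * tcl (d i) δ -
          max (d o - ch * d i) 0) +
        (p.r * (ρ i - δ) + p.b2 * K i * (acost n x d / mass n x + d i) / 2 -
          p.kap * tcl (d i) δ)) ≤ mass n x * acost n x d * (3 - p.c - p.b) := by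
  rcases ms.a0.eq_or_lt with hA | hA
  · have hz : ∀ i < n, x i * d i = 0 := fun i hi =>
      (sum_eq_zero_iff_of_nonneg fun j hj => mul_nonneg (ms.x0 j (mem_range.1 hj))
        (ms.d0 j (mem_range.1 hj))).1 hA.symm i (mem_range.2 hi)
    rw [← hA]
    simp only [zero_div, mul_zero, zero_mul]
    refine sum_nonpos fun i hi => sum_nonpos fun o ho => ?_
    rw [mem_range] at hi ho
    rcases mul_eq_zero.1 (hz i hi) with h | hdi
    · simp [h]
    rcases mul_eq_zero.1 (hz o ho) with h | hdo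
    · simp [h]
    refine mul_nonpos_of_nonneg_of_nonpos (mul_nonneg (ms.x0 i hi) (ms.x0 o ho)) ?_
    have ht : tcl 0 δ = 0 := le_antisymm (by simpa using tcl_le le_rfl δ) (tcl_nonneg 0 δ)
    have hr : p.r * (ρ i - δ) ≤ 0 :=
      mul_nonpos_of_nonneg_of_nonpos (hp.sp0.trans hp.spr) (sub_nonpos.2 (h1 i hi))
    have hρ : U i o * ρ i ≤ 0 := by
      rcases (U0 i hi o ho).eq_or_lt with h | h
      · rw [← h, zero_mul]
      · have h3 := hU i hi o ho h
        have h4 := h2 i hi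
        rw [hdi] at h3 h4
        rw [hdo] at h3
        have h5 : 0 ≤ R i * U i o := mul_nonneg (R0 i hi) h.le
        have h6 : R i = 0 := by
          have := R0 i hi
          simp only [ka] at h3
          nlinarith
        rw [h6] at h4
        exact mul_nonpos_of_nonneg_of_nonpos h.le (by linarith)
    simp only [hdi, hdo, ht, mul_zero, sub_zero, add_zero, zero_div, max_self]
    linarith
  · set μ := acost n x d / mass n x with hμ
    have hμ0 : 0 < μ := div_pos hA hm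
    have hAμ : acost n x d = μ * mass n x := by rw [hμ]; field_simp
    have hd : ∀ i, d i = μ * (d i / μ) := fun i => by field_simp
    have key : ∀ i, ∃ l : ℚ, i < n → ∀ o < n,
        U i o * (ρ i - p.c * d i - p.b * μ + p.b * K i * (μ + d i) / 2 - p.tau * tcl (d i) δ -
          max (d o - ch * d i) 0) +
        (p.r * (ρ i - δ) + p.b2 * K i * (μ + d i) / 2 - p.kap * tcl (d i) δ) ≤
        μ * (1 - p.b - p.kp + (2 - p.c + p.kp) * (d i / μ) + p.N (d i / μ) - p.N (d o / μ) +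
          l * (d o / μ - 1)) := by
      intro i
      by_cases hi : i < n
      · obtain ⟨l, hl⟩ := cs_point hp hμ0 (div_nonneg (ms.d0 i hi) hμ0.le) (R0 i hi) (K0 i hi)
          (K1 i hi) (h1 i hi) (by rw [← hd]; exact h2 i hi)
        refine ⟨l, fun _ o ho => ?_⟩
        have := hl (d o / μ) (U i o) (div_nonneg (ms.d0 o ho) hμ0.le) (U0 i hi o ho)
          (U1 i hi o ho) (by rw [← hd, ← hd]; exact hU i hi o ho)
        rwa [← hd, ← hd] at this
      · exact ⟨0, fun h => absurd h hi⟩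
    choose l hl using key
    have he : ∑ i ∈ range n, x i * (d i / μ) = mass n x := by
      have : ∑ i ∈ range n, x i * (d i / μ) = acost n x d / μ := by
        rw [acost, sum_div]
        exact sum_congr rfl fun i _ => by ring
      rw [this, hAμ]
      field_simp
    refine (sum_le_sum fun i hi => sum_le_sum fun o ho => mul_le_mul_of_nonneg_left
      (hl i (mem_range.1 hi) o (mem_range.1 ho))
      (mul_nonneg (ms.x0 i (mem_range.1 hi)) (ms.x0 o (mem_range.1 ho)))).trans ?_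
    rw [cs_sum (N := fun i => p.N (d i / μ)) (m := mass n x) rfl he, hAμ]
    exact le_of_eq (by ring)

end Vale.Agent.P334
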