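import Vale.Agent.P334.DDefs

/-! P334: the direct part of the drift.
PLAN. tp = 2φ, z = d o.  dirV = (1 + 2tp) z - N o with N o = phi0 + sum x (1-K) max .. + ga sum x K d
+ tp m q δ ≥ 0 and N o ≤ (1 + tp) q δ + 4 A + z (c ≤ 7/4, tau T ≤ A, ga ≤ 1).  With
W o = 1 - sum_i x i K i o ∈ [0,1]: f o ≥ 1 - φ W o, f o ≤ 1 + ψ, so
f dirV ≤ dirV + ψ (1 + 2tp) z + φ W o N o.  Multiply by x o and add; sum_o x o W o = sum_i x i wt i
(both are m - sum sum x x K, `Finset.sum_comm`), sum x o z = A, m ≤ 1. -/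

namespace Vale.Agent.P334

open Finset

variable {c g : ℚ → ℚ} {n : ℕ} {x y d : ℕ → ℚ} {δ : ℚ} {R u β f : ℕ → ℚ} {K : ℕ → ℕ → ℚ}
  {e1 φ ψ ga Λ Δ κ : ℚ}

theorem drift2_pt (G : GoodC c g) (H : DH n x y d δ R u β f K e1 φ ψ ga Λ Δ κ) {o : ℕ}
    (ho : o < n) :
    f o * dirV c ga (2 * φ) n x d δ (fun i => K i o) (d o) ≤
      dirV c ga (2 * φ) n x d δ (fun i => K i o) (d o) + (φ + 2 * ψ) * d o + 4 * φ * acost n x d +
        φ * (1 + 2 * φ) * ((1 - mass n x) * δ) * (1 - ∑ i ∈ range n, x i * K i o) := by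
  have ms := H.ms
  have hz := ms.d0 o ho
  have hφ := H.φ0
  have hψ := H.ψ0
  have hA := ms.a0
  have hm0 := ms.m0
  have hq : 0 ≤ (1 - mass n x) * δ := mul_nonneg (sub_nonneg.2 ms.m1) ms.δ0
  have hga : 0 ≤ ga := le_trans (by have := H.e0; positivity) H.ga0
  have hch : 0 ≤ ch := by norm_num [ch]
  have w1 : 0 ≤ ∑ i ∈ range n, x i * K i o := sum_nonneg fun i hi =>
    mul_nonneg (ms.x0 i (mem_range.1 hi)) (H.K0 i (mem_range.1 hi) o ho)
  have w0 : ∑ i ∈ range n, x i * K i o ≤ 1 := (sum_le_sum fun i hi =>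
    mul_le_of_le_one_right (ms.x0 i (mem_range.1 hi)) (H.K1 i (mem_range.1 hi) o ho)).trans ms.m1
  have s0 : 0 ≤ ∑ i ∈ range n, x i * (1 - K i o) * max (d o - ch * d i) 0 :=
    sum_nonneg fun i hi => mul_nonneg (mul_nonneg (ms.x0 i (mem_range.1 hi))
      (sub_nonneg.2 (H.K1 i (mem_range.1 hi) o ho))) (le_max_right _ _)
  have s1 : ∑ i ∈ range n, x i * (1 - K i o) * max (d o - ch * d i) 0 ≤ d o := by
    refine le_trans (sum_le_sum fun i hi => ?_ : _ ≤ ∑ i ∈ range n, x i * d o) ?_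
    · have hi := mem_range.1 hi
      exact mul_le_mul (mul_le_of_le_one_right (ms.x0 i hi) (sub_le_self _ (H.K0 i hi o ho)))
        (max_le (sub_le_self _ (mul_nonneg hch (ms.d0 i hi))) hz) (le_max_right _ _) (ms.x0 i hi)
    · rw [← sum_mul]
      exact mul_le_of_le_one_left hz ms.m1
  have g0 : 0 ≤ ∑ i ∈ range n, x i * K i o * d i := sum_nonneg fun i hi =>
    mul_nonneg (mul_nonneg (ms.x0 i (mem_range.1 hi)) (H.K0 i (mem_range.1 hi) o ho))
      (ms.d0 i (mem_range.1 hi))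
  have g1 : ga * ∑ i ∈ range n, x i * K i o * d i ≤ acost n x d :=
    (mul_le_of_le_one_left g0 H.ga1).trans (sum_le_sum fun i hi => mul_le_mul_of_nonneg_right
      (mul_le_of_le_one_right (ms.x0 i (mem_range.1 hi)) (H.K1 i (mem_range.1 hi) o ho))
      (ms.d0 i (mem_range.1 hi)))
  have ht := tau_nonneg hm0 ms.m1
  have p0 : 0 ≤ phi0 c n x d δ :=
    add_nonneg (add_nonneg (mul_nonneg (G.c_ge _ hm0 ms.m1) hA) hq) (mul_nonneg ht (ms.t0 δ))
  have p1 : phi0 c n x d δ ≤ 2 * acost n x d + (1 - mass n x) * δ := by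
    have a := mul_le_mul_of_nonneg_left (ms.t_le δ) ht
    have b := mul_le_mul_of_nonneg_right
      ((G.c_ch hm0 ms.m1).trans (by norm_num [ch] : ch ≤ 2)) hA
    unfold phi0
    linarith
  have q0 : 0 ≤ 2 * φ * (mass n x * ((1 - mass n x) * δ)) := by positivity
  have q1 : 2 * φ * (mass n x * ((1 - mass n x) * δ)) ≤ 2 * φ * ((1 - mass n x) * δ) :=
    mul_le_mul_of_nonneg_left (mul_le_of_le_one_left hq ms.m1) (by positivity)
  obtain ⟨N, hN⟩ : ∃ N, N = phi0 c n x d δ +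
      ∑ i ∈ range n, x i * (1 - K i o) * max (d o - ch * d i) 0 +
      ga * ∑ i ∈ range n, x i * K i o * d i + 2 * φ * (mass n x * ((1 - mass n x) * δ)) :=
    ⟨_, rfl⟩
  have e : dirV c ga (2 * φ) n x d δ (fun i => K i o) (d o) = (1 + 4 * φ) * d o - N := by
    rw [hN, dirV]
    ring
  have n0 : 0 ≤ N := by
    rw [hN]
    positivity
  have n1 : N ≤ (1 + 2 * φ) * ((1 - mass n x) * δ) + (4 * acost n x d + d o) := by linarith
  have a1 := mul_le_mul_of_nonneg_right (H.f1 o ho) (by positivity : 0 ≤ (1 + 4 * φ) * d o)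
  have a2 := mul_le_mul_of_nonneg_right (H.f2 o ho) n0
  have a3 := mul_le_mul_of_nonneg_left n1 (mul_nonneg hφ (sub_nonneg.2 w0))
  have a4 := mul_nonneg (mul_nonneg hφ w1) (by positivity : 0 ≤ 4 * acost n x d + d o)
  have a5 := mul_nonneg (mul_nonneg hψ hz) (sub_nonneg.2 H.φ1)
  rw [e]
  linarith

theorem dir_sum (G : GoodC c g) (H : DH n x y d δ R u β f K e1 φ ψ ga Λ Δ κ) :
    ∑ o ∈ range n, x o * f o * dirV c ga (2 * φ) n x d δ (fun i => K i o) (d o) ≤
      ∑ o ∈ range n, x o * (d o - phi0 c n x d δ) -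
        ∑ i ∈ range n, ∑ o ∈ range n, x i * x o * (1 - K i o) * max (d o - ch * d i) 0 -
        ga * ∑ i ∈ range n, x i * (1 - wt n x K i) * d i -
        2 * φ * (mass n x ^ 2 * (1 - mass n x) * δ) + φ * (1 + 2 * φ) * XX n x δ K +
        (9 * φ + 2 * ψ) * acost n x d := by
  have h1 := sum_le_sum (s := range n) fun o ho => (mul_assoc (x o) _ _).trans_le
    (mul_le_mul_of_nonneg_left (drift2_pt G H (mem_range.1 ho)) (H.ms.x0 o (mem_range.1 ho)))
  have e1 : ∑ i ∈ range n, ∑ o ∈ range n, x i * x o * (1 - K i o) * max (d o - ch * d i) 0 =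
      ∑ o ∈ range n, x o * ∑ i ∈ range n, x i * (1 - K i o) * max (d o - ch * d i) 0 := by
    rw [sum_comm]
    exact sum_congr rfl fun o _ => by
      rw [mul_sum]
      exact sum_congr rfl fun i _ => by ring
  have e2 : ∑ i ∈ range n, x i * (1 - wt n x K i) * d i =
      ∑ o ∈ range n, x o * ∑ i ∈ range n, x i * K i o * d i := by
    simp only [wt, sub_sub_cancel, mul_sum, sum_mul]
    rw [sum_comm]
    exact sum_congr rfl fun o _ => sum_congr rfl fun i _ => by ring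
  have e3 : ∑ i ∈ range n, x i * wt n x K i =
      ∑ o ∈ range n, x o * (1 - ∑ i ∈ range n, x i * K i o) := by
    simp only [wt, mul_sub, sum_sub_distrib, mul_sum]
    rw [sum_comm]
    exact congrArg (_ - ·) (sum_congr rfl fun o _ => sum_congr rfl fun i _ => by ring)
  have e4 : ∑ o ∈ range n, x o * (dirV c ga (2 * φ) n x d δ (fun i => K i o) (d o) +
      (φ + 2 * ψ) * d o + 4 * φ * acost n x d +
      φ * (1 + 2 * φ) * ((1 - mass n x) * δ) * (1 - ∑ i ∈ range n, x i * K i o)) =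
      ∑ o ∈ range n, x o * (d o - phi0 c n x d δ) -
      ∑ o ∈ range n, x o * ∑ i ∈ range n, x i * (1 - K i o) * max (d o - ch * d i) 0 -
      ga * ∑ o ∈ range n, x o * ∑ i ∈ range n, x i * K i o * d i +
      (5 * φ + 2 * ψ) * ∑ o ∈ range n, x o * d o +
      (4 * φ * acost n x d - 2 * φ * (mass n x * (1 - mass n x) * δ)) * ∑ o ∈ range n, x o +
      φ * (1 + 2 * φ) * ((1 - mass n x) * δ) *
        ∑ o ∈ range n, x o * (1 - ∑ i ∈ range n, x i * K i o) := by
    rw [mul_sum (range n) _ ga, mul_sum (range n) _ (5 * φ + 2 * ψ),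
      mul_sum (range n) (fun o => x o), mul_sum (range n) _ (φ * (1 + 2 * φ) * _),
      ← sum_sub_distrib, ← sum_sub_distrib, ← sum_add_distrib, ← sum_add_distrib,
      ← sum_add_distrib]
    exact sum_congr rfl fun o _ => by
      rw [dirV]
      ring
  have a := mul_le_of_le_one_right (mul_nonneg H.φ0 H.ms.a0) H.ms.m1
  rw [e4] at h1
  rw [XX, e1, e2, e3]
  change _ ≤ _ + (5 * φ + 2 * ψ) * acost n x d + _ * mass n x + _ at h1
  linarith

end Vale.Agent.P334
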