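import Vale.Agent.P334.CertSum
import Vale.Agent.P334.CertH

/-! P334: the main inequality.
PLAN. If m = mass n x = 0 all x i vanish.  Otherwise μ = A / m, q = 1 - m, b = m g, T = tcost,
lam i = Y i + eta T with Y i = ρ i - c d i - b μ + b K i (μ + d i)/2 - tau tcl (d i) δ.  As
0 ≤ U ≤ 1 and eta T ≥ 0: U (lam i - max ..) ≤ U (Y i - max ..) + eta T.  With p = parOf c g m ..,
m * h i = q (ρ i - δ) + q b K i (μ + d i)/2 - (tau - m eta) tcl, where h i is the second bracket of
`cert_sum`.  Adding up, the left side is ≤ A (1 - c - q b) + (left side of cert_sum)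
≤ A (1 + 3m - c (1+m) - b) ≤ 0 by `GoodC.ode`. -/

namespace Vale.Agent.P334

open Finset

private lemma mi_row {n : ℕ} {x U M : ℕ → ℚ} {m Y E h : ℚ} (hm : ∑ o ∈ range n, x o = m)
    (x0 : ∀ o < n, 0 ≤ x o) (U1 : ∀ o < n, U o ≤ 1) (hE : 0 ≤ E) {a : ℚ} (ha : 0 ≤ a) :
    a * ∑ o ∈ range n, x o * U o * (Y + E - M o) ≤
      ∑ o ∈ range n, a * x o * (U o * (Y - M o) + h) + a * m * (E - h) := by
  have : a * m * (E - h) = ∑ o ∈ range n, a * x o * (E - h) := by
    rw [← hm, mul_sum, sum_mul]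
  rw [this, mul_sum, ← sum_add_distrib]
  refine sum_le_sum fun o ho => ?_
  have h1 := mul_nonneg (mul_nonneg ha (x0 o (mem_range.1 ho)))
    (mul_nonneg (sub_nonneg.2 (U1 o (mem_range.1 ho))) hE)
  linarith

theorem main_ineq {c g : ℚ → ℚ} (G : GoodC c g) {n : ℕ} {x d : ℕ → ℚ} {δ : ℚ} (ms : Meas n x d δ)
    {R K ρ : ℕ → ℚ} {U : ℕ → ℕ → ℚ} (R0 : ∀ i < n, 0 ≤ R i)
    (K0 : ∀ i < n, 0 ≤ K i) (K1 : ∀ i < n, K i ≤ 1) (h1 : ∀ i < n, ρ i ≤ δ)
    (h2 : ∀ i < n, ρ i ≤ d i + R i * (1 - ka * K i)) (U0 : ∀ i < n, ∀ o < n, 0 ≤ U i o)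
    (U1 : ∀ i < n, ∀ o < n, U i o ≤ 1)
    (hU : ∀ i < n, ∀ o < n, 0 < U i o → R i - d i - d o ≤ ka * R i * (1 - U i o)) :
    ∑ o ∈ range n, x o * (d o - phi0 c n x d δ) +
      ∑ i ∈ range n, x i * ((1 - mass n x) * lam c g n x d δ (ρ i) (K i) i +
        ∑ o ∈ range n, x o * U i o *
          (lam c g n x d δ (ρ i) (K i) i - max (d o - ch * d i) 0)) ≤ 0 := by
  rcases ms.m0.eq_or_lt with hm | hm
  · have hz : ∀ i ∈ range n, x i = 0 :=
      (sum_eq_zero_iff_of_nonneg fun j hj => ms.x0 j (mem_range.1 hj)).1 hm.symm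
    rw [sum_eq_zero fun i hi => by rw [hz i hi, zero_mul],
      sum_eq_zero fun i hi => by rw [hz i hi, zero_mul], add_zero]
  obtain ⟨sp, sn, kn, p0, hp⟩ := G.hyp hm ms.m1
  have hc := hp.cert_sum ms hm R0 K0 K1 h1 h2 U0 U1 hU
  have hode := G.ode _ ms.m0 ms.m1
  have hE := mul_nonneg (eta_nonneg ms.m0 ms.m1) (ms.t0 δ)
  have hA0 := ms.a0
  simp only [parOf] at hc
  simp only [phi0, lam]
  have e1 : ∑ i ∈ range n, x i = mass n x := rfl
  have e2 : ∑ i ∈ range n, x i * d i = acost n x d := rfl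
  have e3 : ∑ i ∈ range n, x i * tcl (d i) δ = tcost n x d δ := rfl
  generalize mass n x = m at *
  generalize acost n x d = A at *
  generalize tcost n x d δ = T at *
  obtain ⟨μ, rfl⟩ : ∃ μ, A = μ * m := ⟨A / m, by field_simp⟩
  rw [mul_div_cancel_right₀ μ hm.ne'] at hc
  have key : ∀ i ∈ range n, x i * ((1 - m) * (ρ i - c m * d i - tau m * tcl (d i) δ -
        g m * (μ * m) + eta m * T + K i * g m * (μ * m + m * d i) / 2) +
      ∑ o ∈ range n, x o * U i o * (ρ i - c m * d i - tau m * tcl (d i) δ - g m * (μ * m) +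
        eta m * T + K i * g m * (μ * m + m * d i) / 2 - max (d o - ch * d i) 0)) ≤
      ∑ o ∈ range n, x i * x o * (U i o * (ρ i - c m * d i - m * g m * μ +
          m * g m * K i * (μ + d i) / 2 - tau m * tcl (d i) δ - max (d o - ch * d i) 0) +
        ((1 - m) / m * (ρ i - δ) + (1 - m) * g m * K i * (μ + d i) / 2 -
          (tau m - m * eta m) / m * tcl (d i) δ)) +
      (((1 - m) * δ - (1 - m) * (m * g m) * μ + eta m * T) * x i - (1 - m) * c m * (x i * d i) +
        m * (tau m - eta m) * (x i * tcl (d i) δ)) := by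
    intro i hi
    have h3 := mi_row (U := U i) (M := fun o => max (d o - ch * d i) 0)
      (Y := ρ i - c m * d i - m * g m * μ + m * g m * K i * (μ + d i) / 2 - tau m * tcl (d i) δ)
      (h := (1 - m) / m * (ρ i - δ) + (1 - m) * g m * K i * (μ + d i) / 2 -
          (tau m - m * eta m) / m * tcl (d i) δ) e1 ms.x0 (U1 i (mem_range.1 hi)) hE
      (ms.x0 i (mem_range.1 hi))
    have h4 : ∀ o, ρ i - c m * d i - tau m * tcl (d i) δ - g m * (μ * m) +
        eta m * T + K i * g m * (μ * m + m * d i) / 2 - max (d o - ch * d i) 0 =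
        ρ i - c m * d i - m * g m * μ + m * g m * K i * (μ + d i) / 2 - tau m * tcl (d i) δ +
          eta m * T - max (d o - ch * d i) 0 := fun o => by ring
    have h5 : x i * m * (eta m * T - ((1 - m) / m * (ρ i - δ) +
        (1 - m) * g m * K i * (μ + d i) / 2 - (tau m - m * eta m) / m * tcl (d i) δ)) =
        x i * (m * (eta m * T) - (1 - m) * (ρ i - δ) - (1 - m) * (m * g m) * K i * (μ + d i) / 2 +
          (tau m - m * eta m) * tcl (d i) δ) := by
      field_simp
      ring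
    simp only [h4, mul_add (x i)]
    rw [h5] at h3
    linarith
  have h6 := sum_le_sum key
  have h7 : ∑ o ∈ range n, x o * (d o - (c m * (μ * m) + (1 - m) * δ + tau m * T)) =
      μ * m - m * (c m * (μ * m) + (1 - m) * δ + tau m * T) := by
    simp only [mul_sub, sum_sub_distrib, ← sum_mul, e1, e2]
  simp only [sum_add_distrib (s := range n) (g := fun i =>
    (((1 - m) * δ - (1 - m) * (m * g m) * μ + eta m * T) * x i - (1 - m) * c m * (x i * d i) +
        m * (tau m - eta m) * (x i * tcl (d i) δ)))] at h6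
  have h8 : ∑ i ∈ range n, (((1 - m) * δ - (1 - m) * (m * g m) * μ + eta m * T) * x i -
      (1 - m) * c m * (x i * d i) + m * (tau m - eta m) * (x i * tcl (d i) δ)) =
      ((1 - m) * δ - (1 - m) * (m * g m) * μ + eta m * T) * m - (1 - m) * c m * (μ * m) +
        m * (tau m - eta m) * T := by
    simp only [sum_add_distrib, sum_sub_distrib, ← mul_sum, e1, e2, e3]
  rw [h8] at h6
  rw [h7]
  have h9 := mul_le_mul_of_nonneg_left hode hA0
  nlinarith

end Vale.Agent.P334
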