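import Vale.Agent.P334.DDefs
import Vale.Agent.P334.MainI

/-! P334: the main inequality with the enlarged radii.
PLAN. R' i = (1+e1) R i, s = d i + d o, U = 1 - K i o.  Put U' i o = U if R' i ≤ s, and
max (U - e1 s / (ka R' i)) 0 otherwise (then R' i > 0).  U' ∈ [0,1], U' ≤ U, and 0 < U' gives
R' - s ≤ ka R' (1 - U') (multiply P2 by 1 + e1).  Apply `main_ineq` with R', k, ρ i = bk .., U'.
The difference: (U - U') (lam - max ..) ≤ (U - U') max lam 0, and when s < R':
lam ≤ d + R' + (A + d)/2 + eta T ≤ (5/2) R' + A, U - U' ≤ min 1 (e1 s/(ka R')) ≤ e1/ka ≤ 3 e1, so the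
product is ≤ 3 e1 ((5/2) s + A).  Sum with weights x i x o (m ≤ 1): ≤ 18 e1 A.
Finally wt i = (1 - m) + sum_o x o (1 - K i o). -/

namespace Vale.Agent.P334

open Finset

variable {c g : ℚ → ℚ} {n : ℕ} {x y d : ℕ → ℚ} {δ : ℚ} {R u β f : ℕ → ℚ} {K : ℕ → ℕ → ℚ}
  {e1 φ ψ ga Λ Δ κ : ℚ}

/-- the lowered levels -/
private def drift3U (e R s U : ℚ) : ℚ := if R ≤ s then U else max (U - e * s / (ka * R)) 0

private theorem drift3_pt {e R s U L M A : ℚ} (e0 : 0 < e) (s0 : 0 ≤ s) (U0 : 0 ≤ U)
    (M0 : 0 ≤ M) (A0 : 0 ≤ A) (hL : s < R → L ≤ 5 / 2 * R + A) :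
    (U - drift3U e R s U) * (L - M) ≤ 3 * e * (5 / 2 * s + A) := by
  unfold drift3U
  split_ifs with h
  · rw [sub_self, zero_mul]; positivity
  · have h' : s < R := not_le.1 h
    have R0 : 0 < R := s0.trans_lt h'
    have ha : ka = 44 / 125 := rfl
    have w0 : 0 ≤ e * s / (ka * R) := by rw [ha]; positivity
    have v0 : 0 ≤ U - max (U - e * s / (ka * R)) 0 := sub_nonneg.2 (max_le (by linarith) U0)
    have v1 : U - max (U - e * s / (ka * R)) 0 ≤ e * s / (ka * R) := by
      linarith [le_max_left (U - e * s / (ka * R)) 0]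
    have w1 : e * s / (ka * R) * R ≤ 3 * e * s := by
      have : e * s / (ka * R) * R = 125 / 44 * (e * s) := by rw [ha]; field_simp
      rw [this]; nlinarith [mul_nonneg e0.le s0]
    have w2 : e * s / (ka * R) ≤ 3 * e := by
      rw [div_le_iff₀ (by rw [ha]; positivity), ha]
      nlinarith [mul_lt_mul_of_pos_left h' e0, mul_pos e0 R0]
    calc (U - max (U - e * s / (ka * R)) 0) * (L - M)
        ≤ (U - max (U - e * s / (ka * R)) 0) * (5 / 2 * R + A) :=
          mul_le_mul_of_nonneg_left (by linarith [hL h']) v0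
      _ ≤ e * s / (ka * R) * (5 / 2 * R + A) := mul_le_mul_of_nonneg_right v1 (by positivity)
      _ = 5 / 2 * (e * s / (ka * R) * R) + e * s / (ka * R) * A := by ring
      _ ≤ 5 / 2 * (3 * e * s) + 3 * e * A := by
          linarith [mul_le_mul_of_nonneg_right w2 A0]
      _ = 3 * e * (5 / 2 * s + A) := by ring

private theorem drift3_lam (G : GoodC c g) (ms : Meas n x d δ) {ρ l r : ℚ} {i : ℕ} (hi : i < n)
    (l1 : l ≤ 1) (hρ : ρ ≤ d i + r) (hd : d i ≤ r) :
    lam c g n x d δ ρ l i ≤ 5 / 2 * r + acost n x d := by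
  have m0 := ms.m0
  have m1 := ms.m1
  have A0 := ms.a0
  have d0 := ms.d0 i hi
  have c0 := mul_nonneg (G.c_ge _ m0 m1) d0
  have t0 := mul_nonneg (tau_nonneg m0 m1) (tcl_nonneg (d i) δ)
  have g0 : 0 ≤ g (mass n x) := by linarith [G.g_ge _ m0 m1]
  have g1 := G.g_one m0 m1
  have gA := mul_nonneg g0 A0
  have hT : eta (mass n x) * tcost n x d δ ≤ acost n x d / 2 := by
    have h1 := mul_le_mul (eta_le m0 m1) (ms.t_le δ) (ms.t0 δ) (by norm_num)
    have hchi : chi = 88 / 125 := rfl
    rw [hchi] at h1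
    linarith
  have hl : l * g (mass n x) ≤ 1 := mul_le_one₀ l1 g0 g1
  have hm : mass n x * d i ≤ d i := mul_le_of_le_one_left d0 m1
  have hm0 : 0 ≤ mass n x * d i := mul_nonneg m0 d0
  have h2 : l * g (mass n x) * (acost n x d + mass n x * d i) ≤ acost n x d + mass n x * d i :=
    mul_le_of_le_one_left (by linarith) hl
  unfold lam
  linarith

theorem main_pert (G : GoodC c g) (H : DH n x y d δ R u β f K e1 φ ψ ga Λ Δ κ) {k : ℕ → ℚ}
    (k0 : ∀ i < n, 0 ≤ k i) (k1 : ∀ i < n, k i ≤ 1) :
    ∑ o ∈ range n, x o * (d o - phi0 c n x d δ) -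
        ∑ i ∈ range n, ∑ o ∈ range n, x i * x o * (1 - K i o) * max (d o - ch * d i) 0 +
      ∑ i ∈ range n, x i * wt n x K i *
        lam c g n x d δ (bk δ (d i) ((1 + e1) * R i) (k i)) (k i) i ≤ 18 * e1 * acost n x d := by
  have ha : ka = 44 / 125 := rfl
  have ms := H.ms
  have e0 := H.e0
  have A0 := ms.a0
  have R0 : ∀ i < n, 0 ≤ (1 + e1) * R i := fun i hi => mul_nonneg (by linarith) (H.R0 i hi)
  have s0 : ∀ i < n, ∀ o < n, 0 ≤ d i + d o := fun i hi o ho => add_nonneg (ms.d0 i hi) (ms.d0 o ho)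
  have hm := main_ineq G ms (R := fun i => (1 + e1) * R i) (K := k)
    (ρ := fun i => bk δ (d i) ((1 + e1) * R i) (k i))
    (U := fun i o => drift3U e1 ((1 + e1) * R i) (d i + d o) (1 - K i o)) R0 k0 k1
    (fun i _ => min_le_left _ _) (fun i _ => min_le_right _ _)
    (fun i hi o ho => by
      have := H.K1 i hi o ho
      unfold drift3U
      split_ifs
      · linarith
      · exact le_max_right _ _)
    (fun i hi o ho => by
      have := H.K0 i hi o ho
      unfold drift3U
      split_ifs with h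
      · linarith
      · have R1 : 0 < (1 + e1) * R i := (s0 i hi o ho).trans_lt (not_le.1 h)
        have := s0 i hi o ho
        have w0 : 0 ≤ e1 * (d i + d o) / (ka * ((1 + e1) * R i)) := by rw [ha]; positivity
        exact max_le (by linarith) zero_le_one)
    (fun i hi o ho => by
      have K0 := H.K0 i hi o ho
      have hs := s0 i hi o ho
      unfold drift3U
      split_ifs with h
      · intro _
        have : 0 ≤ ka * ((1 + e1) * R i) * (1 - (1 - K i o)) :=
          mul_nonneg (mul_nonneg (by rw [ha]; norm_num) (R0 i hi)) (by linarith)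
        linarith
      · intro hp
        have R1 : 0 < (1 + e1) * R i := hs.trans_lt (not_le.1 h)
        have w0 : 0 ≤ e1 * (d i + d o) / (ka * ((1 + e1) * R i)) := by rw [ha]; positivity
        have hp' : 0 < 1 - K i o - e1 * (d i + d o) / (ka * ((1 + e1) * R i)) := by
          rcases lt_max_iff.1 hp with h1 | h1
          · exact h1
          · exact absurd h1 (lt_irrefl _)
        rw [max_eq_left hp'.le]
        have P2 := mul_le_mul_of_nonneg_left (H.P2 i hi o ho (by linarith))
          (by linarith : (0 : ℚ) ≤ 1 + e1)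
        have hk : ka * ((1 + e1) * R i) ≠ 0 := by rw [ha]; positivity
        have : ka * ((1 + e1) * R i) *
            (1 - (1 - K i o - e1 * (d i + d o) / (ka * ((1 + e1) * R i)))) =
            ka * ((1 + e1) * R i) * K i o + e1 * (d i + d o) := by
          rw [show ∀ a b w : ℚ, a * (1 - (1 - b - w)) = a * b + a * w from fun a b w => by ring,
            mul_div_cancel₀ _ hk]
        rw [this]
        linarith)
  set L : ℕ → ℚ := fun i => lam c g n x d δ (bk δ (d i) ((1 + e1) * R i) (k i)) (k i) i with hLdef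
  have hd : ∑ i ∈ range n, ∑ o ∈ range n, x i * x o *
      ((1 - K i o - drift3U e1 ((1 + e1) * R i) (d i + d o) (1 - K i o)) *
        (L i - max (d o - ch * d i) 0)) ≤
      ∑ i ∈ range n, ∑ o ∈ range n, x i * x o * (3 * e1 * (5 / 2 * (d i + d o) + acost n x d)) := by
    refine sum_le_sum fun i hi => sum_le_sum fun o ho => ?_
    have hi := mem_range.1 hi
    have ho := mem_range.1 ho
    refine mul_le_mul_of_nonneg_left ?_ (mul_nonneg (ms.x0 i hi) (ms.x0 o ho))
    refine drift3_pt e0 (s0 i hi o ho) (by linarith [H.K1 i hi o ho]) (le_max_right _ _) A0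
      fun hlt => drift3_lam G ms hi (k1 i hi) ?_ (by linarith [ms.d0 o ho])
    refine (min_le_right _ _).trans ?_
    have : 0 ≤ (1 + e1) * R i * (ka * k i) :=
      mul_nonneg (R0 i hi) (mul_nonneg (by rw [ha]; norm_num) (k0 i hi))
    linarith
  have hs : ∑ i ∈ range n, ∑ o ∈ range n,
      x i * x o * (3 * e1 * (5 / 2 * (d i + d o) + acost n x d)) =
      3 * e1 * (5 * (mass n x * acost n x d) + mass n x * (mass n x * acost n x d)) := by
    have h1 : ∀ i, ∑ o ∈ range n, x i * x o * (3 * e1 * (5 / 2 * (d i + d o) + acost n x d)) =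
        3 * e1 * (5 / 2 * mass n x) * (x i * d i) +
          3 * e1 * (5 / 2 * acost n x d + mass n x * acost n x d) * x i := by
      intro i
      have h2 : ∀ o, x i * x o * (3 * e1 * (5 / 2 * (d i + d o) + acost n x d)) =
          x i * (3 * e1 * (5 / 2 * d i + acost n x d)) * x o +
            x i * (3 * e1 * (5 / 2)) * (x o * d o) := fun o => by ring
      simp only [h2, sum_add_distrib, ← mul_sum]
      change x i * (3 * e1 * (5 / 2 * d i + acost n x d)) * mass n x +
        x i * (3 * e1 * (5 / 2)) * acost n x d = _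
      ring
    simp only [h1, sum_add_distrib, ← mul_sum]
    change 3 * e1 * (5 / 2 * mass n x) * acost n x d +
      3 * e1 * (5 / 2 * acost n x d + mass n x * acost n x d) * mass n x = _
    ring
  have hb : 3 * e1 * (5 * (mass n x * acost n x d) + mass n x * (mass n x * acost n x d)) ≤
      18 * e1 * acost n x d := by
    have h1 : mass n x * acost n x d ≤ acost n x d := mul_le_of_le_one_left A0 ms.m1
    have h2 : mass n x * (mass n x * acost n x d) ≤ mass n x * acost n x d :=
      mul_le_of_le_one_left (mul_nonneg ms.m0 A0) ms.m1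
    nlinarith
  have hid : ∑ i ∈ range n, x i * wt n x K i * L i -
      ∑ i ∈ range n, ∑ o ∈ range n, x i * x o * (1 - K i o) * max (d o - ch * d i) 0 =
      ∑ i ∈ range n, x i * ((1 - mass n x) * L i + ∑ o ∈ range n,
        x o * drift3U e1 ((1 + e1) * R i) (d i + d o) (1 - K i o) *
          (L i - max (d o - ch * d i) 0)) +
      ∑ i ∈ range n, ∑ o ∈ range n, x i * x o *
        ((1 - K i o - drift3U e1 ((1 + e1) * R i) (d i + d o) (1 - K i o)) *
          (L i - max (d o - ch * d i) 0)) := by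
    rw [← sum_sub_distrib, ← sum_add_distrib]
    refine sum_congr rfl fun i _ => ?_
    have h1 : x i * wt n x K i * L i =
        x i * ((1 - mass n x) * L i) + ∑ o ∈ range n, x i * x o * (1 - K i o) * L i := by
      have h2 : ∀ o, x i * x o * (1 - K i o) * L i =
          x i * L i * x o - x i * L i * (x o * K i o) := fun o => by ring
      simp only [h2, sum_sub_distrib, ← mul_sum]
      unfold wt mass
      ring
    rw [h1, mul_add, mul_sum, add_assoc, add_sub_assoc, ← sum_sub_distrib, ← sum_add_distrib]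
    congr 1
    exact sum_congr rfl fun o _ => by ring
  linarith

end Vale.Agent.P334
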