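import Vale.Agent.P334.Drift1

/-! P334: the outside part of the drift.
PLAN. For i < n choose k i among 0 and the numbers K i o (o < n) maximising
k ↦ lam (bk δ (d i) ((1+e1) R i) k) k i (`Finset.exists_max_image` on the image; k i = 0 for i ≥ n).
The weights (y o - x o) K i o ≥ 0 and u i ≥ 0 add up to wt i ∈ [0,1] (hu).  Use out_term, dum_term.
With ρ i = bk δ (d i) ((1+e1) R i) 0 and wt i = q + sum_o x o (1 - K i o):
m sum x wt ρ ≤ m^2 q δ + sum sum x x (1-K) ρ, and K i o < 1 gives (P2) (1 - ka) R i ≤ d i + d o, so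
ρ i ≤ d i + 2 R i ≤ 4.1 d i + 3.1 d o; the double sum is ≤ 8 A.  κ ≥ 0 and Δ ≥ 0 if n > 0 (H2, dΔ);
sum x i ≤ 1.  (For n = 0 both sides are 0 or use the hypotheses hκ, hΔ.) -/

namespace Vale.Agent.P334

open Finset

variable {c g : ℚ → ℚ} {n : ℕ} {x y d : ℕ → ℚ} {δ : ℚ} {R u β f : ℕ → ℚ} {K : ℕ → ℕ → ℚ}
  {e1 φ ψ ga Λ Δ κ : ℚ}

theorem d4_rho (H : DH n x y d δ R u β f K e1 φ ψ ga Λ Δ κ) {i o : ℕ} (hi : i < n) (ho : o < n) :
    (1 - K i o) * bk δ (d i) ((1 + e1) * R i) 0 ≤ 41 / 10 * d i + 31 / 10 * d o := by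
  have h1 := H.ms.d0 i hi
  have h2 := H.ms.d0 o ho
  have h3 := H.K0 i hi o ho
  have h4 := H.K1 i hi o ho
  have h5 := H.R0 i hi
  rcases h4.eq_or_lt with h | h
  · rw [h, sub_self, zero_mul]
    linarith
  · have h6 := H.P2 i hi o ho h
    have h7 : ka * R i * K i o ≤ 44 / 125 * R i := by
      unfold ka
      nlinarith
    have h8 : bk δ (d i) ((1 + e1) * R i) 0 ≤ 41 / 10 * d i + 31 / 10 * d o := by
      refine (min_le_right _ _).trans ?_
      have h9 : e1 * R i ≤ R i := by nlinarith [H.e1']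
      rw [mul_zero, sub_zero, mul_one, add_mul, one_mul]
      linarith
    have h9 : 0 ≤ 41 / 10 * d i + 31 / 10 * d o := by linarith
    calc _ ≤ (1 - K i o) * (41 / 10 * d i + 31 / 10 * d o) :=
          mul_le_mul_of_nonneg_left h8 (by linarith)
      _ ≤ _ := by nlinarith

theorem d4_quad (H : DH n x y d δ R u β f K e1 φ ψ ga Λ Δ κ) :
    mass n x * ∑ i ∈ range n, x i * wt n x K i * bk δ (d i) ((1 + e1) * R i) 0 ≤
      mass n x ^ 2 * (1 - mass n x) * δ + 8 * acost n x d := by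
  have hx : ∀ i ∈ range n, 0 ≤ x i := fun i hi => H.ms.x0 i (mem_range.1 hi)
  have hm0 : 0 ≤ mass n x := sum_nonneg hx
  have hm1 := H.ms.m1
  have hA : 0 ≤ acost n x d :=
    sum_nonneg fun i hi => mul_nonneg (hx i hi) (H.ms.d0 i (mem_range.1 hi))
  have h1 : ∀ i ∈ range n, x i * wt n x K i * bk δ (d i) ((1 + e1) * R i) 0 ≤
      x i * ((1 - mass n x) * δ + (41 / 10 * mass n x * d i + 31 / 10 * acost n x d)) := by
    intro i hi
    rw [mul_assoc]
    refine mul_le_mul_of_nonneg_left ?_ (hx i hi)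
    have e : wt n x K i = (1 - mass n x) + ∑ o ∈ range n, x o * (1 - K i o) := by
      simp only [wt, mass, mul_sub, mul_one, sum_sub_distrib]
      ring
    have e2 : 41 / 10 * mass n x * d i + 31 / 10 * acost n x d =
        ∑ o ∈ range n, x o * (41 / 10 * d i + 31 / 10 * d o) := by
      simp only [mass, acost, mul_sum, sum_mul, ← sum_add_distrib]
      exact sum_congr rfl fun o _ => by ring
    rw [e, add_mul, e2, sum_mul]
    refine add_le_add (mul_le_mul_of_nonneg_left (min_le_left _ _) (by linarith))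
      (sum_le_sum fun o ho => ?_)
    rw [mul_assoc]
    exact mul_le_mul_of_nonneg_left (d4_rho H (mem_range.1 hi) (mem_range.1 ho)) (hx o ho)
  have h2 : ∑ i ∈ range n,
      x i * ((1 - mass n x) * δ + (41 / 10 * mass n x * d i + 31 / 10 * acost n x d)) =
      mass n x * ((1 - mass n x) * δ) + 72 / 10 * (mass n x * acost n x d) := by
    have e : ∀ i, x i * ((1 - mass n x) * δ + (41 / 10 * mass n x * d i + 31 / 10 * acost n x d)) =
        x i * ((1 - mass n x) * δ + 31 / 10 * acost n x d) + 41 / 10 * mass n x * (x i * d i) :=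
      fun i => by ring
    simp only [e]
    rw [sum_add_distrib, ← sum_mul, ← mul_sum]
    change mass n x * _ + _ * acost n x d = _
    ring
  have h3 := (sum_le_sum h1).trans_eq h2
  have h4 : mass n x * acost n x d ≤ acost n x d := by nlinarith
  have h5 : mass n x * (mass n x * acost n x d) ≤ acost n x d := by
    nlinarith [mul_nonneg hm0 hA]
  have h6 := mul_le_mul_of_nonneg_left h3 hm0
  nlinarith

theorem d4_k (L : ℕ → ℚ → ℚ) (H : DH n x y d δ R u β f K e1 φ ψ ga Λ Δ κ) :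
    ∃ k : ℕ → ℚ, ∀ i < n, 0 ≤ k i ∧ k i ≤ 1 ∧ L i 0 ≤ L i (k i) ∧
      ∀ o < n, L i (K i o) ≤ L i (k i) := by
  have h : ∀ i, ∃ k : ℚ, i < n → 0 ≤ k ∧ k ≤ 1 ∧ L i 0 ≤ L i k ∧ ∀ o < n, L i (K i o) ≤ L i k := by
    intro i
    obtain ⟨k, hk, hmax⟩ := exists_max_image (insert 0 ((range n).image (K i))) (L i)
      (insert_nonempty _ _)
    refine ⟨k, fun hi => ⟨?_, ?_, hmax 0 (mem_insert_self _ _), fun o ho =>
      hmax _ (mem_insert_of_mem (mem_image_of_mem _ (mem_range.2 ho)))⟩⟩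
    · rcases mem_insert.1 hk with rfl | hk
      · exact le_rfl
      · obtain ⟨o, ho, rfl⟩ := mem_image.1 hk
        exact H.K0 i hi o (mem_range.1 ho)
    · rcases mem_insert.1 hk with rfl | hk
      · exact zero_le_one
      · obtain ⟨o, ho, rfl⟩ := mem_image.1 hk
        exact H.K1 i hi o (mem_range.1 ho)
  choose k hk using h
  exact ⟨k, hk⟩

theorem out_sum (G : GoodC c g) (H : DH n x y d δ R u β f K e1 φ ψ ga Λ Δ κ) (hκ : 0 ≤ κ)
    (hΔ : 0 ≤ Δ) : ∃ k : ℕ → ℚ, (∀ i < n, 0 ≤ k i) ∧ (∀ i < n, k i ≤ 1) ∧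
    ∑ i ∈ range n, x i * (∑ o ∈ range n, (y o - x o) * K i o *
        (f o * outV c g ga (2 * φ) n x d δ (bk δ (d i) (R i) (K i o)) (K i o / β o) i) +
      u i * outV c g ga (2 * φ) n x d δ δ (u i / Λ) i) ≤
    ∑ i ∈ range n, x i * wt n x K i *
        lam c g n x d δ (bk δ (d i) ((1 + e1) * R i) (k i)) (k i) i -
      ga * ∑ i ∈ range n, x i * wt n x K i * d i +
      2 * φ * (mass n x ^ 2 * (1 - mass n x) * δ) - (1 - φ) * (2 * φ) * XX n x δ K +
      (32 * ψ / e1 + 4 * ψ + 24 * φ) * acost n x d + (2 * κ + Δ / Λ) := by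
  obtain ⟨k, hk⟩ := d4_k (fun i l => lam c g n x d δ (bk δ (d i) ((1 + e1) * R i) l) l i) H
  refine ⟨k, fun i hi => (hk i hi).1, fun i hi => (hk i hi).2.1, ?_⟩
  have hx : ∀ i ∈ range n, 0 ≤ x i := fun i hi => H.ms.x0 i (mem_range.1 hi)
  have hm0 : 0 ≤ mass n x := sum_nonneg hx
  have hm1 := H.ms.m1
  have hA : 0 ≤ acost n x d :=
    sum_nonneg fun i hi => mul_nonneg (hx i hi) (H.ms.d0 i (mem_range.1 hi))
  have hφ := H.φ0
  have hψ := H.ψ0
  have he := H.e0
  have hΛ : 0 < Λ := lt_of_lt_of_le one_pos H.Λ1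
  obtain ⟨E, hE⟩ : ∃ E, E = 16 * ψ / e1 + 2 * ψ + 4 * φ := ⟨_, rfl⟩
  have hE0 : 0 ≤ E := by rw [hE]; positivity
  obtain ⟨C, hC⟩ : ∃ C, C = 2 * κ + Δ / Λ := ⟨_, rfl⟩
  have hC0 : 0 ≤ C := by rw [hC]; positivity
  obtain ⟨W, hW⟩ : ∃ W : ℕ → ℚ, ∀ i, W i =
      lam c g n x d δ (bk δ (d i) ((1 + e1) * R i) (k i)) (k i) i +
        2 * φ * (mass n x * bk δ (d i) ((1 + e1) * R i) 0) - ga * d i -
        (1 - φ) * (2 * φ) * ((1 - mass n x) * δ) := ⟨_, fun _ => rfl⟩
  have key : ∀ i ∈ range n, x i * (∑ o ∈ range n, (y o - x o) * K i o *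
        (f o * outV c g ga (2 * φ) n x d δ (bk δ (d i) (R i) (K i o)) (K i o / β o) i) +
      u i * outV c g ga (2 * φ) n x d δ δ (u i / Λ) i) ≤
      x i * (wt n x K i * W i + E * (d i + acost n x d) + C) := by
    intro i hi'
    have hi := mem_range.1 hi'
    refine mul_le_mul_of_nonneg_left ?_ (hx i hi')
    have hw : ∀ o ∈ range n, 0 ≤ (y o - x o) * K i o := fun o ho =>
      mul_nonneg (sub_nonneg.2 (H.xy o (mem_range.1 ho))) (H.K0 i hi o (mem_range.1 ho))
    have h1 : ∑ o ∈ range n, (y o - x o) * K i o *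
        (f o * outV c g ga (2 * φ) n x d δ (bk δ (d i) (R i) (K i o)) (K i o / β o) i) ≤
        (∑ o ∈ range n, (y o - x o) * K i o) * (W i + E * (d i + acost n x d)) := by
      rw [sum_mul]
      refine sum_le_sum fun o ho => mul_le_mul_of_nonneg_left ?_ (hw o ho)
      have a1 := out_term G H hi (mem_range.1 ho)
      have a2 := (hk i hi).2.2.2 o (mem_range.1 ho)
      rw [hW, hE]
      linarith
    have h2 : u i * outV c g ga (2 * φ) n x d δ δ (u i / Λ) i ≤ u i * W i + C := by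
      refine (dum_term G H hi).trans ?_
      rw [← hC]
      refine add_le_add (mul_le_mul_of_nonneg_left ?_ (H.u0 i hi)) le_rfl
      have a2 := (hk i hi).2.2.1
      rw [hW]
      linarith
    have h3 : ∑ o ∈ range n, (y o - x o) * K i o = wt n x K i - u i := by
      rw [H.hu i hi]
      simp only [wt, sub_mul, sum_sub_distrib]
      ring
    have h4 : wt n x K i ≤ 1 :=
      sub_le_self _ (sum_nonneg fun o ho => mul_nonneg (hx o ho) (H.K0 i hi o (mem_range.1 ho)))
    have h5 : 0 ≤ E * (d i + acost n x d) := mul_nonneg hE0 (add_nonneg (H.ms.d0 i hi) hA)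
    have h6 : (wt n x K i - u i) * (E * (d i + acost n x d)) ≤ E * (d i + acost n x d) := by
      have := H.u0 i hi
      nlinarith
    rw [h3] at h1
    nlinarith
  refine (sum_le_sum key).trans ?_
  have e : ∀ i, x i * (wt n x K i * W i + E * (d i + acost n x d) + C) =
      x i * wt n x K i * lam c g n x d δ (bk δ (d i) ((1 + e1) * R i) (k i)) (k i) i +
      2 * φ * mass n x * (x i * wt n x K i * bk δ (d i) ((1 + e1) * R i) 0) -
      ga * (x i * wt n x K i * d i) -
      (1 - φ) * (2 * φ) * ((1 - mass n x) * δ) * (x i * wt n x K i) +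
      E * (x i * d i) + (E * acost n x d + C) * x i := fun i => by rw [hW]; ring
  simp only [e, sum_add_distrib, sum_sub_distrib, ← mul_sum]
  have q1 := mul_le_mul_of_nonneg_left (d4_quad H) (show 0 ≤ 2 * φ by linarith)
  have q2 : (E * acost n x d + C) * mass n x ≤ E * acost n x d + C := by
    have : 0 ≤ E * acost n x d + C := by positivity
    nlinarith
  have q3 : (32 * ψ / e1 + 4 * ψ + 24 * φ) * acost n x d =
      2 * (E * acost n x d) + 16 * φ * acost n x d := by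
    rw [hE]
    ring
  rw [q3, ← hC, XX]
  change _ + E * acost n x d + _ * mass n x ≤ _
  linarith

end Vale.Agent.P334
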