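import Vale.Agent.P334.DDefs

/-! P334: effect of a direct event, thinned by the factor `s`.
PLAN. Let l1 = dlev 1 K d z ∈ [0,1], w = kill x l1, so kill x (dlev s K d z) = (1-s) x + s w =: x'.
D = m - mass w ∈ [0,1], m' = m - s D, δ' = min δ z.  c m' ≤ c - g s D (conc), tau m' ≤ tau + 0.54 s D
(tau_step, eta_le), T'(δ') ≤ chi A', 0.54 chi ≤ 1/2 ≤ g, so c m' A' + tau m' T'(δ') ≤ c A' + tau T'(δ').
T'(δ') = (1-s) T(δ') + s Tw(δ') ≤ (1-s)(T + m (δ-δ')) + s chi Aw, (1-m') δ' = (1-s) q δ' + s (1 - mw) δ',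
q δ' + tau m (δ-δ') ≤ q δ.  Hence phi0' ≤ (1-s) phi0 + s ((c + chi tau) Aw + (1 - mw) z) and
ch Aw + (1 - mw) z = z - sum w i (z - ch d i) = z - sum x (1-K) max (z - ch d) 0 (c_ch).
acost: A' - A = - s sum x l1 d ≤ - s sum x K d.  Last term: m' (1-m') δ' ≤ m' q δ' + s z and
m' q δ' - m q δ = - s D q δ' - m q (δ-δ') ≤ s (- m q δ + mw q δ') ≤ s (z - m q δ). -/

namespace Vale.Agent.P334

open Finset

variable {c g : ℚ → ℚ} {n : ℕ} {x d : ℕ → ℚ} {δ : ℚ}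

theorem evd_core {m A T δ δ' z s D Al Tl T1 cm gm τ η c' τ' : ℚ} (s0 : 0 ≤ s) (s1 : s ≤ 1)
    (D0 : 0 ≤ D) (D1 : D ≤ m) (m1 : m ≤ 1)
    (h1 : c' ≤ cm - gm * (s * D) - 4 / 25 * (s * D) ^ 2)
    (h2 : τ' ≤ τ + η * (s * D) + 227 / 1000 * (s * D) ^ 2) (g0 : 1 / 2 ≤ gm) (η1 : η ≤ 31 / 100)
    (t0 : 0 ≤ T1 - s * Tl) (t1 : T1 - s * Tl ≤ 88 / 125 * (A - s * Al))
    (t2 : T1 ≤ T + m * (δ - δ')) (t3 : T1 - Tl ≤ 88 / 125 * (A - Al)) (τ0 : 0 ≤ τ)
    (τ1 : τ ≤ 2 / 25 * (1 - m)) (hδ : δ' ≤ δ) (hz : δ' ≤ z) (w0 : 0 ≤ A - Al)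
    (hc : cm + 88 / 125 * τ ≤ 87 / 50) :
    c' * (A - s * Al) + (1 - (m - s * D)) * δ' + τ' * (T1 - s * Tl) ≤
      (1 - s) * (cm * A + (1 - m) * δ + τ * T) + s * (87 / 50 * (A - Al) + (1 - (m - D)) * z) := by
  have u0 := mul_nonneg s0 D0
  have u1 : s * D ≤ 1 := mul_le_one₀ s1 D0 (D1.trans m1)
  have a0 : 0 ≤ A - s * Al := by linarith
  have b1 : c' ≤ cm - 1 / 2 * (s * D) := by
    linarith [mul_le_mul_of_nonneg_right g0 u0, sq_nonneg (s * D)]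
  have b2 : τ' ≤ τ + 54 / 100 * (s * D) := by
    linarith [mul_le_mul_of_nonneg_right η1 u0, pow_le_of_le_one u0 u1 two_ne_zero]
  have a1 := mul_le_mul_of_nonneg_right b1 a0
  have a2 := mul_le_mul_of_nonneg_right b2 t0
  have a3 := mul_le_mul_of_nonneg_left t1 u0
  have a4 := mul_nonneg u0 a0
  have a5 := mul_le_mul_of_nonneg_left t2 (mul_nonneg (sub_nonneg.2 s1) τ0)
  have a6 := mul_le_mul_of_nonneg_left t3 (mul_nonneg s0 τ0)
  have b3 : τ * m ≤ 1 - m := (mul_le_of_le_one_right τ0 m1).trans (by linarith)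
  have a7 := mul_le_mul_of_nonneg_left b3 (mul_nonneg (sub_nonneg.2 s1) (sub_nonneg.2 hδ))
  have a8 := mul_le_mul_of_nonneg_left hz (mul_nonneg s0 (by linarith : 0 ≤ 1 - (m - D)))
  have a9 := mul_le_mul_of_nonneg_left hc (mul_nonneg s0 w0)
  linarith

theorem evd_last {m δ δ' z s D : ℚ} (s0 : 0 ≤ s) (s1 : s ≤ 1) (D0 : 0 ≤ D) (D1 : D ≤ m)
    (m1 : m ≤ 1) (h0 : 0 ≤ δ') (hδ : δ' ≤ δ) (hz : δ' ≤ z) :
    (m - s * D) * (1 - (m - s * D)) * δ' - m * (1 - m) * δ ≤ s * (2 * z - m * (1 - m) * δ) := by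
  have u0 := mul_nonneg s0 D0
  have b1 : (m - s * D) * D ≤ 1 := mul_le_one₀ (by linarith) D0 (D1.trans m1)
  have b2 : (m - D) * (1 - m) ≤ 1 := mul_le_one₀ (by linarith) (sub_nonneg.2 m1) (by linarith)
  have a1 := mul_le_mul_of_nonneg_left b1 (mul_nonneg s0 h0)
  have a2 := mul_le_mul_of_nonneg_left b2 (mul_nonneg s0 h0)
  have a3 := mul_le_mul_of_nonneg_left hz s0
  have a4 := mul_le_mul_of_nonneg_left hδ (mul_nonneg (sub_nonneg.2 s1)
    (mul_nonneg (D0.trans D1) (sub_nonneg.2 m1)))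
  linarith

theorem ev_dir (G : GoodC c g) (ms : Meas n x d δ) {ga tp s z : ℚ} (ga0 : 0 ≤ ga) (tp0 : 0 ≤ tp)
    (s0 : 0 ≤ s) (s1 : s ≤ 1) (z0 : 0 ≤ z) {K : ℕ → ℚ} (K0 : ∀ i < n, 0 ≤ K i)
    (K1 : ∀ i < n, K i ≤ 1) :
    phi c ga tp n (kill x (dlev s K d z)) d (min δ z) - phi c ga tp n x d δ ≤
      s * dirV c ga tp n x d δ K z := by
  obtain ⟨L, hL⟩ : ∃ L : ℕ → ℚ, L = fun i => if z ≤ ch * d i then 1 else K i := ⟨_, rfl⟩
  have LK : ∀ i < n, K i ≤ L i := fun i hi => by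
    simp only [hL]
    split_ifs
    exacts [K1 i hi, le_rfl]
  have L0 : ∀ i < n, 0 ≤ L i := fun i hi => (K0 i hi).trans (LK i hi)
  have L1 : ∀ i < n, L i ≤ 1 := fun i hi => by
    simp only [hL]
    split_ifs
    exacts [le_rfl, K1 i hi]
  have hd : dlev s K d z = fun i => s * L i := by rw [hL]; rfl
  have h0 : 0 ≤ min δ z := le_min ms.δ0 z0
  have m0 := ms.m0
  have m1 := ms.m1
  have mw := ms.kill L0 L1 h0
  have mk := ms.kill (l := fun i => s * L i) (fun i hi => mul_nonneg s0 (L0 i hi))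
    (fun i hi => mul_le_one₀ s1 (L0 i hi) (L1 i hi)) h0
  have D0 : 0 ≤ ∑ i ∈ range n, x i * L i :=
    sum_nonneg fun i hi => mul_nonneg (ms.x0 i (mem_range.1 hi)) (L0 i (mem_range.1 hi))
  have D1 : ∑ i ∈ range n, x i * L i ≤ mass n x := by
    have := mw.m0
    rwa [mass_kill, sub_nonneg] at this
  have e1 : mass n (kill x fun i => s * L i) = mass n x - s * ∑ i ∈ range n, x i * L i := by
    rw [mass_kill, mul_sum]
    exact congrArg _ (sum_congr rfl fun i _ => by ring)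
  have e2 : acost n (kill x fun i => s * L i) d =
      acost n x d - s * ∑ i ∈ range n, x i * L i * d i := by
    rw [acost_kill, mul_sum]
    exact congrArg _ (sum_congr rfl fun i _ => by ring)
  have e3 : tcost n (kill x fun i => s * L i) d (min δ z) =
      tcost n x d (min δ z) - s * ∑ i ∈ range n, x i * L i * tcl (d i) (min δ z) := by
    rw [tcost_kill, mul_sum]
    exact congrArg _ (sum_congr rfl fun i _ => by ring)
  have e4 : ∑ i ∈ range n, x i * (1 - K i) * max (z - ch * d i) 0 =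
      z * (mass n x - ∑ i ∈ range n, x i * L i) -
        87 / 50 * (acost n x d - ∑ i ∈ range n, x i * L i * d i) := by
    simp only [mass, acost, mul_sum, ← sum_sub_distrib]
    refine sum_congr rfl fun i _ => ?_
    simp only [hL]
    split_ifs with h
    · rw [max_eq_right (sub_nonpos.2 h)]
      ring
    · rw [max_eq_left (sub_nonneg.2 (not_le.1 h).le), ch]
      ring
  have e5 : ∑ i ∈ range n, x i * K i * d i ≤ ∑ i ∈ range n, x i * L i * d i :=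
    sum_le_sum fun i hi => mul_le_mul_of_nonneg_right (mul_le_mul_of_nonneg_left
      (LK i (mem_range.1 hi)) (ms.x0 i (mem_range.1 hi))) (ms.d0 i (mem_range.1 hi))
  have u0 := mul_nonneg s0 D0
  have u1 := (mul_le_of_le_one_left D0 s1).trans D1
  have a1 := G.conc _ _ (sub_nonneg.2 u1) (sub_le_self _ u0) m1
  rw [sub_sub_cancel] at a1
  have t0 := mk.t0 (min δ z)
  have t1 := mk.t_le (min δ z)
  have t3 := mw.t_le (min δ z)
  have w0 := mw.a0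
  rw [e3] at t0 t1
  rw [e2] at t1
  rw [tcost_kill] at t3
  rw [acost_kill] at t3 w0
  have b1 := evd_core s0 s1 D0 D1 m1 a1 (tau_step u0 u1 m1) (G.g_ge _ m0 m1) (eta_le m0 m1) t0 t1
    (ms.t_lip (min_le_left δ z)) t3 (tau_nonneg m0 m1) (tau_le m0 m1) (min_le_left δ z)
    (min_le_right δ z) w0 (G.c_ch m0 m1)
  have b2 := mul_le_mul_of_nonneg_left
    (evd_last s0 s1 D0 D1 m1 h0 (min_le_left δ z) (min_le_right δ z)) tp0
  have b3 := mul_le_mul_of_nonneg_left e5 (mul_nonneg s0 ga0)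
  rw [hd, dirV, phi, phi, phi0, phi0, e1, e2, e3, e4]
  linarith

end Vale.Agent.P334
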