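import Vale.Agent.P334.EvO
import Vale.Agent.P334.EvD
import Vale.Agent.P334.Drift2
import Vale.Agent.P334.Drift3
import Vale.Agent.P334.Drift4

/-! P334: the drift of the potential of one client.
PLAN. Split y o = x o + (y o - x o); β o ≥ 1, f o ≥ 1 - φ ≥ 0.  Direct part: β o (Φ' o - Φ) ≤ dirV by
ev_dir with s = 1/β o.  Outside part: β o (Φ' o - Φ) ≤ sum_i x i K i o outV (bk δ (d i) (R i) (K i o))
(K i o/β o) i by ev_out with ρ i = bk .. (P1 gives min δ (d o) ≤ ρ i when K i o > 0).  Decay: ev_out with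
l = u/Λ, ρ = δ, δ' = δ.  Swap the sums, add dir_sum, out_sum, main_pert: the ga terms give - ga A, the
terms with m^2 q δ cancel, φ (1+2φ) X - (1-φ) 2φ X = φ (4φ - 1) X ≤ 0 (X ≥ 0), and ga0 absorbs the rest. -/

namespace Vale.Agent.P334

open Finset

variable {c g : ℚ → ℚ} {n : ℕ} {x y d : ℕ → ℚ} {δ : ℚ} {R u β f : ℕ → ℚ} {K : ℕ → ℕ → ℚ}
  {e1 φ ψ ga Λ Δ κ : ℚ}

theorem drift_wt (H : DH n x y d δ R u β f K e1 φ ψ ga Λ Δ κ) {i : ℕ} (hi : i < n) :
    0 ≤ wt n x K i := by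
  have h1 : ∑ o ∈ range n, x o * K i o ≤ mass n x := sum_le_sum fun o ho =>
    mul_le_of_le_one_right (H.ms.x0 o (mem_range.1 ho)) (H.K1 i hi o (mem_range.1 ho))
  have h2 := H.ms.m1
  unfold wt
  linarith

theorem drift_f (H : DH n x y d δ R u β f K e1 φ ψ ga Λ Δ κ) {o : ℕ} (ho : o < n) : 0 ≤ f o := by
  have h1 : 0 ≤ ∑ i ∈ range n, x i * K i o := sum_nonneg fun i hi =>
    mul_nonneg (H.ms.x0 i (mem_range.1 hi)) (H.K0 i (mem_range.1 hi) o ho)
  have h2 := H.f2 o ho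
  have h3 := H.φ1
  have h4 := mul_nonneg H.φ0 h1
  nlinarith

theorem drift_ga (H : DH n x y d δ R u β f K e1 φ ψ ga Λ Δ κ) : 0 ≤ ga := by
  have h1 := H.e0
  have h2 := H.ψ0
  have h3 := H.φ0
  exact le_trans (by positivity) H.ga0

theorem drift (G : GoodC c g) (H : DH n x y d δ R u β f K e1 φ ψ ga Λ Δ κ) (hκ : 0 ≤ κ)
    (hΔ : 0 ≤ Δ) {Φ' : ℕ → ℚ}
    (h1 : ∀ o < n, Φ' o ≤ phi c ga (2 * φ) n (kill x fun i => K i o / β o) d (min δ (d o)))
    (h2 : ∀ o < n, Φ' o ≤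
      phi c ga (2 * φ) n (kill x (dlev (1 / β o) (fun i => K i o) d (d o))) d (min δ (d o))) :
    ∑ o ∈ range n, y o * β o * f o * (Φ' o - phi c ga (2 * φ) n x d δ) +
      Λ * (phi c ga (2 * φ) n (kill x fun i => u i / Λ) d δ - phi c ga (2 * φ) n x d δ) ≤
        2 * κ + Δ / Λ := by
  have tp0 : 0 ≤ 2 * φ := mul_nonneg zero_le_two H.φ0
  have hΛ : 0 < Λ := zero_lt_one.trans_le H.Λ1
  have hD : ∀ o < n, β o * (Φ' o - phi c ga (2 * φ) n x d δ) ≤
      dirV c ga (2 * φ) n x d δ (fun i => K i o) (d o) := by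
    intro o ho
    have hβ : 0 < β o := zero_lt_one.trans_le (H.β1 o ho)
    have h := ev_dir G H.ms (drift_ga H) tp0 (s := 1 / β o) (by positivity)
      ((div_le_one hβ).2 (H.β1 o ho)) (H.ms.d0 o ho) (K := fun i => K i o)
      (fun i hi => H.K0 i hi o ho) fun i hi => H.K1 i hi o ho
    refine (mul_le_mul_of_nonneg_left ((sub_le_sub_right (h2 o ho) _).trans h) hβ.le).trans
      (le_of_eq ?_)
    field_simp
  have hO : ∀ o < n, β o * (Φ' o - phi c ga (2 * φ) n x d δ) ≤ ∑ i ∈ range n, x i * K i o *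
      outV c g ga (2 * φ) n x d δ (bk δ (d i) (R i) (K i o)) (K i o / β o) i := by
    intro o ho
    have hβ : 0 < β o := zero_lt_one.trans_le (H.β1 o ho)
    have h := ev_out G H.ms (ga := ga) tp0 (l := fun i => K i o / β o)
      (ρ := fun i => bk δ (d i) (R i) (K i o)) (δ' := min δ (d o))
      (fun i hi => div_nonneg (H.K0 i hi o ho) hβ.le)
      (fun i hi => (div_le_one hβ).2 ((H.K1 i hi o ho).trans (H.β1 o ho)))
      (le_min H.ms.δ0 (H.ms.d0 o ho)) (min_le_left _ _)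
      fun i hi hl => min_le_min le_rfl (H.P1 i hi o ho ((div_pos_iff_of_pos_right hβ).1 hl))
    refine (mul_le_mul_of_nonneg_left ((sub_le_sub_right (h1 o ho) _).trans h) hβ.le).trans
      (le_of_eq ?_)
    rw [mul_sum]
    refine sum_congr rfl fun i _ => ?_
    field_simp
  have hU : Λ * (phi c ga (2 * φ) n (kill x fun i => u i / Λ) d δ - phi c ga (2 * φ) n x d δ) ≤
      ∑ i ∈ range n, x i * (u i * outV c g ga (2 * φ) n x d δ δ (u i / Λ) i) := by
    have hu : ∀ i < n, u i ≤ 1 := fun i hi => by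
      rw [H.hu i hi]
      exact sub_le_self _ (sum_nonneg fun o ho => mul_nonneg
        ((H.ms.x0 o (mem_range.1 ho)).trans (H.xy o (mem_range.1 ho)))
        (H.K0 i hi o (mem_range.1 ho)))
    have h := ev_out G H.ms (ga := ga) tp0 (l := fun i => u i / Λ) (ρ := fun _ => δ) (δ' := δ)
      (fun i hi => div_nonneg (H.u0 i hi) hΛ.le)
      (fun i hi => (div_le_one hΛ).2 ((hu i hi).trans H.Λ1)) H.ms.δ0 le_rfl fun _ _ _ => le_rfl
    refine (mul_le_mul_of_nonneg_left h hΛ.le).trans (le_of_eq ?_)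
    rw [mul_sum]
    refine sum_congr rfl fun i _ => ?_
    field_simp
  have hS : ∑ o ∈ range n, y o * β o * f o * (Φ' o - phi c ga (2 * φ) n x d δ) ≤
      ∑ o ∈ range n, x o * f o * dirV c ga (2 * φ) n x d δ (fun i => K i o) (d o) +
      ∑ i ∈ range n, x i * ∑ o ∈ range n, (y o - x o) * K i o *
        (f o * outV c g ga (2 * φ) n x d δ (bk δ (d i) (R i) (K i o)) (K i o / β o) i) := by
    simp only [mul_sum]
    rw [sum_comm, ← sum_add_distrib]
    refine sum_le_sum fun o ho => ?_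
    have ho := mem_range.1 ho
    have a1 := mul_le_mul_of_nonneg_left (hD o ho) (mul_nonneg (H.ms.x0 o ho) (drift_f H ho))
    have a2 := mul_le_mul_of_nonneg_left (hO o ho)
      (mul_nonneg (sub_nonneg.2 (H.xy o ho)) (drift_f H ho))
    have e : ∑ i ∈ range n, x i * ((y o - x o) * K i o *
        (f o * outV c g ga (2 * φ) n x d δ (bk δ (d i) (R i) (K i o)) (K i o / β o) i)) =
        (y o - x o) * f o * ∑ i ∈ range n, x i * K i o *
          outV c g ga (2 * φ) n x d δ (bk δ (d i) (R i) (K i o)) (K i o / β o) i := by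
      rw [mul_sum]
      exact sum_congr rfl fun i _ => by ring
    rw [e]
    linarith
  obtain ⟨k, k0, k1, hk⟩ := out_sum G H hκ hΔ
  have hd := dir_sum G H
  have hm := main_pert G H k0 k1
  simp only [mul_add, sum_add_distrib] at hk
  have hA : ∑ i ∈ range n, x i * (1 - wt n x K i) * d i =
      acost n x d - ∑ i ∈ range n, x i * wt n x K i * d i := by
    rw [acost, ← sum_sub_distrib]
    exact sum_congr rfl fun i _ => by ring
  have hX : 0 ≤ XX n x δ K :=
    mul_nonneg (mul_nonneg (sub_nonneg.2 H.ms.m1) H.ms.δ0) (sum_nonneg fun i hi =>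
      mul_nonneg (H.ms.x0 i (mem_range.1 hi)) (drift_wt H (mem_range.1 hi)))
  have hA0 : 0 ≤ acost n x d := sum_nonneg fun i hi =>
    mul_nonneg (H.ms.x0 i (mem_range.1 hi)) (H.ms.d0 i (mem_range.1 hi))
  have b1 := mul_le_mul_of_nonneg_right H.ga0 hA0
  have b2 : φ * (4 * φ - 1) * XX n x δ K ≤ 0 :=
    mul_nonpos_of_nonpos_of_nonneg (mul_nonpos_of_nonneg_of_nonpos H.φ0 (by linarith [H.φ1])) hX
  rw [hA] at hd
  linarith

end Vale.Agent.P334
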