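import Vale.Agent.P334.Count
import Vale.Agent.P334.Drift
import Vale.Agent.P334.CN3

/-! P334: the drift lemma applied to a client of the process.
PLAN. `Inv.dh`: fields of DH from Basic, Kern, Count.  P1: dq j o ≤ dq j i + dq i o (tri) and ker_pos.
P2: dq i o ≤ dq j i + dq j o (symm, tri) and ker_lt.  H1: rad_le and dS i ≤ dd i j + dS j (dS_tri, symm;
members of S are in F, hence < nn).  H2: rad_alt; first case δq j ≤ dq j i + δq i so the max is 0; second
case max .. ≤ δq j ≤ DD and Yq ≤ nn.  Constants: L ≥ 200.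
`client_drift`: `Finset.sum_range_succ`; for e < n: nS = e :: S, dS_cons gives the cast
min (δq j) (dq j e); ph (xn ..) is the smaller of ph (xo ..), ph (xd ..) (xn .. e j is the function xd
or xo: `funext`, `split_ifs`), lev e = fun i => Kq i e / βq e.  For e = n: xn = xo, nS = S.
Apply `drift` with Φ' e = ph (xn s e j) j (dS (nS s e) j) and `goodC M`. -/

namespace Vale.Agent.P334

open Finset

variable {L M : ℕ} {G : Ctx} {s : St}

private theorem client_num {a : ℚ} (h0 : 0 < a) (h1 : a ≤ 1 / 200) :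
    a ^ 4 ≤ 1 / 4 ∧ 2 * (3 * a ^ 2) ≤ a ∧
      32 * (3 * a ^ 2) / a + 6 * (3 * a ^ 2) + 33 * a ^ 4 + 18 * a ≤ 200 * a := by
  have h2 : a ^ 2 ≤ a / 200 := by nlinarith
  have h3 : a ^ 4 ≤ a ^ 2 := pow_le_pow_of_le_one h0.le (by linarith) (by norm_num)
  have h4 : 32 * (3 * a ^ 2) / a = 96 * a := by
    field_simp
    norm_num
  refine ⟨by linarith, by linarith, ?_⟩
  rw [h4]
  linarith

theorem Inv.dh (hG : CtxOK L G) (h : Inv L M G s) {j : ℕ} (hj : j < nn G) :
    DH (nn G) (xq L G s j) (yq L G s) (dq G j) (δq G s j) (Rq L G s) (uq L G s) (βq L G s)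
      (fq L G s) (Kq L G s) (1 / L) (1 / (L : ℚ) ^ 4) (3 / (L : ℚ) ^ 2) (200 / L) (LL L G) (DD G)
      (6 * nn G * DD G / PP L G) := by
  have hL : (200 : ℚ) ≤ L := by exact_mod_cast hG.L200
  have hL0 : (0 : ℚ) < L := by linarith
  have ha0 : (0 : ℚ) < 1 / L := by positivity
  have ha1 : (1 : ℚ) / L ≤ 1 / 200 := one_div_le_one_div_of_le (by norm_num) hL
  have e4 : (1 : ℚ) / (L : ℚ) ^ 4 = (1 / L) ^ 4 := by rw [one_div_pow]
  have e2 : (3 : ℚ) / (L : ℚ) ^ 2 = 3 * (1 / L) ^ 2 := by rw [one_div_pow, mul_one_div]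
  have e1 : (200 : ℚ) / L = 200 * (1 / L) := by rw [mul_one_div]
  obtain ⟨n1, n2, n3⟩ := client_num ha0 ha1
  have hS : ∀ i ∈ s.2.2.1, i < nn G := fun i hi => hG.Flt i (h.SF i hi)
  have hd0 : ∀ u v, 0 ≤ dq G u v := fun u v => Nat.cast_nonneg _
  have hsy : ∀ u < nn G, ∀ v < nn G, dq G u v = dq G v u := fun u hu v hv => by
    unfold dq
    rw [hG.symm u hu v hv]
  have htr : ∀ u < nn G, ∀ v < nn G, ∀ w < nn G, dq G u w ≤ dq G u v + dq G v w :=
    fun u hu v hv w hw => by
      unfold dq
      exact_mod_cast hG.tri u hu v hv w hw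
  have hδ : ∀ u < nn G, ∀ v < nn G, δq G s u ≤ dq G u v + δq G s v := fun u hu v hv => by
    unfold dq δq
    exact_mod_cast dS_tri hG hS hu hv
  have hδD : δq G s j ≤ DD G := by
    unfold δq
    exact_mod_cast dS_le G _ j
  refine
    { ms := h.meas hj _
      xy := h.xy j hj
      dΔ := fun i hi => by
        unfold dq
        exact_mod_cast hG.le j hj i hi
      R0 := fun i _ => Rq0 L G s i
      K0 := fun _ _ _ _ => ker0 _ _
      K1 := fun _ _ _ _ => ker1 _ _
      P1 := fun i hi o ho hK => (htr j hj i hi o ho).trans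
        (add_le_add le_rfl (ker_pos (Rq0 L G s i) hK))
      P2 := fun i hi o ho hK => ?_
      hu := fun _ _ => rfl
      u0 := fun i _ => uq0 L G s i
      H1 := fun i hi => ?_
      H2 := fun i hi => ?_
      β1 := fun o _ => βq1 L G s o
      f1 := fun o _ => fq_le hG s o
      f2 := fun o _ => fq_ge' hG s o (h.xy j hj) (fun i _ => xq0 L G s j i) (h.xm j hj)
      e0 := ha0
      e1' := by linarith
      φ0 := by positivity
      φ1 := by rwa [e4]
      ψ0 := by positivity
      ψ1 := by rwa [e2]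
      ga1 := by rw [e1]; linarith
      ga0 := by rwa [e4, e2, e1]
      Λ1 := by
        have := hG.N800
        unfold LL
        exact_mod_cast Nat.one_le_pow _ _ (by omega) }
  · have h1 := ker_lt (Rq0 L G s i) (hd0 i o) hK
    have h2 := htr i hi j hj o ho
    rw [hsy i hi j hj] at h2
    unfold Kq
    linarith
  · have h1 := rad_le hG s i
    have h2 := hδ i hi j hj
    rw [hsy i hi j hj] at h2
    linarith
  · rcases rad_alt hG h hi with h1 | h1
    · rw [h1, max_eq_right (by linarith [hδ j hj i hi]), mul_zero]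
      positivity
    · have h2 : max (δq G s j - dq G j i - (1 + 1 / (L : ℚ)) * Rq L G s i) 0 ≤ DD G := by
        refine max_le ?_ (Nat.cast_nonneg _)
        have h3 : 0 ≤ (1 + 1 / (L : ℚ)) * Rq L G s i := mul_nonneg (by positivity) (Rq0 L G s i)
        linarith [hd0 j i]
      have h3 : uq L G s i ≤ 6 * nn G / PP L G :=
        h1.trans (div_le_div_of_nonneg_right (by linarith [h.Yn hG]) (Nat.cast_nonneg _))
      refine (mul_le_mul h3 h2 (le_max_right _ _) (by positivity)).trans (le_of_eq ?_)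
      ring

theorem client_drift (hG : CtxOK L G) (h : Inv L M G s) {j : ℕ} (hj : j < nn G) :
    ∑ e ∈ range (nn G + 1), rate L G s e *
      (ph L M G (xn L M G s e j) j (dS G (nS G s e) j) - ph L M G (xq L G s j) j (δq G s j)) ≤
      12 * nn G * DD G / PP L G + (DD G : ℚ) / LL L G := by
  have hδ : ∀ o < nn G, (dS G (nS G s o) j : ℚ) = min (δq G s j) (dq G j o) := fun o ho => by
    rw [nS, if_pos ho, dS_cons, Nat.cast_min]
    rfl
  have hl : ∀ o < nn G, lev L G s o = fun i => Kq L G s i o / βq L G s o := fun o ho => by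
    funext i
    rw [lev, if_pos ho]
  have hx : ∀ o < nn G,
      ph L M G (xn L M G s o j) j (dS G (nS G s o) j) ≤
        ph L M G (xo L G s o j) j (dS G (nS G s o) j) ∧
      ph L M G (xn L M G s o j) j (dS G (nS G s o) j) ≤
        ph L M G (xd L G s o j) j (dS G (nS G s o) j) := fun o ho => by
    rcases lt_or_ge (ph L M G (xd L G s o j) j (dS G (nS G s o) j))
      (ph L M G (xo L G s o j) j (dS G (nS G s o) j)) with h1 | h1
    · have e : xn L M G s o j = xd L G s o j := funext fun i => if_pos ⟨ho, h1⟩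
      rw [e]
      exact ⟨h1.le, le_rfl⟩
    · have e : xn L M G s o j = xo L G s o j := funext fun i => if_neg fun h2 => h1.not_gt h2.2
      rw [e]
      exact ⟨le_rfl, h1⟩
  have key := drift (goodC M) (h.dh hG hj) (by positivity) (Nat.cast_nonneg _)
    (Φ' := fun o => ph L M G (xn L M G s o j) j (dS G (nS G s o) j))
    (fun o ho => by
      have h1 := (hx o ho).1
      rw [xo, hl o ho] at h1
      refine h1.trans (le_of_eq ?_)
      rw [hδ o ho]
      rfl)
    (fun o ho => by
      refine (hx o ho).2.trans (le_of_eq ?_)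
      rw [hδ o ho]
      rfl)
  have e1 : xn L M G s (nn G) j = kill (xq L G s j) fun i => uq L G s i / LL L G := by
    funext i
    rw [xn, if_neg fun h2 => lt_irrefl _ h2.1, xo, kill, kill, lev, if_neg (lt_irrefl _)]
  have e2 : nS G s (nn G) = s.2.2.1 := if_neg (lt_irrefl _)
  have e3 : rate L G s (nn G) = LL L G := if_neg (lt_irrefl _)
  have e4 : ∑ e ∈ range (nn G), rate L G s e *
      (ph L M G (xn L M G s e j) j (dS G (nS G s e) j) - ph L M G (xq L G s j) j (δq G s j)) =
      ∑ e ∈ range (nn G), yq L G s e * βq L G s e * fq L G s e *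
      (ph L M G (xn L M G s e j) j (dS G (nS G s e) j) - ph L M G (xq L G s j) j (δq G s j)) :=
    sum_congr rfl fun e he => by rw [rate, if_pos (mem_range.1 he)]
  rw [sum_range_succ, e1, e2, e3, e4]
  refine le_trans key (le_of_eq ?_)
  ring

end Vale.Agent.P334
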