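import Vale.Agent.P334.Basic

/-! P334: list versions of cost and feasibility; existence of optimal solutions.
PLAN. `near I W j ∈ W` minimises dist I j on W (amin_mem', amin_le'; for W = a :: t the start value is a).
`List.sum_toFinset` for the nodup client list.  dist ≥ 0 on points: 0 = d u u ≤ d u v + d v u.
`feasB`: the filtered range has the same members as S, so its length is the card of S.toFinset.
`opt_ex`: finitely many subsets of F (`Finset.exists_min_image` on a filter of the powerset; write the
cost as a total function, e.g. `if h : S.Nonempty then cost I S h else 0`). -/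

namespace Vale.Agent.P334

open Finset

variable {I : Inst}

theorem Valid.nonneg (hI : Valid I) {u v : ℕ} (hu : u < I.1.length) (hv : v < I.1.length) :
    0 ≤ dist I u v := by
  have h1 := hI.triangle u hu v hv u hu
  rw [(hI.zero_iff u hu u hu).2 rfl, hI.symm v hv u hu] at h1
  linarith

theorem Valid.Fne (hI : Valid I) : I.2.2.1 ≠ [] := by
  intro h
  have h1 := hI.k_pos.trans hI.k_le
  rw [h] at h1
  simp at h1


theorem cl_len {l : List ℕ} {n : ℕ} (h : l.Nodup) (h' : ∀ i ∈ l, i < n) : l.length ≤ n := by
  rw [← List.toFinset_card_of_nodup h]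
  refine (card_le_card fun i hi => mem_range.2 (h' i (List.mem_toFinset.1 hi))).trans ?_
  rw [card_range]

theorem Valid.Flen (hI : Valid I) : I.2.2.1.length ≤ I.1.length := by
  exact cl_len hI.facilities.1 hI.facilities.2

theorem Valid.Jlen (hI : Valid I) : I.2.1.length ≤ I.1.length := by
  exact cl_len hI.clients.1 hI.clients.2

theorem near_mem (I : Inst) {W : List ℕ} (hW : W ≠ []) (j : ℕ) : near I W j ∈ W := by
  obtain ⟨a, t, rfl⟩ := List.exists_cons_of_ne_nil hW
  have h := amin_mem' (dist I j) a (a :: t)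
  rcases List.mem_cons.1 h with h | h
  · exact List.mem_cons.2 (Or.inl h)
  · exact h

theorem near_le (I : Inst) {W : List ℕ} {i : ℕ} (hi : i ∈ W) (j : ℕ) :
    dist I j (near I W j) ≤ dist I j i := by
  exact amin_le' (dist I j) (W.headD 0) W i (List.mem_cons_of_mem _ hi)

theorem costL_eq (hI : Valid I) {S : List ℕ} (hS : S.toFinset.Nonempty) :
    costL I S = cost I S.toFinset hS := by
  have hne : S ≠ [] := by
    rintro rfl
    simp at hS
  rw [costL, cost, List.sum_toFinset _ hI.clients.1]
  congr 1
  refine List.map_congr_left fun j _ => le_antisymm ?_ ?_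
  · exact le_inf' _ _ fun i hi => near_le I (List.mem_toFinset.1 hi) j
  · exact inf'_le _ (List.mem_toFinset.2 (near_mem I hne j))

theorem cost_nonneg (hI : Valid I) {S : Finset ℕ} (hS : S.Nonempty) (hF : S ⊆ I.2.2.1.toFinset) :
    0 ≤ cost I S hS := by
  refine sum_nonneg fun j hj => le_inf' _ _ fun i hi => ?_
  exact hI.nonneg (hI.clients.2 j (List.mem_toFinset.1 hj))
    (hI.facilities.2 i (List.mem_toFinset.1 (hF hi)))

theorem feasB_iff (hI : Valid I) (S : List ℕ) :
    feasB I S = true ↔ S.toFinset.Nonempty ∧ Feas I S.toFinset := by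
  have key : (∀ i ∈ S, i ∈ I.2.2.1) →
      ((List.range I.1.length).filter fun i => decide (i ∈ S)).length = S.toFinset.card := by
    intro h
    rw [← List.toFinset_card_of_nodup (List.nodup_range.filter _)]
    congr 1
    ext i
    simp only [List.mem_toFinset, List.mem_filter, List.mem_range, decide_eq_true_eq]
    exact ⟨fun h1 => h1.2, fun h1 => ⟨hI.facilities.2 i (h i h1), h1⟩⟩
  have hsub : S.toFinset ⊆ I.2.2.1.toFinset ↔ ∀ i ∈ S, i ∈ I.2.2.1 := by
    simp only [subset_iff, List.mem_toFinset]
  simp only [feasB, Feas, Bool.and_eq_true, Bool.not_eq_true', List.isEmpty_eq_false_iff,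
    List.all_eq_true, decide_eq_true_eq, List.toFinset_nonempty_iff, hsub, and_assoc]
  refine and_congr_right fun _ => and_congr_right fun h => ?_
  rw [key h]

theorem opt_ex (hI : Valid I) {k : ℕ} (hk : 1 ≤ k) : ∃ (O : Finset ℕ) (hO : O.Nonempty),
    O ⊆ I.2.2.1.toFinset ∧ O.card ≤ k ∧ LB I k (cost I O hO) := by
  obtain ⟨a, t, ha⟩ := List.exists_cons_of_ne_nil hI.Fne
  have hne : (I.2.2.1.toFinset.powerset.filter fun S => S.Nonempty ∧ S.card ≤ k).Nonempty := by
    refine ⟨{a}, mem_filter.2 ⟨mem_powerset.2 ?_, singleton_nonempty a, by simpa using hk⟩⟩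
    rw [singleton_subset_iff, ha]
    simp
  obtain ⟨O, hO, hmin⟩ := exists_min_image _
    (fun S => if h : S.Nonempty then cost I S h else 0) hne
  obtain ⟨h1, h2, h3⟩ := mem_filter.1 hO
  refine ⟨O, h2, mem_powerset.1 h1, h3, fun S hS hF hc => ?_⟩
  have h4 := hmin S (mem_filter.2 ⟨mem_powerset.2 hF, hS, hc⟩)
  rwa [dif_pos h2, dif_pos hS] at h4

theorem mem_tuples {F : List ℕ} {e : ℕ} {l : List ℕ} (hl : l.length = e) (hF : ∀ a ∈ l, a ∈ F) :
    l ∈ tuples F e := by
  induction l generalizing e with
  | nil =>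
    subst hl
    simp [tuples]
  | cons a l ih =>
    subst hl
    simp only [List.length_cons, tuples, List.mem_flatMap, List.mem_map]
    exact ⟨a, hF a List.mem_cons_self, l,
      ih rfl fun b hb => hF b (List.mem_cons_of_mem _ hb), rfl⟩

/-- a set with at most `e - 1` elements, padded by `a`, as a list of length `e` -/
theorem pad_ex {A : Finset ℕ} {e : ℕ} (h : A.card + 1 ≤ e) (a : ℕ) :
    ∃ l : List ℕ, l.length = e ∧ ∀ i, i ∈ l ↔ i ∈ A ∨ i = a := by
  refine ⟨A.toList ++ List.replicate (e - A.card) a, ?_, fun i => ?_⟩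
  · rw [List.length_append, length_toList, List.length_replicate]
    omega
  · rw [List.mem_append, mem_toList, List.mem_replicate]
    exact or_congr_right ⟨fun h1 => h1.2, fun h1 => ⟨by omega, h1⟩⟩


end Vale.Agent.P334
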