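import Vale.Agent.P334.Kern

/-! P334: the tilted rates and the counting potential.
PLAN. φ = 1/L^4, B = 3 L^2, vt = φ/4, Mo = Mq o ∈ [0, Yq], β = max 1 (Mo/B), Mo/β = min Mo B,
J = 1 - min Mo B ∈ [1-B, 1], f = 1 - φ J ∈ [1-φ, 1+φ B].  sum_o y o Mq o + Dm = Yq (`sum_comm`), 0 ≤ Dm ≤ Yq.
`w_drift`: y β f (vt J + vt^2 J^2) ≤ y β vt (J - φ J^2/2) because vt (1 + φ B) ≤ φ/2; if β = 1 this is
≤ vt y (1 - Mo); if β = Mo/B > 1 then J = 1 - B, φ (B-1)^2 ≥ 2, so β (J - φ J^2/2) ≤ -β B = -Mo ≤ 1 - Mo.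
The sum over o < n is ≤ vt (Yq - sum y Mq) = vt Dm; the decay event gives - vt Dm + vt^2 Dm^2/LL.
`y_drift`: sum_i y i lev e i = Mo/β for e < n and Dm/LL for e = n; f ≥ 1/2.
`rate_sum`: β ≤ 1 + Yq, f ≤ 2, Yq ≤ nn, 4 nn^2 ≤ NN^5.
`exp_le_wf`: |vt jump| ≤ 1 and `Real.abs_exp_sub_one_sub_id_le`. -/

namespace Vale.Agent.P334

open Finset

variable {L M : ℕ} {G : Ctx} {s : St}

theorem ct_y0 (L : ℕ) (G : Ctx) (s : St) (i : ℕ) : 0 ≤ yq L G s i := by
  unfold yq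
  positivity

theorem ct_M0 (L : ℕ) (G : Ctx) (s : St) (o : ℕ) : 0 ≤ Mq L G s o :=
  sum_nonneg fun i _ => mul_nonneg (ct_y0 L G s i) (ker0 _ _)

theorem ct_MY (L : ℕ) (G : Ctx) (s : St) (o : ℕ) : Mq L G s o ≤ Yq L G s :=
  sum_le_sum fun i _ => mul_le_of_le_one_right (ct_y0 L G s i) (ker1 _ _)

theorem ct_D0 (L : ℕ) (G : Ctx) (s : St) : 0 ≤ Dm L G s :=
  sum_nonneg fun i _ => mul_nonneg (ct_y0 L G s i) (uq0 L G s i)

theorem ct_DY (L : ℕ) (G : Ctx) (s : St) : Dm L G s ≤ Yq L G s :=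
  sum_le_sum fun i _ => mul_le_of_le_one_right (ct_y0 L G s i) (uq1 L G s i)

theorem ct_sum (L : ℕ) (G : Ctx) (s : St) :
    ∑ o ∈ range (nn G), yq L G s o * Mq L G s o = Yq L G s - Dm L G s := by
  simp only [Mq, Yq, mass, Dm, uq, mul_sub, mul_one, sum_sub_distrib, sub_sub_cancel, mul_sum]
  rw [sum_comm]
  exact sum_congr rfl fun i _ => sum_congr rfl fun o _ => by ring

theorem ct_L (hG : CtxOK L G) : (200 : ℚ) ≤ L := by exact_mod_cast hG.L200

theorem ct_cases (hG : CtxOK L G) (s : St) (o : ℕ) :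
    (βq L G s o = 1 ∧ Mq L G s o / βq L G s o = Mq L G s o ∧ Mq L G s o ≤ 3 * (L : ℚ) ^ 2) ∨
      (βq L G s o * (3 * (L : ℚ) ^ 2) = Mq L G s o ∧
        Mq L G s o / βq L G s o = 3 * (L : ℚ) ^ 2 ∧ 3 * (L : ℚ) ^ 2 ≤ Mq L G s o) := by
  have hL := ct_L hG
  have hB : 0 < 3 * (L : ℚ) ^ 2 := by positivity
  rcases le_total (Mq L G s o) (3 * (L : ℚ) ^ 2) with h | h
  · have e : βq L G s o = 1 := max_eq_left ((div_le_one hB).2 h)
    exact Or.inl ⟨e, by rw [e, div_one], h⟩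
  · have e : βq L G s o = Mq L G s o / (3 * (L : ℚ) ^ 2) := max_eq_right ((one_le_div hB).2 h)
    have h0 : 0 < Mq L G s o := hB.trans_le h
    refine Or.inr ⟨?_, ?_, h⟩ <;> rw [e] <;> field_simp

theorem ct_J (hG : CtxOK L G) (s : St) (o : ℕ) :
    1 - 3 * (L : ℚ) ^ 2 ≤ Jq L G s o ∧ Jq L G s o ≤ 1 := by
  have h0 := ct_M0 L G s o
  have hB : 0 ≤ 3 * (L : ℚ) ^ 2 := by positivity
  unfold Jq
  rcases ct_cases hG s o with ⟨-, h1, h2⟩ | ⟨-, h1, h2⟩ <;> rw [h1] <;> constructor <;> linarith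

theorem ct_phi (hG : CtxOK L G) : 0 < 1 / (L : ℚ) ^ 4 ∧ 1 / (L : ℚ) ^ 4 ≤ 1 / 2 ∧
    1 / (L : ℚ) ^ 4 * (3 * (L : ℚ) ^ 2) = 3 / (L : ℚ) ^ 2 ∧ 3 / (L : ℚ) ^ 2 ≤ 1 ∧
    vt L = 1 / (L : ℚ) ^ 4 / 4 := by
  have hL := ct_L hG
  have h2 : (200 : ℚ) ^ 2 ≤ (L : ℚ) ^ 2 := by gcongr
  have h4 : (200 : ℚ) ^ 4 ≤ (L : ℚ) ^ 4 := by gcongr
  refine ⟨by positivity, one_div_le_one_div_of_le (by norm_num) (by linarith), by field_simp,
    (div_le_one (by positivity)).2 (by linarith), ?_⟩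
  rw [vt, div_div, mul_comm]

theorem ct_LL (hG : CtxOK L G) :
    (1 : ℚ) ≤ LL L G ∧ 2 * ((nn G : ℚ) * (1 + nn G)) ≤ LL L G := by
  have h := hG.L200
  have h1 : nn G + 1 ≤ NN L G := by unfold NN; omega
  have h2 : 2 ≤ NN L G := by unfold NN; omega
  have h3 : 1 ≤ NN L G ^ 2 := Nat.one_le_pow _ _ (by omega)
  have h4 : 2 * (nn G * (1 + nn G)) * 1 ≤ NN L G * (NN L G * NN L G) * NN L G ^ 2 :=
    Nat.mul_le_mul (Nat.mul_le_mul h2 (Nat.mul_le_mul (by omega) (by omega))) h3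
  have h5 : 2 * (nn G * (1 + nn G)) ≤ LL L G := by
    unfold LL
    calc _ = _ := (mul_one _).symm
      _ ≤ _ := h4
      _ = _ := by ring
  exact ⟨by exact_mod_cast Nat.one_le_pow _ _ (by omega), by exact_mod_cast h5⟩

theorem βq1 (L : ℕ) (G : Ctx) (s : St) (o : ℕ) : 1 ≤ βq L G s o := le_max_left _ _
theorem fq_le (hG : CtxOK L G) (s : St) (o : ℕ) : fq L G s o ≤ 1 + 3 / (L : ℚ) ^ 2 := by
  obtain ⟨h0, -, h1, -⟩ := ct_phi hG
  have h2 := mul_le_mul_of_nonneg_left (ct_J hG s o).1 h0.le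
  unfold fq
  linarith
theorem fq_ge (hG : CtxOK L G) (s : St) (o : ℕ) : 1 / 2 ≤ fq L G s o := by
  obtain ⟨h0, h1, -⟩ := ct_phi hG
  have h2 := mul_le_mul_of_nonneg_left (ct_J hG s o).2 h0.le
  unfold fq
  linarith
theorem fq_ge' (hG : CtxOK L G) (s : St) (o : ℕ) {x : ℕ → ℚ} (hx : ∀ i < nn G, x i ≤ yq L G s i)
    (x0 : ∀ i < nn G, 0 ≤ x i) (hm : mass (nn G) x ≤ 1) :
    1 - 1 / (L : ℚ) ^ 4 * (1 - ∑ i ∈ range (nn G), x i * Kq L G s i o) ≤ fq L G s o := by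
  obtain ⟨h0, -⟩ := ct_phi hG
  have hL := ct_L hG
  have h1 : ∑ i ∈ range (nn G), x i * Kq L G s i o ≤ Mq L G s o :=
    sum_le_sum fun i hi => mul_le_mul_of_nonneg_right (hx i (mem_range.1 hi)) (ker0 _ _)
  have h2 : ∑ i ∈ range (nn G), x i * Kq L G s i o ≤ mass (nn G) x :=
    sum_le_sum fun i hi => mul_le_of_le_one_right (x0 i (mem_range.1 hi)) (ker1 _ _)
  have h3 : Jq L G s o ≤ 1 - ∑ i ∈ range (nn G), x i * Kq L G s i o := by
    unfold Jq
    rcases ct_cases hG s o with ⟨-, h4, -⟩ | ⟨-, h4, -⟩ <;> rw [h4] <;> nlinarith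
  have h4 := mul_le_mul_of_nonneg_left h3 h0.le
  unfold fq
  linarith
theorem lev0 (L : ℕ) (G : Ctx) (s : St) (e i : ℕ) : 0 ≤ lev L G s e i := by
  unfold lev
  split_ifs
  · exact div_nonneg (ker0 _ _) (zero_le_one.trans (βq1 L G s e))
  · exact div_nonneg (uq0 L G s i) (Nat.cast_nonneg _)
theorem lev1 (hG : CtxOK L G) (s : St) (e i : ℕ) : lev L G s e i ≤ 1 := by
  unfold lev
  split_ifs
  · exact div_le_one_of_le₀ ((ker1 _ _).trans (βq1 L G s e)) (zero_le_one.trans (βq1 L G s e))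
  · exact div_le_one_of_le₀ ((uq1 L G s i).trans (ct_LL hG).1) (Nat.cast_nonneg _)
theorem rate0 (hG : CtxOK L G) (s : St) (e : ℕ) : 0 ≤ rate L G s e := by
  unfold rate
  split_ifs
  · exact mul_nonneg (mul_nonneg (ct_y0 L G s e) (zero_le_one.trans (βq1 L G s e)))
      (le_trans (by norm_num) (fq_ge hG s e))
  · exact Nat.cast_nonneg _
theorem wf0 (L : ℕ) (G : Ctx) (s : St) (e : ℕ) : 0 ≤ wf L G s e := by
  unfold wf
  nlinarith [sq_nonneg (vt L * jump L G s e + 1), sq_nonneg (vt L * jump L G s e)]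
theorem kill_jump (L : ℕ) (G : Ctx) (s : St) (e : ℕ) :
    mass (nn G) (kill (yq L G s) (lev L G s e)) + (if e < nn G then 1 else 0) =
      Yq L G s + jump L G s e := by
  unfold jump
  split_ifs with h
  · simp only [mass, kill, lev, if_pos h, Jq, Mq, Yq, mul_sub, mul_one, sum_sub_distrib, sum_div,
      mul_div_assoc]
    ring
  · simp only [mass, kill, lev, if_neg h, Dm, Yq, mul_sub, mul_one, sum_sub_distrib, sum_div,
      mul_div_assoc]
    ring

theorem ct_one (hG : CtxOK L G) (s : St) (e : ℕ) :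
    βq L G s e * fq L G s e * (vt L * Jq L G s e + (vt L * Jq L G s e) ^ 2) ≤
      vt L * (1 - Mq L G s e) := by
  obtain ⟨h0, -, -, h3, h4⟩ := ct_phi hG
  have hL := ct_L hG
  have hf := (fq_le hG s e).trans (add_le_add_right h3 1)
  have hβ := zero_le_one.trans (βq1 L G s e)
  have hv : 0 ≤ vt L := by rw [h4]; positivity
  have h5 : fq L G s e * (Jq L G s e + vt L * Jq L G s e ^ 2) ≤
      Jq L G s e - 1 / (L : ℚ) ^ 4 * Jq L G s e ^ 2 / 2 := by
    have h6 := mul_le_mul_of_nonneg_right hf (mul_nonneg hv (sq_nonneg (Jq L G s e)))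
    have h7 : fq L G s e * Jq L G s e = Jq L G s e - 1 / (L : ℚ) ^ 4 * Jq L G s e ^ 2 := by
      unfold fq
      ring
    rw [mul_add, h7]
    rw [h4] at h6 ⊢
    linarith
  have h8 : βq L G s e * (Jq L G s e - 1 / (L : ℚ) ^ 4 * Jq L G s e ^ 2 / 2) ≤
      1 - Mq L G s e := by
    rcases ct_cases hG s e with ⟨a1, a2, -⟩ | ⟨a1, a2, -⟩
    · have := mul_nonneg h0.le (sq_nonneg (Jq L G s e))
      have a3 : Jq L G s e = 1 - Mq L G s e := by rw [Jq, a2]
      rw [a1]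
      linarith
    · have a3 : Jq L G s e = 1 - 3 * (L : ℚ) ^ 2 := by rw [Jq, a2]
      have a4 : 2 ≤ 1 / (L : ℚ) ^ 4 * Jq L G s e ^ 2 := by
        have h2 : (200 : ℚ) ^ 2 ≤ (L : ℚ) ^ 2 := by gcongr
        rw [a3, one_div_mul_eq_div, le_div_iff₀ (by positivity)]
        nlinarith
      have a5 : Jq L G s e - 1 / (L : ℚ) ^ 4 * Jq L G s e ^ 2 / 2 ≤ -(3 * (L : ℚ) ^ 2) := by
        linarith
      have a6 := mul_le_mul_of_nonneg_left a5 hβ
      linarith
  calc _ = vt L * (βq L G s e * (fq L G s e * (Jq L G s e + vt L * Jq L G s e ^ 2))) := by ring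
    _ ≤ _ := mul_le_mul_of_nonneg_left ((mul_le_mul_of_nonneg_left h5 hβ).trans h8) hv

theorem w_drift (hG : CtxOK L G) (s : St) :
    ∑ e ∈ range (nn G + 1), rate L G s e * (wf L G s e - 1) ≤ Yq L G s ^ 2 / LL L G := by
  obtain ⟨h0, h1, -, -, h4⟩ := ct_phi hG
  have hL := (ct_LL hG).1
  have h5 : ∑ e ∈ range (nn G), rate L G s e * (wf L G s e - 1) ≤
      ∑ e ∈ range (nn G), vt L * (yq L G s e - yq L G s e * Mq L G s e) := by
    refine sum_le_sum fun e he => ?_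
    have := mul_le_mul_of_nonneg_left (ct_one hG s e) (ct_y0 L G s e)
    simp only [rate, wf, jump, if_pos (mem_range.1 he)]
    linarith
  rw [← mul_sum, sum_sub_distrib, ct_sum] at h5
  have h6 : rate L G s (nn G) * (wf L G s (nn G) - 1) =
      -(vt L * Dm L G s) + (vt L * Dm L G s) ^ 2 / LL L G := by
    simp only [rate, wf, jump, lt_irrefl, if_false]
    field_simp
    ring
  have h7 : (vt L * Dm L G s) ^ 2 / LL L G ≤ Yq L G s ^ 2 / LL L G := by
    have a0 := ct_D0 L G s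
    have a1 := ct_DY L G s
    have a2 : vt L * Dm L G s ≤ Yq L G s :=
      (mul_le_of_le_one_left a0 (by rw [h4]; linarith)).trans a1
    have a3 : 0 ≤ vt L * Dm L G s := mul_nonneg (by rw [h4]; positivity) a0
    gcongr
  have h8 : ∑ e ∈ range (nn G), yq L G s e = Yq L G s := rfl
  rw [sum_range_succ, h6]
  rw [h8] at h5
  linarith
theorem y_drift (hG : CtxOK L G) (s : St) :
    ∑ e ∈ range (nn G + 1), rate L G s e *
      (mass (nn G) (kill (yq L G s) (lev L G s e)) - Yq L G s) ≤ -(Yq L G s / 2) := by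
  have hL := (ct_LL hG).1
  have h5 : ∑ e ∈ range (nn G), rate L G s e *
      (mass (nn G) (kill (yq L G s) (lev L G s e)) - Yq L G s) ≤
      ∑ e ∈ range (nn G), -(1 / 2) * (yq L G s e * Mq L G s e) := by
    refine sum_le_sum fun e he => ?_
    have h1 := kill_jump L G s e
    have h2 := mul_le_mul_of_nonneg_right (fq_ge hG s e)
      (mul_nonneg (ct_y0 L G s e) (ct_M0 L G s e))
    have h3 := βq1 L G s e
    simp only [jump, if_pos (mem_range.1 he), Jq] at h1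
    have h4 : rate L G s e * (mass (nn G) (kill (yq L G s) (lev L G s e)) - Yq L G s) =
        -(fq L G s e * (yq L G s e * Mq L G s e)) := by
      rw [show mass (nn G) (kill (yq L G s) (lev L G s e)) - Yq L G s =
        -(Mq L G s e / βq L G s e) by linarith, rate, if_pos (mem_range.1 he)]
      field_simp
    linarith
  rw [← mul_sum, ct_sum] at h5
  have h1 := kill_jump L G s (nn G)
  simp only [jump, lt_irrefl, if_false] at h1
  have h6 : rate L G s (nn G) * (mass (nn G) (kill (yq L G s) (lev L G s (nn G))) - Yq L G s) =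
      -Dm L G s := by
    rw [show mass (nn G) (kill (yq L G s) (lev L G s (nn G))) - Yq L G s =
      -(Dm L G s / LL L G) by linarith, rate, if_neg (lt_irrefl _)]
    field_simp
  have h7 := ct_D0 L G s
  rw [sum_range_succ, h6]
  linarith
theorem rate_sum (hG : CtxOK L G) (h : Inv L M G s) :
    ∑ e ∈ range (nn G + 1), rate L G s e ≤ 2 * LL L G := by
  obtain ⟨-, -, -, h3, -⟩ := ct_phi hG
  have hL := ct_L hG
  have hY : Yq L G s ≤ nn G := h.Yk.trans (by exact_mod_cast hG.kn)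
  have hY0 : 0 ≤ Yq L G s := (ct_M0 L G s 0).trans (ct_MY L G s 0)
  have h5 : ∑ e ∈ range (nn G), rate L G s e ≤
      ∑ e ∈ range (nn G), yq L G s e * ((1 + nn G) * 2) := by
    refine sum_le_sum fun e he => ?_
    have a1 : βq L G s e ≤ 1 + nn G := by
      refine max_le (by linarith) ((div_le_self (ct_M0 L G s e) (by nlinarith)).trans ?_)
      linarith [ct_MY L G s e]
    have a2 : fq L G s e ≤ 2 := by linarith [fq_le hG s e]
    have a3 : 0 ≤ fq L G s e := le_trans (by norm_num) (fq_ge hG s e)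
    rw [rate, if_pos (mem_range.1 he), mul_assoc]
    exact mul_le_mul_of_nonneg_left (mul_le_mul a1 a2 a3 (by positivity)) (ct_y0 L G s e)
  have h8 : ∑ e ∈ range (nn G), yq L G s e = Yq L G s := rfl
  rw [← sum_mul, h8] at h5
  have h6 := mul_le_mul_of_nonneg_right hY (show (0 : ℚ) ≤ (1 + nn G) * 2 by positivity)
  have h7 := (ct_LL hG).2
  rw [sum_range_succ, rate, if_neg (lt_irrefl _)]
  linarith
theorem exp_le_wf (hG : CtxOK L G) (h : Inv L M G s) (e : ℕ) :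
    Real.exp (((vt L * jump L G s e : ℚ)) : ℝ) ≤ (wf L G s e : ℝ) := by
  obtain ⟨h0, h1, h2, h3, h4⟩ := ct_phi hG
  have key : |vt L * jump L G s e| ≤ 1 := by
    rw [abs_le, h4, jump]
    split_ifs
    · have a1 := mul_le_mul_of_nonneg_left (ct_J hG s e).1 h0.le
      have a2 := mul_le_mul_of_nonneg_left (ct_J hG s e).2 h0.le
      constructor <;> linarith
    · have hY : Yq L G s ≤ nn G := h.Yk.trans (by exact_mod_cast hG.kn)
      obtain ⟨b1, b2⟩ := ct_LL hG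
      have b3 : (0 : ℚ) ≤ nn G := Nat.cast_nonneg _
      have a1 : Dm L G s / LL L G ≤ 1 :=
        div_le_one_of_le₀ (by nlinarith [ct_DY L G s]) (by linarith)
      have a2 : 0 ≤ Dm L G s / LL L G := div_nonneg (ct_D0 L G s) (by linarith)
      constructor <;> nlinarith
  have h5 := (abs_le.1 (Real.abs_exp_sub_one_sub_id_le
    (x := ((vt L * jump L G s e : ℚ) : ℝ)) (by exact_mod_cast key))).2
  have h6 : (wf L G s e : ℝ) = 1 + ((vt L * jump L G s e : ℚ) : ℝ) +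
      ((vt L * jump L G s e : ℚ) : ℝ) ^ 2 := by
    unfold wf
    push_cast
    ring
  linarith

end Vale.Agent.P334
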