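import Vale.Agent.P334.Zeta

/-! P334: quantities used in the drift computation. -/

namespace Vale.Agent.P334

open Finset

/-- price of an outside kill for the full potential -/
def outV (c g : ℚ → ℚ) (ga tp : ℚ) (n : ℕ) (x d : ℕ → ℚ) (δ ρ l : ℚ) (i : ℕ) : ℚ :=
  lam c g n x d δ ρ l i - ga * d i + tp * (mass n x * ρ - (1 - mass n x) * δ)

/-- price of a direct opening at distance `z` with kernel column `K` -/
def dirV (c : ℚ → ℚ) (ga tp : ℚ) (n : ℕ) (x d : ℕ → ℚ) (δ : ℚ) (K : ℕ → ℚ) (z : ℚ) : ℚ :=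
  z - phi0 c n x d δ - ∑ i ∈ range n, x i * (1 - K i) * max (z - ch * d i) 0 -
    ga * ∑ i ∈ range n, x i * K i * d i + tp * (2 * z - mass n x * (1 - mass n x) * δ)

/-- backup distance at level `k` and radius `R` -/
def bk (δ d R k : ℚ) : ℚ := min δ (d + R * (1 - ka * k))

/-- total outside rate of atom `i` -/
def wt (n : ℕ) (x : ℕ → ℚ) (K : ℕ → ℕ → ℚ) (i : ℕ) : ℚ := 1 - ∑ o ∈ range n, x o * K i o

/-- the quantity `X` of the drift computation -/
def XX (n : ℕ) (x : ℕ → ℚ) (δ : ℚ) (K : ℕ → ℕ → ℚ) : ℚ :=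
  (1 - mass n x) * δ * ∑ i ∈ range n, x i * wt n x K i

end Vale.Agent.P334
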