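import Vale.Agent.P334.DDefs

/-! P334: termwise bounds for outside events.
PLAN. m, A, T as usual, q = 1-m, tp = 2φ ≤ 1/2.  outV ρ l = (1 + tp m) ρ + pen l + eta T - N with
pen l = l g (A + m d)/2 ∈ [0, (A+d)/2] monotone in l, eta T ∈ [0, A],
N = (c + ga) d + tau tcl + g A + tp q δ ≥ 0, N - tp q δ ≤ 4 d + A.  1 - φ ≤ f o ≤ 1 + ψ (f2: the sum is ≥ 0).
`out_term`: ρ = bk δ (d i) (R i) k ≥ 0 and (1+ψ) ρ ≤ bk δ (d i) ((1+e1) R i) k + (8ψ/e1) d i:
 (a) (1+ψ)(d + R(1-ak)) ≤ d + (1+e1) R (1-ak) + ψ d;  (b) ρ ≤ δ and ρ ≤ d + R ≤ 2d + (1 - e1/2) δ (H1,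
 1/(1+e1) ≤ 1 - e1/2), mix with weight μ = 2ψ/e1 ≤ 1: ρ ≤ (1-ψ) δ + 2μ d.
 Then f outV ≤ (1+tp m)(1+ψ) ρ + (1+ψ)(pen + eta T) - (1-φ) N, and bk .. k ≤ bk .. 0.
`dum_term`: δ ≤ bk δ d ((1+e1) R) 0 + max (δ - d - (1+e1) R) 0, H2, 0 ≤ u ≤ 1 (y ≥ x ≥ 0),
 pen (u/Λ) ≤ Δ/Λ (A ≤ Δ since m ≤ 1; Δ ≥ d i ≥ 0). -/

namespace Vale.Agent.P334

open Finset

variable {c g : ℚ → ℚ} {n : ℕ} {x y d : ℕ → ℚ} {δ : ℚ} {R u β f : ℕ → ℚ} {K : ℕ → ℕ → ℚ}
  {e1 φ ψ ga Λ Δ κ : ℚ}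

theorem drift1_bk {δ D R k e1 ψ s : ℚ} (hδ : 0 ≤ δ) (hD : 0 ≤ D) (hR : 0 ≤ R) (k0 : 0 ≤ k)
    (k1 : k ≤ 1) (e0 : 0 < e1) (e1' : e1 ≤ 1) (s0 : 0 ≤ s) (hs : s * e1 = ψ) (ψ1 : 2 * ψ ≤ e1)
    (H1 : (1 + e1) * R ≤ δ + D) :
    0 ≤ bk δ D R k ∧ (1 + ψ) * bk δ D R k ≤ bk δ D ((1 + e1) * R) k + 8 * s * D ∧
      bk δ D ((1 + e1) * R) k ≤ bk δ D ((1 + e1) * R) 0 := by
  have a0 : 0 ≤ ka * k := mul_nonneg (by norm_num [ka]) k0
  have a1 : 0 ≤ 1 - ka * k := by unfold ka; linarith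
  have ψ0 : 0 ≤ ψ := hs ▸ mul_nonneg s0 e0.le
  have hψs : ψ ≤ s := hs ▸ mul_le_of_le_one_right s0 e1'
  have s1 : 2 * s ≤ 1 := le_of_mul_le_mul_right (by linarith) e0
  have r0 := mul_nonneg hR a1
  have hsD := mul_nonneg s0 hD
  refine ⟨le_min hδ (by linarith), ?_, min_le_min le_rfl ?_⟩
  · have p1 : bk δ D R k ≤ δ := min_le_left _ _
    have p2 : bk δ D R k ≤ D + R * (1 - ka * k) := min_le_right _ _
    generalize bk δ D R k = ρ at p1 p2
    rw [← sub_le_iff_le_add]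
    refine le_min ?_ ?_
    · have q1 : R ≤ (1 - e1 / 2) * (δ + D) := by
        have := mul_le_mul_of_nonneg_left H1 (show 0 ≤ 1 - e1 / 2 by linarith)
        have := mul_nonneg (mul_nonneg e0.le (sub_nonneg.2 e1')) hR
        linarith
      have q2 : ρ ≤ 2 * D + (1 - e1 / 2) * δ := by
        have := mul_nonneg hR a0
        have := mul_nonneg e0.le hD
        linarith
      have q3 : ρ ≤ (1 - ψ) * δ + 4 * s * D := by
        have := mul_le_mul_of_nonneg_left q2 s0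
        have := mul_le_mul_of_nonneg_left p1 (sub_nonneg.2 s1)
        rw [← hs]
        linarith
      have := mul_le_mul_of_nonneg_left q3 (show 0 ≤ 1 + ψ by linarith)
      have := mul_nonneg (mul_nonneg ψ0 ψ0) hδ
      have := mul_le_mul_of_nonneg_right (show ψ ≤ 1 by linarith) hsD
      linarith
    · have := mul_le_mul_of_nonneg_left p2 (show 0 ≤ 1 + ψ by linarith)
      have := mul_le_mul_of_nonneg_right (show ψ ≤ e1 by linarith) r0
      have := mul_le_mul_of_nonneg_right hψs hD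
      linarith
  · have := mul_nonneg (mul_nonneg (show 0 ≤ 1 + e1 by linarith) hR) a0
    linarith

theorem drift1_out {F ρ ρ' ρ0 P P' E N Q D A a φ ψ s : ℚ} (f1 : F ≤ 1 + ψ) (f2 : 1 - φ ≤ F)
    (φ0 : 0 ≤ φ) (ψ0 : 0 ≤ ψ) (s0 : 0 ≤ s) (a0 : 0 ≤ a) (a1 : a ≤ 1) (ρ1 : 0 ≤ ρ)
    (ρ2 : (1 + ψ) * ρ ≤ ρ' + 8 * s * D) (ρ3 : ρ' ≤ ρ0) (P0 : 0 ≤ P) (P1 : P ≤ P')
    (P2 : P' ≤ (A + D) / 2) (E0 : 0 ≤ E) (E1 : E ≤ A) (N0 : 0 ≤ N) (N1 : N ≤ 4 * D + A)
    (Q0 : 0 ≤ Q) (D0 : 0 ≤ D) (A0 : 0 ≤ A) :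
    F * ((1 + a) * ρ + P + E - N - Q) ≤
      ρ' + a * ρ0 + P' + E - N - (1 - φ) * Q + (16 * s + 2 * ψ + 4 * φ) * (D + A) := by
  have h1 := mul_le_mul_of_nonneg_right f1
    (show 0 ≤ (1 + a) * ρ + P + E from add_nonneg (add_nonneg (by positivity) P0) E0)
  have h2 := mul_le_mul_of_nonneg_right f2 (add_nonneg N0 Q0)
  have h3 := mul_le_mul_of_nonneg_left ρ2 (show 0 ≤ 1 + a by linarith)
  have h4 := mul_le_mul_of_nonneg_left ρ3 a0
  have h5 := mul_le_mul_of_nonneg_right a1 (mul_nonneg s0 D0)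
  have h6 := mul_le_mul_of_nonneg_left (show P + E ≤ 2 * (D + A) by linarith) ψ0
  have h7 := mul_le_mul_of_nonneg_left (show N ≤ 4 * (D + A) by linarith) φ0
  have h8 := mul_nonneg s0 A0
  linarith

theorem out_term (G : GoodC c g) (H : DH n x y d δ R u β f K e1 φ ψ ga Λ Δ κ) {i o : ℕ}
    (hi : i < n) (ho : o < n) :
    f o * outV c g ga (2 * φ) n x d δ (bk δ (d i) (R i) (K i o)) (K i o / β o) i ≤
      lam c g n x d δ (bk δ (d i) ((1 + e1) * R i) (K i o)) (K i o) i +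
        2 * φ * (mass n x * bk δ (d i) ((1 + e1) * R i) 0) - ga * d i -
        (1 - φ) * (2 * φ) * ((1 - mass n x) * δ) +
        (16 * ψ / e1 + 2 * ψ + 4 * φ) * (d i + acost n x d) := by
  have m0 := H.ms.m0
  have m1 := H.ms.m1
  have A0 := H.ms.a0
  have T0 := H.ms.t0 δ
  have T1 := H.ms.t_le δ
  have D0 := H.ms.d0 i hi
  have δ0 := H.ms.δ0
  have k0 := H.K0 i hi o ho
  have k1 := H.K1 i hi o ho
  have φ0 := H.φ0
  have φ1 := H.φ1
  have ψ0 := H.ψ0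
  have e0 := H.e0
  have s0 : 0 ≤ ψ / e1 := div_nonneg ψ0 e0.le
  obtain ⟨b1, b2, b3⟩ := drift1_bk δ0 D0 (H.R0 i hi) k0 k1 e0 H.e1' s0
    (div_mul_cancel₀ ψ e0.ne') H.ψ1 (H.H1 i hi)
  have f2 : 1 - φ ≤ f o := by
    have h1 : 0 ≤ ∑ i ∈ range n, x i * K i o := sum_nonneg fun j hj =>
      mul_nonneg (H.ms.x0 j (mem_range.1 hj)) (H.K0 j (mem_range.1 hj) o ho)
    have h2 := mul_nonneg φ0 h1
    have h3 := H.f2 o ho
    linarith
  have ga0 : 0 ≤ ga := le_trans (by positivity) H.ga0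
  have ga1 := H.ga1
  have g0 : 0 ≤ g (mass n x) := le_trans (by norm_num) (G.g_ge _ m0 m1)
  have g1 := G.g_one m0 m1
  have c0 := G.c_ge _ m0 m1
  have c1 := G.c_two m0 m1
  have τ0 := tau_nonneg m0 m1
  have τ1 : tau (mass n x) ≤ 1 := by linarith [tau_le m0 m1]
  have η0 := eta_nonneg m0 m1
  have η1 : eta (mass n x) ≤ 1 := by linarith [eta_le m0 m1]
  have t0 := tcl_nonneg (d i) δ
  have t1 := tcl_le D0 δ
  have β1 := H.β1 o ho
  have l0 : 0 ≤ K i o / β o := div_nonneg k0 (by linarith)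
  have l1 : K i o / β o ≤ K i o := div_le_self k0 β1
  unfold chi at T1 t1
  have W0 : 0 ≤ acost n x d + mass n x * d i := by positivity
  have W1 := mul_le_of_le_one_left D0 m1
  have key := drift1_out (a := 2 * φ * mass n x)
    (P := K i o / β o * g (mass n x) * (acost n x d + mass n x * d i) / 2)
    (P' := K i o * g (mass n x) * (acost n x d + mass n x * d i) / 2)
    (E := eta (mass n x) * tcost n x d δ)
    (N := (c (mass n x) + ga) * d i + tau (mass n x) * tcl (d i) δ + g (mass n x) * acost n x d)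
    (Q := 2 * φ * ((1 - mass n x) * δ)) (H.f1 o ho) f2 φ0 ψ0 s0 (by positivity)
    (mul_le_one₀ (by linarith) m0 m1) b1 b2 b3 (by positivity) (by gcongr)
    (by linarith [mul_le_of_le_one_left W0 (mul_le_one₀ k1 g0 g1)]) (by positivity)
    (by linarith [mul_le_of_le_one_left T0 η1]) (by positivity)
    (by linarith [mul_le_of_le_one_left t0 τ1, mul_le_of_le_one_left A0 g1,
      mul_le_mul_of_nonneg_right (show c (mass n x) + ga ≤ 3 by linarith) D0])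
    (mul_nonneg (by positivity) (mul_nonneg (sub_nonneg.2 m1) δ0)) D0 A0
  unfold outV lam
  rw [mul_div_assoc 16]
  linarith

theorem dum_term (G : GoodC c g) (H : DH n x y d δ R u β f K e1 φ ψ ga Λ Δ κ) {i : ℕ}
    (hi : i < n) :
    u i * outV c g ga (2 * φ) n x d δ δ (u i / Λ) i ≤
      u i * (lam c g n x d δ (bk δ (d i) ((1 + e1) * R i) 0) 0 i +
        2 * φ * (mass n x * bk δ (d i) ((1 + e1) * R i) 0) - ga * d i -
        (1 - φ) * (2 * φ) * ((1 - mass n x) * δ)) + (2 * κ + Δ / Λ) := by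
  have m0 := H.ms.m0
  have m1 := H.ms.m1
  have A0 := H.ms.a0
  have D0 := H.ms.d0 i hi
  have D1 := H.dΔ i hi
  have δ0 := H.ms.δ0
  have φ0 := H.φ0
  have φ1 := H.φ1
  have u0 := H.u0 i hi
  have Λ0 : 0 < Λ := by linarith [H.Λ1]
  have u1 : u i ≤ 1 := by
    have h1 : 0 ≤ ∑ o ∈ range n, y o * K i o := sum_nonneg fun j hj =>
      mul_nonneg ((H.ms.x0 j (mem_range.1 hj)).trans (H.xy j (mem_range.1 hj)))
        (H.K0 i hi j (mem_range.1 hj))
    rw [H.hu i hi]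
    linarith
  have A1 : acost n x d ≤ Δ := by
    have h1 : acost n x d ≤ mass n x * Δ := by
      rw [mass, sum_mul]
      exact sum_le_sum fun j hj =>
        mul_le_mul_of_nonneg_left (H.dΔ j (mem_range.1 hj)) (H.ms.x0 j (mem_range.1 hj))
    exact h1.trans (mul_le_of_le_one_left (D0.trans D1) m1)
  have g0 : 0 ≤ g (mass n x) := le_trans (by norm_num) (G.g_ge _ m0 m1)
  have g1 := G.g_one m0 m1
  have H2 := H.H2 i hi
  have M0 := le_max_right (δ - d i - (1 + e1) * R i) 0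
  have M1 : δ - max (δ - d i - (1 + e1) * R i) 0 ≤ bk δ (d i) ((1 + e1) * R i) 0 :=
    le_min (by linarith) (by linarith [le_max_left (δ - d i - (1 + e1) * R i) 0])
  generalize max (δ - d i - (1 + e1) * R i) 0 = M at H2 M0 M1
  generalize bk δ (d i) ((1 + e1) * R i) 0 = ρ at M1
  have a0 : 0 ≤ 2 * φ * mass n x := by positivity
  have a1 : 2 * φ * mass n x ≤ 1 := mul_le_one₀ (by linarith) m0 m1
  have h1 := mul_le_mul_of_nonneg_left M1 (mul_nonneg u0 (add_nonneg zero_le_one a0))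
  have h2 := mul_le_of_le_one_left (mul_nonneg u0 M0) a1
  have h3 : 0 ≤ u i * (φ * (2 * φ) * ((1 - mass n x) * δ)) :=
    mul_nonneg u0 (mul_nonneg (by positivity) (mul_nonneg (sub_nonneg.2 m1) δ0))
  have h4 : u i * (u i / Λ * g (mass n x) * (acost n x d + mass n x * d i) / 2) ≤ Δ / Λ := by
    have W0 : 0 ≤ acost n x d + mass n x * d i := by positivity
    have W1 := mul_le_of_le_one_left D0 m1
    have W2 := mul_le_of_le_one_left W0 (mul_le_one₀ (mul_le_one₀ u1 u0 u1) g0 g1)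
    have e : u i * (u i / Λ * g (mass n x) * (acost n x d + mass n x * d i) / 2) =
        u i * u i * g (mass n x) * (acost n x d + mass n x * d i) / 2 / Λ := by ring
    rw [e]
    exact div_le_div_of_nonneg_right (by linarith) Λ0.le
  unfold outV lam
  linarith

end Vale.Agent.P334
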