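import Vale.Agent.P334.Count
import Vale.Agent.P334.CN3

/-! P334: one event: rounding errors and the invariant.
PLAN. 0 ≤ xn e j i ≤ kill (xq j) (lev e) i ≤ kill yq (lev e) i and ≤ xq j i: the levels of xd are
(1/β)(1 or K) ∈ [K/β, 1].  So xn e j is a `Meas` (mass ≤ mass xq ≤ 1).
`ev_pot`: xq (ev) j i ∈ [xn - 1/Q, xn] (ev_x, fl_le, fl_ge), phi_round with Δ = DD (dq ≤ DD, dS ≤ DD)
loses 3 DD nn/Q per client, at most nn clients (Jlen, `List.sum_le_sum`); Wq (ev) ≤ Wq wf + 1/Q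
(`Nat.ceil_lt_add_one`, min ≤); Yq (ev) ≤ mass (kill ..).  3 DD nn^2 + nn ≤ 4 NN^3.
`ev_inv`: y1, yF (fl_pos), xy (fl_mono), xm, Yk, Sne, SF (e < n has y e > 0 so e ∈ F).  cnt: all parts
of pot are ≥ 0 (phi_ge), so nn Wq (ev) ≤ 3 (L+4) nn, Wq (ev) < NN (NN ≥ DD = 4(L+4) nn), so the min is
the ceiling and Wq (ev) ≥ Wq wf; length (nS) + Yq (ev) ≤ length S + Yq + jump (kill_jump); then
exp (a + b) = exp a exp b with `cnt` and `exp_le_wf`. -/

namespace Vale.Agent.P334

open Finset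

variable {L M : ℕ} {G : Ctx} {s : St}

theorem ei_par (hG : CtxOK L G) : (0 : ℚ) ≤ 200 / L ∧ (0 : ℚ) ≤ 2 * (1 / (L : ℚ) ^ 4) ∧
    2 * (1 / (L : ℚ) ^ 4) ≤ 1 := by
  obtain ⟨h0, h1, -⟩ := ct_phi hG
  exact ⟨by positivity, by positivity, by linarith⟩

theorem ei_kill (hG : CtxOK L G) {x : ℕ → ℚ} {i : ℕ} (hx : 0 ≤ x i) (e : ℕ) :
    0 ≤ kill x (lev L G s e) i ∧ kill x (lev L G s e) i ≤ x i :=
  ⟨mul_nonneg hx (sub_nonneg.2 (lev1 hG s e i)),
    mul_le_of_le_one_right hx (sub_le_self _ (lev0 L G s e i))⟩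

theorem ei_xn (hG : CtxOK L G) (e j i : ℕ) :
    0 ≤ xn L M G s e j i ∧ xn L M G s e j i ≤ kill (xq L G s j) (lev L G s e) i := by
  unfold xn
  split_ifs with hc
  · have hβ := βq1 L G s e
    have hβ0 : 0 < βq L G s e := zero_lt_one.trans_le hβ
    have hK0 : 0 ≤ Kq L G s i e := ker0 _ _
    have hK1 : Kq L G s i e ≤ 1 := ker1 _ _
    have hs1 : 1 / βq L G s e ≤ 1 := (div_le_one hβ0).2 hβ
    have hs0 : 0 ≤ 1 / βq L G s e := by positivity
    have hl : lev L G s e i = 1 / βq L G s e * Kq L G s i e := by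
      unfold lev
      rw [if_pos hc.1]
      ring
    have hx := xq0 L G s j i
    unfold xd kill dlev
    rw [hl]
    have h1 : 1 / βq L G s e * Kq L G s i e ≤ 1 / βq L G s e * 1 :=
      mul_le_mul_of_nonneg_left hK1 hs0
    split_ifs
    · exact ⟨mul_nonneg hx (by linarith), mul_le_mul_of_nonneg_left (by linarith) hx⟩
    · exact ⟨mul_nonneg hx (by linarith), le_rfl⟩
  · exact ⟨(ei_kill hG (xq0 L G s j i) e).1, le_rfl⟩

theorem ei_xn_le (hG : CtxOK L G) (e j i : ℕ) : xn L M G s e j i ≤ xq L G s j i :=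
  (ei_xn hG e j i).2.trans (ei_kill hG (xq0 L G s j i) e).2

theorem ei_x_le (hG : CtxOK L G) (e : ℕ) {j i : ℕ} (hj : j < nn G) (hi : i < nn G) :
    xq L G (ev L M G s e) j i ≤ xn L M G s e j i := by
  rw [ev_x hj hi]
  exact fl_le hG (ei_xn hG e j i).1

theorem ei_y_le (hG : CtxOK L G) (e : ℕ) {i : ℕ} (hi : i < nn G) :
    yq L G (ev L M G s e) i ≤ kill (yq L G s) (lev L G s e) i := by
  rw [ev_y hi]
  exact fl_le hG (ei_kill hG (yq0 L G s i) e).1

theorem ei_Y_le (hG : CtxOK L G) (e : ℕ) :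
    Yq L G (ev L M G s e) ≤ mass (nn G) (kill (yq L G s) (lev L G s e)) :=
  sum_le_sum fun _ hi => ei_y_le hG e (mem_range.1 hi)

theorem ei_client (hG : CtxOK L G) (h : Inv L M G s) (e : ℕ) {j : ℕ} (hj : j < nn G) :
    ph L M G (xq L G (ev L M G s e) j) j (δq G (ev L M G s e) j) ≤
      ph L M G (xn L M G s e j) j (dS G (nS G s e) j) + 3 * DD G * (nn G / QQ L G) := by
  obtain ⟨p1, p2, p3⟩ := ei_par hG
  have ms : Meas (nn G) (xn L M G s e j) (dq G j) (dS G (nS G s e) j) :=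
    ⟨fun i _ => (ei_xn hG e j i).1,
      (sum_le_sum fun i _ => ei_xn_le hG e j i).trans (h.xm j hj),
      fun i _ => by unfold dq; positivity, Nat.cast_nonneg _⟩
  have key := phi_round (goodC M) ms p1 p2 p3 (x' := xq L G (ev L M G s e) j) (Δ := DD G)
    (fun i _ => xq0 L G _ j i) (fun i hi => ei_x_le hG e hj hi)
    (fun i hi => by unfold dq; exact_mod_cast hG.le j hj i hi)
    (by exact_mod_cast dS_le G _ j)
  have hm : mass (nn G) (xn L M G s e j) - mass (nn G) (xq L G (ev L M G s e) j) ≤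
      nn G / QQ L G := by
    unfold mass
    rw [← sum_sub_distrib]
    calc _ ≤ ∑ _i ∈ range (nn G), 1 / (QQ L G : ℚ) := by
          refine sum_le_sum fun i hi => ?_
          have hi' := mem_range.1 hi
          have h1 : xn L M G s e j i ≤ 1 :=
            ((ei_xn_le hG e j i).trans (h.xy j hj i hi')).trans (h.y1 i hi')
          have h2 := fl_ge hG h1
          rw [ev_x hj hi']
          linarith
      _ = _ := by
          rw [sum_const, card_range, nsmul_eq_mul]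
          ring
  have h3 := mul_le_mul_of_nonneg_left hm (by positivity : (0 : ℚ) ≤ 3 * DD G)
  exact key.trans (add_le_add le_rfl h3)

theorem ei_W_le (hG : CtxOK L G) (e : ℕ) :
    Wq L G (ev L M G s e) ≤ Wq L G s * wf L G s e + 1 / QQ L G := by
  have hQ := hG.Q0
  have h0 : 0 ≤ (QQ L G : ℚ) * (Wq L G s * wf L G s e) :=
    mul_nonneg hQ.le (mul_nonneg (Wq0 L G s) (wf0 L G s e))
  have h1 := Nat.ceil_lt_add_one h0
  have h2 : (((ev L M G s e).2.2.2 : ℕ) : ℚ) ≤
      (⌈(QQ L G : ℚ) * (Wq L G s * wf L G s e)⌉₊ : ℚ) := by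
    exact_mod_cast (min_le_right _ _ : (ev L M G s e).2.2.2 ≤ _)
  have e1 : Wq L G (ev L M G s e) = (((ev L M G s e).2.2.2 : ℕ) : ℚ) / QQ L G := rfl
  rw [e1, div_le_iff₀ hQ, add_mul, one_div, inv_mul_cancel₀ hQ.ne']
  linarith

theorem ei_sum (l : List ℕ) {f g : ℕ → ℚ} {c : ℚ} (h : ∀ j ∈ l, f j ≤ g j + c) :
    (l.map f).sum ≤ (l.map g).sum + l.length * c := by
  induction l with
  | nil => simp
  | cons a l ih =>
    have h1 := h a List.mem_cons_self
    have h2 := ih fun j hj => h j (List.mem_cons_of_mem _ hj)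
    simp only [List.map_cons, List.sum_cons, List.length_cons]
    push_cast
    linarith

theorem ev_pot (hG : CtxOK L G) (h : Inv L M G s) (e : ℕ) :
    pot L M G (ev L M G s e) ≤
      ((cJ G).map fun j => ph L M G (xn L M G s e j) j (dS G (nS G s e) j)).sum +
        nn G * (Wq L G s * wf L G s e) +
        (nn G : ℚ) / ck G * mass (nn G) (kill (yq L G s) (lev L G s e)) +
        4 * (NN L G : ℚ) ^ 3 / QQ L G := by
  have hQ := hG.Q0
  have h1 := ei_sum (cJ G) fun j hj => ei_client hG h e (hG.Jlt j hj)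
  have h2 := mul_le_mul_of_nonneg_left (ei_W_le (M := M) (s := s) hG e)
    (Nat.cast_nonneg (α := ℚ) (nn G))
  have h3 := mul_le_mul_of_nonneg_left (ei_Y_le (M := M) (s := s) hG e)
    (by positivity : (0 : ℚ) ≤ (nn G : ℚ) / ck G)
  have hJ : ((cJ G).length : ℚ) ≤ nn G := by exact_mod_cast hG.Jlen
  have h4 := mul_le_mul_of_nonneg_right hJ
    (by positivity : (0 : ℚ) ≤ 3 * DD G * (nn G / QQ L G))
  have hn : (nn G : ℚ) ≤ NN L G := by exact_mod_cast hG.nN
  have hD : (DD G : ℚ) ≤ NN L G := by exact_mod_cast hG.DN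
  have hN : (800 : ℚ) ≤ NN L G := by exact_mod_cast hG.N800
  have h5 : (nn G : ℚ) * (3 * DD G * nn G) + nn G ≤ 4 * (NN L G : ℚ) ^ 3 := by
    have a1 : (nn G : ℚ) * (3 * DD G * nn G) ≤ NN L G * (3 * NN L G * NN L G) := by gcongr
    have a2 : (NN L G : ℚ) ≤ (NN L G : ℚ) ^ 3 := le_self_pow₀ (by linarith) (by norm_num)
    nlinarith
  have h6 := div_le_div_of_nonneg_right h5 hQ.le
  have e6 : ((nn G : ℚ) * (3 * DD G * nn G) + nn G) / QQ L G =
      nn G * (3 * DD G * (nn G / QQ L G)) + nn G * (1 / QQ L G) := by ring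
  unfold pot
  linarith

theorem ei_pot (hG : CtxOK L G) (hm : ∀ j < nn G, mass (nn G) (xq L G s j) ≤ 1) {a : ℚ}
    (ha : ∀ j < nn G, a ≤ 1 - mass (nn G) (xq L G s j)) :
    a * (((cJ G).map (dS G s.2.2.1)).sum : ℕ) + nn G * Wq L G s ≤ pot L M G s := by
  obtain ⟨p1, p2, -⟩ := ei_par hG
  have h1 : ((cJ G).map fun j => a * (dS G s.2.2.1 j : ℚ)).sum ≤
      ((cJ G).map fun j => ph L M G (xq L G s j) j (δq G s j)).sum := by
    refine List.sum_le_sum fun j hj => ?_
    have hj' := hG.Jlt j hj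
    have ms : Meas (nn G) (xq L G s j) (dq G j) (δq G s j) :=
      ⟨fun i _ => xq0 L G s j i, hm j hj', fun i _ => by unfold dq; positivity, Nat.cast_nonneg _⟩
    exact (mul_le_mul_of_nonneg_right (ha j hj') (Nat.cast_nonneg _)).trans
      (phi_ge (goodC M) ms p1 p2)
  have h2 : ((cJ G).map fun j => a * (dS G s.2.2.1 j : ℚ)).sum =
      a * (((cJ G).map (dS G s.2.2.1)).sum : ℕ) := by
    rw [List.sum_map_mul_left, Nat.cast_list_sum, List.map_map]
    rfl
  have h3 : 0 ≤ (nn G : ℚ) / ck G * Yq L G s := mul_nonneg (by positivity) (Yq0 L G s)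
  unfold pot
  linarith

theorem ei_W_ge (hG : CtxOK L G) (e : ℕ) (hW : (nn G : ℚ) * Wq L G (ev L M G s e) ≤
    3 * (L + 4) * nn G) : Wq L G s * wf L G s e ≤ Wq L G (ev L M G s e) := by
  have hQ := hG.Q0
  have e1 : Wq L G (ev L M G s e) = ((min (QQ L G * NN L G)
      ⌈(QQ L G : ℚ) * (Wq L G s * wf L G s e)⌉₊ : ℕ) : ℚ) / QQ L G := rfl
  rcases min_choice (QQ L G * NN L G) ⌈(QQ L G : ℚ) * (Wq L G s * wf L G s e)⌉₊ with h1 | h1
  · exfalso
    rw [e1, h1, Nat.cast_mul, mul_div_cancel_left₀ _ hQ.ne'] at hW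
    have hn : (1 : ℚ) ≤ nn G := by exact_mod_cast hG.n1
    have hD : (DD G : ℚ) ≤ NN L G := by exact_mod_cast hG.DN
    have hL := ct_L hG
    have hD' : (DD G : ℚ) = 4 * (L + 4) * nn G := by
      rw [hG.hD]
      push_cast
      ring
    have h2 : (NN L G : ℚ) ≤ 3 * (L + 4) := by
      rw [mul_comm (3 * ((L : ℚ) + 4))] at hW
      exact le_of_mul_le_mul_left hW (by linarith)
    nlinarith
  · rw [e1, h1, le_div_iff₀ hQ, mul_comm]
    exact Nat.le_ceil _

theorem ev_inv (hG : CtxOK L G) (h : Inv L M G s) {e : ℕ} (he : e < nn G → 0 < s.1.getD e 0)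
    (hp : pot L M G (ev L M G s e) ≤ 3 * (L + 4) * nn G) : Inv L M G (ev L M G s e) := by
  have hQ := hG.Q0
  have hm : ∀ j < nn G, mass (nn G) (xq L G (ev L M G s e) j) ≤ 1 := fun j hj =>
    (sum_le_sum fun i hi => (ei_x_le hG e hj (mem_range.1 hi)).trans (ei_xn_le hG e j i)).trans
      (h.xm j hj)
  refine ⟨fun i hi => ?_, fun i hi hy => ?_, fun j hj i hi => ?_, hm, ?_, ?_, ?_, ?_, hp⟩
  · exact ((ei_y_le hG e hi).trans (ei_kill hG (yq0 L G s i) e).2).trans (h.y1 i hi)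
  · rw [show (ev L M G s e).1.getD i 0 = _ from getD_rmap hi _ 0] at hy
    have h1 := (fl_pos L G hy).trans_le (ei_kill hG (yq0 L G s i) e).2
    refine h.yF i hi (Nat.pos_of_ne_zero fun h0 => ?_)
    unfold yq at h1
    rw [h0] at h1
    simp at h1
  · rw [ev_x hj hi, ev_y hi]
    refine div_le_div_of_nonneg_right (Nat.cast_le.2 (fl_mono L G ?_)) hQ.le
    exact (ei_xn hG e j i).2.trans
      (mul_le_mul_of_nonneg_right (h.xy j hj i hi) (sub_nonneg.2 (lev1 hG s e i)))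
  · exact ((ei_Y_le hG e).trans
      (sum_le_sum fun i _ => (ei_kill hG (yq0 L G s i) e).2)).trans h.Yk
  · rw [ev_S]
    unfold nS
    split_ifs
    · exact List.cons_ne_nil _ _
    · exact h.Sne
  · rw [ev_S]
    unfold nS
    split_ifs with hc
    · intro i hi
      rcases List.mem_cons.1 hi with rfl | hi
      · exact h.yF i hc (he hc)
      · exact h.SF i hi
    · exact h.SF
  · have h1 := ei_pot (M := M) hG hm (a := 0) fun j hj => sub_nonneg.2 (hm j hj)
    rw [zero_mul, zero_add] at h1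
    have h2 := ei_W_ge hG e (h1.trans hp)
    have h3 : (((ev L M G s e).2.2.1.length : ℕ) : ℚ) =
        s.2.2.1.length + (if e < nn G then 1 else 0) := by
      rw [ev_S]
      unfold nS
      split_ifs
      · simp
      · simp
    have h4 := kill_jump L G s e
    have h5 := ei_Y_le (M := M) (s := s) hG e
    have hv : 0 ≤ vt L := by unfold vt; positivity
    have h6 : vt L * ((((ev L M G s e).2.2.1.length : ℕ) : ℚ) + Yq L G (ev L M G s e) - 1 - ck G) ≤
        vt L * ((s.2.2.1.length : ℚ) + Yq L G s - 1 - ck G) + vt L * jump L G s e := by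
      rw [← mul_add]
      exact mul_le_mul_of_nonneg_left (by linarith) hv
    calc _ ≤ Real.exp (((vt L * ((s.2.2.1.length : ℚ) + Yq L G s - 1 - ck G) : ℚ) : ℝ) +
            ((vt L * jump L G s e : ℚ) : ℝ)) := by
          apply Real.exp_le_exp.2
          exact_mod_cast h6
      _ ≤ (Wq L G s : ℝ) * (wf L G s e : ℝ) := by
          rw [Real.exp_add]
          exact mul_le_mul h.cnt (exp_le_wf hG h e) (Real.exp_pos _).le
            (by exact_mod_cast Wq0 L G s)
      _ ≤ _ := by exact_mod_cast h2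

theorem Inv.pot0 (hG : CtxOK L G) (h : Inv L M G s) :
    0 ≤ pot L M G s ∧ (nn G : ℚ) * Wq L G s ≤ pot L M G s ∧
      (1 - Yq L G s) * (((cJ G).map (dS G s.2.2.1)).sum : ℕ) ≤ pot L M G s := by
  have h1 := ei_pot (M := M) hG h.xm (a := 0) fun j hj => sub_nonneg.2 (h.xm j hj)
  rw [zero_mul, zero_add] at h1
  have h2 := ei_pot (M := M) hG h.xm (a := 1 - Yq L G s) fun j hj =>
    sub_le_sub_left (sum_le_sum fun i hi => h.xy j hj i (mem_range.1 hi)) 1
  have h3 : 0 ≤ (nn G : ℚ) * Wq L G s := mul_nonneg (Nat.cast_nonneg _) (Wq0 L G s)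
  exact ⟨h3.trans h1, h1, by linarith⟩

end Vale.Agent.P334
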