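import Vale.Agent.P334.DDefs

/-! P334: effect of an outside event.
PLAN. m, A, T = mass, acost, tcost .. δ; q = 1 - m; D = sum x l ∈ [0,m]; A', T'(·) after the kill,
A' = A - Al, T'(δ) = T - Tl (mass_kill, acost_kill, tcost_kill).  With tau_step, 0 ≤ T'(δ') ≤ chi A' and
T'(δ') ≤ T'(δ) + m (δ - δ'):  tau(m-D) T'(δ') ≤ (tau + eta D)(T'(δ) + m (δ-δ')) + 0.227 D^2 chi A'.
c(m-D) A' + 0.227 chi D^2 A' ≤ (c - g D) A' (conc, 0.227 * 0.704 ≤ 0.16).
q δ' + (tau + eta D) m (δ - δ') ≤ q δ because (tau + eta D) m ≤ q (tau_le, eta_le').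
D δ' ≤ sum x l ρ.  Drop - eta D Tl ≤ 0, and D * Al = sum_i sum_k x i x k l i l k d i
≤ (1/2) sum_i x i (l i)^2 (m d i + A) (2 l i l k ≤ l i^2 + l k^2).
For `phi`: (m-D)(q+D) δ' ≤ (m-D) q δ + m sum x l ρ. -/

namespace Vale.Agent.P334

open Finset

variable {c g : ℚ → ℚ} {n : ℕ} {x d : ℕ → ℚ} {δ : ℚ}

theorem evo_core {m A T δ δ' D Al Tl cm gm τ η c' τ' T' Sρ Q : ℚ}
    (h1 : c' ≤ cm - gm * D - 4 / 25 * D ^ 2) (h2 : τ' ≤ τ + η * D + 227 / 1000 * D ^ 2)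
    (t0 : 0 ≤ T') (t1 : T' ≤ 88 / 125 * (A - Al)) (t2 : T' ≤ T - Tl + m * (δ - δ'))
    (e0 : 0 ≤ τ + η * D) (e1 : (τ + η * D) * m ≤ 1 - m) (hδ : δ' ≤ δ) (hρ : D * δ' ≤ Sρ)
    (hQ : D * Al ≤ Q) (g0 : 0 ≤ gm) (hT : 0 ≤ η * D * Tl) :
    c' * (A - Al) + (1 - (m - D)) * δ' + τ' * T' - (cm * A + (1 - m) * δ + τ * T) ≤
      Sρ - cm * Al - τ * Tl - gm * A * D + η * T * D + gm * Q := by
  have a0 : 0 ≤ A - Al := by linarith
  have a1 := mul_le_mul_of_nonneg_right h1 a0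
  have a2 := mul_le_mul_of_nonneg_right h2 t0
  have a3 := mul_le_mul_of_nonneg_left t2 e0
  have a4 := mul_le_mul_of_nonneg_left t1 (sq_nonneg D)
  have a5 := mul_le_mul_of_nonneg_right e1 (sub_nonneg.2 hδ)
  have a6 := mul_le_mul_of_nonneg_left hQ g0
  have a7 := mul_nonneg (sq_nonneg D) a0
  linarith

theorem evo_sq (ms : Meas n x d δ) (l : ℕ → ℚ) :
    (∑ i ∈ range n, x i * l i) * ∑ i ∈ range n, x i * l i * d i ≤
      ((∑ i ∈ range n, x i * l i ^ 2) * acost n x d +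
        mass n x * ∑ i ∈ range n, x i * l i ^ 2 * d i) / 2 := by
  rw [le_div_iff₀ two_pos, acost, mass, sum_mul_sum, sum_mul_sum, sum_mul_sum, sum_mul,
    ← sum_add_distrib]
  refine sum_le_sum fun k hk => ?_
  rw [sum_mul, ← sum_add_distrib]
  refine sum_le_sum fun i hi => ?_
  have := mul_nonneg (mul_nonneg (mul_nonneg (ms.x0 k (mem_range.1 hk)) (ms.x0 i (mem_range.1 hi)))
    (ms.d0 i (mem_range.1 hi))) (sq_nonneg (l i - l k))
  linarith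

theorem evo_D (ms : Meas n x d δ) {l : ℕ → ℚ} (l0 : ∀ i < n, 0 ≤ l i) (l1 : ∀ i < n, l i ≤ 1) :
    0 ≤ ∑ i ∈ range n, x i * l i ∧ ∑ i ∈ range n, x i * l i ≤ mass n x :=
  ⟨sum_nonneg fun i hi => mul_nonneg (ms.x0 i (mem_range.1 hi)) (l0 i (mem_range.1 hi)),
    sum_le_sum fun i hi => mul_le_of_le_one_right (ms.x0 i (mem_range.1 hi))
      (l1 i (mem_range.1 hi))⟩

theorem evo_rho (ms : Meas n x d δ) {l ρ : ℕ → ℚ} {δ' : ℚ} (l0 : ∀ i < n, 0 ≤ l i)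
    (h2 : ∀ i < n, 0 < l i → δ' ≤ ρ i) :
    (∑ i ∈ range n, x i * l i) * δ' ≤ ∑ i ∈ range n, x i * l i * ρ i := by
  rw [sum_mul]
  refine sum_le_sum fun i hi => ?_
  have hi := mem_range.1 hi
  rcases (l0 i hi).eq_or_lt with h | h
  · rw [← h, mul_zero, zero_mul, zero_mul]
  · exact mul_le_mul_of_nonneg_left (h2 i hi h) (mul_nonneg (ms.x0 i hi) h.le)

theorem ev_out0 (G : GoodC c g) (ms : Meas n x d δ) {l ρ : ℕ → ℚ} {δ' : ℚ}
    (l0 : ∀ i < n, 0 ≤ l i) (l1 : ∀ i < n, l i ≤ 1) (h0 : 0 ≤ δ') (h1 : δ' ≤ δ)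
    (h2 : ∀ i < n, 0 < l i → δ' ≤ ρ i) :
    phi0 c n (kill x l) d δ' - phi0 c n x d δ ≤
      ∑ i ∈ range n, x i * l i * lam c g n x d δ (ρ i) (l i) i := by
  obtain ⟨D0, D1⟩ := evo_D ms l0 l1
  have m0 := ms.m0
  have m1 := ms.m1
  have mk := ms.kill l0 l1 h0
  have e : ∑ i ∈ range n, x i * l i * lam c g n x d δ (ρ i) (l i) i =
      ∑ i ∈ range n, x i * l i * ρ i - c (mass n x) * ∑ i ∈ range n, x i * l i * d i -
        tau (mass n x) * ∑ i ∈ range n, x i * l i * tcl (d i) δ -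
        g (mass n x) * acost n x d * ∑ i ∈ range n, x i * l i +
        eta (mass n x) * tcost n x d δ * ∑ i ∈ range n, x i * l i +
        g (mass n x) * (((∑ i ∈ range n, x i * l i ^ 2) * acost n x d +
          mass n x * ∑ i ∈ range n, x i * l i ^ 2 * d i) / 2) := by
    simp only [mul_sum, sum_mul, sum_div, ← sum_add_distrib, ← sum_sub_distrib]
    exact sum_congr rfl fun i _ => by unfold lam; ring
  have a1 := G.conc _ _ (sub_nonneg.2 D1) (sub_le_self _ D0) m1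
  rw [sub_sub_cancel] at a1
  have a2 := mk.t_le δ'
  have a3 := (mk.t_lip h1).trans (add_le_add_right (mul_le_mul_of_nonneg_right
    ((mass_kill n x l).trans_le (sub_le_self _ D0)) (sub_nonneg.2 h1)) _)
  rw [acost_kill] at a2
  rw [tcost_kill n x l d δ] at a3
  have a4 := eta_nonneg m0 m1
  have a5 := add_nonneg (tau_nonneg m0 m1) (mul_nonneg a4 D0)
  have a6 := mul_le_of_le_one_right a4 (D1.trans m1)
  rw [e, phi0, phi0, mass_kill, acost_kill]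
  refine evo_core a1 (tau_step D0 D1 m1) (mk.t0 δ') a2 a3 a5
    ((mul_le_of_le_one_right a5 m1).trans ?_) h1 (evo_rho ms l0 h2) (evo_sq ms l)
    (le_trans (by norm_num) (G.g_ge _ m0 m1)) (mul_nonneg (mul_nonneg a4 D0) (sum_nonneg fun i hi =>
      mul_nonneg (mul_nonneg (ms.x0 i (mem_range.1 hi)) (l0 i (mem_range.1 hi))) (tcl_nonneg _ _)))
  linarith [tau_le m0 m1, eta_le' m0 m1]

theorem ev_out (G : GoodC c g) (ms : Meas n x d δ) {ga tp : ℚ} (tp0 : 0 ≤ tp) {l ρ : ℕ → ℚ}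
    {δ' : ℚ} (l0 : ∀ i < n, 0 ≤ l i) (l1 : ∀ i < n, l i ≤ 1) (h0 : 0 ≤ δ') (h1 : δ' ≤ δ)
    (h2 : ∀ i < n, 0 < l i → δ' ≤ ρ i) :
    phi c ga tp n (kill x l) d δ' - phi c ga tp n x d δ ≤
      ∑ i ∈ range n, x i * l i * outV c g ga tp n x d δ (ρ i) (l i) i := by
  obtain ⟨D0, D1⟩ := evo_D ms l0 l1
  have e : ∑ i ∈ range n, x i * l i * outV c g ga tp n x d δ (ρ i) (l i) i =
      ∑ i ∈ range n, x i * l i * lam c g n x d δ (ρ i) (l i) i -
        ga * ∑ i ∈ range n, x i * l i * d i + tp * (mass n x * ∑ i ∈ range n, x i * l i * ρ i -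
          (1 - mass n x) * δ * ∑ i ∈ range n, x i * l i) := by
    simp only [mul_sum, ← sum_add_distrib, ← sum_sub_distrib]
    exact sum_congr rfl fun i _ => by unfold outV; ring
  have a0 := ev_out0 G ms l0 l1 h0 h1 h2
  have a1 := mul_le_mul_of_nonneg_left (evo_rho ms l0 h2) ms.m0
  have a2 := mul_le_mul_of_nonneg_left h1 (mul_nonneg (sub_nonneg.2 D1) (sub_nonneg.2 ms.m1))
  have a3 := mul_nonneg (mul_nonneg D0 D0) h0
  rw [e, phi, phi, mass_kill, acost_kill]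
  generalize ∑ i ∈ range n, x i * l i = D at *
  have a4 : (mass n x - D) * (1 - (mass n x - D)) * δ' - mass n x * (1 - mass n x) * δ ≤
      mass n x * ∑ i ∈ range n, x i * l i * ρ i - (1 - mass n x) * δ * D := by linarith
  linarith [mul_le_mul_of_nonneg_left a4 tp0]

end Vale.Agent.P334
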