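import Vale.Agent.P334.Basic

/-! P334: the smoothed hinge function and the smoothed objective.
PLAN. Scalar facts: unfold hg, hd, split cases, nlinarith (multiply out 1/Δ: put ρ = 1/Δ, Δ ρ = 1).
hd is the derivative of hg, nondecreasing and Δ-Lipschitz.
`hobj_up`: yb is linear in y; for y' = (1-η) y + η k e_i: yb y' j r - yb y j r = η (k [dd j i ≤ r] - yb y j r),
whose absolute value is ≤ η k (0 ≤ yb ≤ k); sum hg_up over (j, r), at most nn * DD terms;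
sum_(j,r) hd (yb) * yb y j r = sum_i y i grad y i (swap sums).
`hobj_low`: sum hg_low with s' = yb y* j r. -/

namespace Vale.Agent.P334

open Finset

variable {L : ℕ} {G : Ctx}

private theorem fw1_cases {Δ : ℚ} (hΔ : 0 < Δ) (s : ℚ) :
    ((1 - s) * Δ ≤ 0 ∧ Δ * hg Δ s = 0 ∧ hd Δ s = 0) ∨
    (0 ≤ (1 - s) * Δ ∧ (1 - s) * Δ ≤ 1 ∧ Δ * hg Δ s = ((1 - s) * Δ) ^ 2 / 2 ∧
      hd Δ s = -((1 - s) * Δ)) ∨
    (1 ≤ (1 - s) * Δ ∧ Δ * hg Δ s = (1 - s) * Δ - 1 / 2 ∧ hd Δ s = -1) := by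
  have e : 1 / Δ * Δ = 1 := by field_simp
  unfold hg hd
  split_ifs with h1 h2
  · have h3 : (1 - s) * Δ ≤ 0 := mul_nonpos_of_nonpos_of_nonneg (by linarith) hΔ.le
    refine Or.inl ⟨h3, mul_zero _, ?_⟩
    rw [min_eq_right (by linarith), max_eq_left h3, neg_zero]
  · have h3 : 0 ≤ (1 - s) * Δ := mul_nonneg (by linarith) hΔ.le
    have h4 : (1 - s) * Δ ≤ 1 := by
      rw [← e]
      exact mul_le_mul_of_nonneg_right (by linarith) hΔ.le
    refine Or.inr (Or.inl ⟨h3, h4, by ring, ?_⟩)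
    rw [min_eq_right h4, max_eq_right h3]
  · have h4 : 1 ≤ (1 - s) * Δ := by
      rw [← e]
      exact mul_le_mul_of_nonneg_right (by linarith) hΔ.le
    refine Or.inr (Or.inr ⟨h4, by field_simp, ?_⟩)
    rw [min_eq_left h4, max_eq_right zero_le_one]

theorem hg_le {Δ : ℚ} (hΔ : 0 < Δ) (s : ℚ) : hg Δ s ≤ max (1 - s) 0 := by
  refine le_of_mul_le_mul_left ?_ hΔ
  have h1 := mul_le_mul_of_nonneg_left (le_max_left (1 - s) 0) hΔ.le
  have h2 := mul_le_mul_of_nonneg_left (le_max_right (1 - s) 0) hΔ.le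
  rcases fw1_cases hΔ s with ⟨a, b, -⟩ | ⟨a, a', b, -⟩ | ⟨a, b, -⟩ <;> rw [b] <;> nlinarith

theorem le_hg {Δ : ℚ} (hΔ : 0 < Δ) (s : ℚ) : max (1 - s) 0 ≤ hg Δ s + 1 / (2 * Δ) := by
  have e : Δ * (1 / (2 * Δ)) = 1 / 2 := by field_simp
  refine max_le (le_of_mul_le_mul_left ?_ hΔ) (le_of_mul_le_mul_left ?_ hΔ) <;>
  rcases fw1_cases hΔ s with ⟨a, b, -⟩ | ⟨a, a', b, -⟩ | ⟨a, b, -⟩ <;> rw [mul_add, b, e] <;>
  nlinarith [sq_nonneg ((1 - s) * Δ - 1)]

theorem hd_le (Δ s : ℚ) : hd Δ s ≤ 0 := neg_nonpos.2 (le_max_left _ _)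

theorem hg_up {Δ : ℚ} (hΔ : 0 < Δ) (s v : ℚ) :
    hg Δ (s + v) ≤ hg Δ s + hd Δ s * v + Δ * v ^ 2 / 2 := by
  refine le_of_mul_le_mul_left ?_ hΔ
  have e : Δ * (hg Δ s + hd Δ s * v + Δ * v ^ 2 / 2) =
      Δ * hg Δ s + hd Δ s * (Δ * v) + (Δ * v) ^ 2 / 2 := by ring
  have e' : (1 - (s + v)) * Δ = (1 - s) * Δ - Δ * v := by ring
  have h1 := fw1_cases hΔ s
  have h2 := fw1_cases hΔ (s + v)
  rw [e'] at h2
  rw [e]
  generalize (1 - s) * Δ = u at h1 h2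
  generalize Δ * v = w at h2 ⊢
  rcases h1 with ⟨a, b, c⟩ | ⟨a, a', b, c⟩ | ⟨a, b, c⟩ <;>
  rcases h2 with ⟨d, f, -⟩ | ⟨d, d', f, -⟩ | ⟨d, f, -⟩ <;> rw [b, c, f] <;>
  nlinarith [sq_nonneg (u - w), sq_nonneg (u - w - 1), sq_nonneg w, sq_nonneg (w + 1),
    sq_nonneg (w - 1)]

theorem hg_low {Δ : ℚ} (hΔ : 0 < Δ) (s s' : ℚ) : hg Δ s + hd Δ s * (s' - s) ≤ hg Δ s' := by
  refine le_of_mul_le_mul_left ?_ hΔ
  have e : Δ * (hg Δ s + hd Δ s * (s' - s)) =
      Δ * hg Δ s + hd Δ s * ((1 - s) * Δ - (1 - s') * Δ) := by ring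
  have h1 := fw1_cases hΔ s
  have h2 := fw1_cases hΔ s'
  rw [e]
  generalize (1 - s) * Δ = u at h1 ⊢
  generalize (1 - s') * Δ = w at h2 ⊢
  rcases h1 with ⟨a, b, c⟩ | ⟨a, a', b, c⟩ | ⟨a, b, c⟩ <;>
  rcases h2 with ⟨d, f, -⟩ | ⟨d, d', f, -⟩ | ⟨d, f, -⟩ <;> rw [b, c, f] <;>
  nlinarith [sq_nonneg (u - w), sq_nonneg (w - 1), sq_nonneg w, sq_nonneg (u - 1)]

theorem grad_le (G : Ctx) (y : ℕ → ℚ) (i : ℕ) : grad G y i ≤ 0 := by
  unfold grad
  induction cJ G with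
  | nil => simp
  | cons j l ih =>
    rw [List.map_cons, List.sum_cons]
    refine add_nonpos (sum_nonpos fun r _ => ?_) ih
    split_ifs
    · exact hd_le _ _
    · exact le_rfl

private theorem fw1_D (hG : CtxOK L G) (r : ℕ) (hr : r ∈ range (DD G)) : (0 : ℚ) < DD G := by
  have := mem_range.1 hr
  exact_mod_cast (by omega : 0 < DD G)

private theorem fw1_swap (G : Ctx) (y z : ℕ → ℚ) : ∑ i ∈ range (nn G), z i * grad G y i =
    ((cJ G).map fun j => ∑ r ∈ range (DD G), hd (DD G) (yb G y j r) * yb G z j r).sum := by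
  unfold grad
  induction cJ G with
  | nil => simp
  | cons j l ih =>
    simp only [List.map_cons, List.sum_cons, mul_add, sum_add_distrib, ih]
    congr 1
    simp only [mul_sum]
    rw [sum_comm]
    refine sum_congr rfl fun r _ => ?_
    generalize hd (DD G) (yb G y j r) = c
    rw [yb, mul_sum]
    refine sum_congr rfl fun i _ => ?_
    split_ifs <;> ring

private theorem fw1_list (l : List ℕ) {f g : ℕ → ℚ} (h : ∀ j, f j ≤ g j) :
    (l.map f).sum ≤ (l.map g).sum := List.sum_le_sum fun j _ => h j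

theorem hobj_up (hG : CtxOK L G) {y y' : ℕ → ℚ} (y0 : ∀ i < nn G, 0 ≤ y i)
    (yk : mass (nn G) y ≤ ck G) {η : ℚ} (η0 : 0 ≤ η) {a : ℕ} (ha : a < nn G)
    (hy : ∀ i < nn G, y' i = (1 - η) * y i + η * if i = a then (ck G : ℚ) else 0) :
    hobj G y' ≤ hobj G y + η * (ck G * grad G y a - ∑ i ∈ range (nn G), y i * grad G y i) +
      η ^ 2 * (nn G * (DD G : ℚ) ^ 2 * (ck G : ℚ) ^ 2) / 2 := by
  let z : ℕ → ℚ := fun i => if i = a then (ck G : ℚ) else 0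
  have hk : (0 : ℚ) ≤ ck G := Nat.cast_nonneg _
  have e1 : (ck G : ℚ) * grad G y a = ∑ i ∈ range (nn G), z i * grad G y i := by
    simp [z, ha]
  have e2 : ∀ j r, yb G y' j r = yb G y j r + η * (yb G z j r - yb G y j r) := by
    intro j r
    simp only [yb, ← sum_sub_distrib, mul_sum, ← sum_add_distrib]
    refine sum_congr rfl fun i hi => ?_
    rw [hy i (mem_range.1 hi)]
    split_ifs <;> simp [z, *] <;> ring
  have b : ∀ (x : ℕ → ℚ), (∀ i < nn G, 0 ≤ x i) → mass (nn G) x ≤ ck G → ∀ j r,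
      0 ≤ yb G x j r ∧ yb G x j r ≤ ck G := by
    intro x x0 xk j r
    refine ⟨sum_nonneg fun i hi => ?_, le_trans (sum_le_sum fun i hi => ?_) xk⟩
    · split_ifs
      · exact x0 i (mem_range.1 hi)
      · exact le_rfl
    · split_ifs
      · exact le_rfl
      · exact x0 i (mem_range.1 hi)
  have bz := b z (fun i _ => by dsimp only [z]; split_ifs <;> simp) (by simp [mass, z, ha])
  have by' := b y y0 yk
  have h1 : hobj G y' ≤ ((cJ G).map fun j => ∑ r ∈ range (DD G), hg (DD G) (yb G y j r) +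
      (η * ∑ r ∈ range (DD G), hd (DD G) (yb G y j r) * yb G z j r +
      (-η * ∑ r ∈ range (DD G), hd (DD G) (yb G y j r) * yb G y j r +
        η ^ 2 * ((DD G : ℚ) ^ 2 * (ck G : ℚ) ^ 2) / 2))).sum := by
    refine fw1_list _ fun j => ?_
    have e3 : η ^ 2 * ((DD G : ℚ) ^ 2 * (ck G : ℚ) ^ 2) / 2 =
        ∑ _r ∈ range (DD G), (DD G : ℚ) * (η ^ 2 * (ck G : ℚ) ^ 2) / 2 := by
      simp only [sum_const, card_range, nsmul_eq_mul]
      ring
    rw [e3, mul_sum, mul_sum, ← sum_add_distrib, ← sum_add_distrib, ← sum_add_distrib]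
    refine sum_le_sum fun r hr => ?_
    have hD := fw1_D hG r hr
    rw [e2]
    refine (hg_up hD _ _).trans ?_
    have h2 : (yb G z j r - yb G y j r) ^ 2 ≤ (ck G : ℚ) ^ 2 :=
      sq_le_sq' (by linarith [(bz j r).1, (by' j r).2]) (by linarith [(bz j r).2, (by' j r).1])
    have h3 := mul_le_mul_of_nonneg_left (mul_le_mul_of_nonneg_left h2 (sq_nonneg η)) hD.le
    rw [mul_pow]
    linarith
  rw [List.sum_map_add, List.sum_map_add, List.sum_map_add, List.sum_map_mul_left,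
    List.sum_map_mul_left, ← fw1_swap, ← fw1_swap, List.map_const', List.sum_replicate,
    nsmul_eq_mul] at h1
  have h4 : ((cJ G).length : ℚ) ≤ nn G := by exact_mod_cast hG.Jlen
  have h5 := mul_le_mul_of_nonneg_right h4
    (show 0 ≤ η ^ 2 * ((DD G : ℚ) ^ 2 * (ck G : ℚ) ^ 2) / 2 by positivity)
  rw [e1]
  change hobj G y' ≤ hobj G y + _ at h1
  linarith

theorem hobj_low (hG : CtxOK L G) (y y' : ℕ → ℚ) :
    hobj G y + (∑ i ∈ range (nn G), y' i * grad G y i - ∑ i ∈ range (nn G), y i * grad G y i) ≤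
      hobj G y' := by
  rw [fw1_swap, fw1_swap, ← add_sub_assoc, sub_le_iff_le_add, hobj, hobj, ← List.sum_map_add,
    ← List.sum_map_add]
  refine fw1_list _ fun j => ?_
  rw [← sum_add_distrib, ← sum_add_distrib]
  refine sum_le_sum fun r hr => ?_
  have := hg_low (fw1_D hG r hr) (yb G y j r) (yb G y' j r)
  linarith

end Vale.Agent.P334
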