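import Vale.Agent.P334.FW1

/-! P334: convergence of the conditional gradient method.
PLAN. y t = fwy G t (fwCnt G t), fwCnt (t+1) = fwStep (fwCnt t) t (`List.range_succ`, `foldl_append`).
With a = fwPick (y t) ∈ F (amin_mem', Fne; a < nn) and η = 2/(t+2):
y (t+1) i = (1-η) y t i + η (k if i = a) for i < nn (getD_rmap; y 0 = 0 as the denominator is 0).
Induction: y t ≥ 0, mass (y t) = k for t ≥ 1 (0 for t = 0), y t i > 0 → i ∈ F.
Let y* = indicator of O, C = nn DD^2 k^2, gap t = hobj (y t) - hobj y*.  k grad a ≤ sum_i y* i grad i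
(grad ≤ 0, a minimises grad on F, card O ≤ k), so by hobj_up, hobj_low
gap (t+1) ≤ (1-η) gap t + η^2 C/2, hence gap t ≤ 2C/(t+2) for t ≥ 1.  C ≤ NN^5, t = NN^6: gap ≤ 1.
hobj y* ≤ sum_j w j: hg ≤ max (1 - yb) 0 ≤ [r < w j] since yb y* j r ≥ 1 for r ≥ w j.
sum cj ≤ hobj + nn DD/(2 DD) (le_hg). -/

namespace Vale.Agent.P334

open Finset

variable {L : ℕ} {G : Ctx}

/-- iterate number `t` -/
def fw2y (G : Ctx) (t : ℕ) : ℕ → ℚ := fwy G t (fwCnt G t)

theorem fw2_pick_mem (hG : CtxOK L G) (y : ℕ → ℚ) : fwPick G y ∈ cF G := by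
  have h := amin_mem' (grad G y) ((cF G).headD 0) (cF G)
  rcases List.mem_cons.1 h with h | h
  · unfold fwPick
    rw [h]
    have := hG.Fne
    cases hF : cF G with
    | nil => exact absurd hF this
    | cons a l => simp
  · exact h

theorem fw2_pick_le (y : ℕ → ℚ) {i : ℕ} (hi : i ∈ cF G) :
    grad G y (fwPick G y) ≤ grad G y i :=
  amin_le' (grad G y) ((cF G).headD 0) (cF G) i (List.mem_cons_of_mem _ hi)

theorem fw2_zero (i : ℕ) : fw2y G 0 i = 0 := by simp [fw2y, fwy]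

theorem fw2_step (t : ℕ) {i : ℕ} (hi : i < nn G) :
    fw2y G (t + 1) i = (1 - 2 / ((t : ℚ) + 2)) * fw2y G t i +
      2 / ((t : ℚ) + 2) * if i = fwPick G (fw2y G t) then (ck G : ℚ) else 0 := by
  have e : fwCnt G (t + 1) = fwStep G (fwCnt G t) t := by
    simp [fwCnt, List.range_succ, List.foldl_append]
  have e2 : (fwCnt G (t + 1)).getD i 0 =
      (fwCnt G t).getD i 0 + if i = fwPick G (fw2y G t) then t + 1 else 0 := by
    rw [e, fwStep, getD_rmap hi]; rfl
  have h1 : (0 : ℚ) < (t : ℚ) + 1 := by positivity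
  have h2 : (0 : ℚ) < (t : ℚ) + 2 := by positivity
  have h3 : (0 : ℚ) < (t : ℚ) + 1 + 1 := by positivity
  generalize fwPick G (fw2y G t) = a at e2 ⊢
  unfold fw2y fwy
  rw [e2]
  rcases Nat.eq_zero_or_pos t with rfl | ht
  · have : (fwCnt G 0).getD i 0 = 0 := by simp [fwCnt]
    rw [this]
    split_ifs <;> simp <;> ring
  · have h4 : (0 : ℚ) < (t : ℚ) := by exact_mod_cast ht
    split_ifs
    · push_cast
      field_simp
      ring
    · push_cast
      field_simp
      ring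

theorem fw2_inv (hG : CtxOK L G) (t : ℕ) : (∀ i < nn G, 0 ≤ fw2y G t i) ∧
    (∀ i < nn G, 0 < fw2y G t i → i ∈ cF G) ∧
      mass (nn G) (fw2y G t) = if t = 0 then 0 else (ck G : ℚ) := by
  induction t with
  | zero => simp [fw2_zero, mass]
  | succ t ih =>
    obtain ⟨h1, h2, h3⟩ := ih
    have ha := fw2_pick_mem hG (fw2y G t)
    have ha' := hG.Flt _ ha
    have e0 : (0 : ℚ) ≤ 2 / ((t : ℚ) + 2) := by positivity
    have e1 : (0 : ℚ) ≤ 1 - 2 / ((t : ℚ) + 2) := by
      rw [sub_nonneg, div_le_one (by positivity)]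
      have : (0 : ℚ) ≤ t := Nat.cast_nonneg t
      linarith
    refine ⟨fun i hi => ?_, fun i hi hp => ?_, ?_⟩
    · rw [fw2_step t hi]
      have := h1 i hi
      split_ifs <;> positivity
    · by_cases hia : i = fwPick G (fw2y G t)
      · rw [hia]; exact ha
      · rw [fw2_step t hi, if_neg hia, mul_zero, add_zero] at hp
        exact h2 i hi (pos_of_mul_pos_left (by rwa [mul_comm] at hp) e1)
    · have e : mass (nn G) (fw2y G (t + 1)) =
          (1 - 2 / ((t : ℚ) + 2)) * mass (nn G) (fw2y G t) + 2 / ((t : ℚ) + 2) * ck G := by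
        unfold mass
        rw [sum_congr rfl fun i hi => fw2_step t (mem_range.1 hi), sum_add_distrib, ← mul_sum,
          ← mul_sum, sum_ite_eq', if_pos (mem_range.2 ha')]
      rw [e, h3, if_neg (Nat.succ_ne_zero t)]
      split_ifs with h
      · subst h; simp
      · ring

theorem fw2_gap (hG : CtxOK L G) {O : Finset ℕ} (hO : ∀ i ∈ O, i ∈ cF G) (hk : O.card ≤ ck G)
    (t : ℕ) : hobj G (fw2y G (t + 1)) - hobj G (fun i => if i ∈ O then 1 else 0) ≤
      (1 - 2 / ((t : ℚ) + 2)) * (hobj G (fw2y G t) - hobj G (fun i => if i ∈ O then 1 else 0)) +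
        (2 / ((t : ℚ) + 2)) ^ 2 * (nn G * (DD G : ℚ) ^ 2 * (ck G : ℚ) ^ 2) / 2 := by
  obtain ⟨h1, -, h3⟩ := fw2_inv hG t
  have ha := fw2_pick_mem hG (fw2y G t)
  have e0 : (0 : ℚ) ≤ 2 / ((t : ℚ) + 2) := by positivity
  have hm : mass (nn G) (fw2y G t) ≤ ck G := by
    rw [h3]; split_ifs
    · positivity
    · exact le_rfl
  have up := hobj_up hG h1 hm e0 (hG.Flt _ ha) (fun i hi => fw2_step t hi)
  have low := hobj_low hG (fw2y G t) (fun i => if i ∈ O then 1 else 0)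
  have hs : ∑ i ∈ range (nn G), (if i ∈ O then (1 : ℚ) else 0) * grad G (fw2y G t) i =
      ∑ i ∈ O, grad G (fw2y G t) i := by
    simp only [ite_mul, one_mul, zero_mul]
    rw [← sum_filter]
    refine sum_congr ?_ fun _ _ => rfl
    ext i
    simp only [mem_filter, mem_range]
    exact ⟨fun h => h.2, fun h => ⟨hG.Flt _ (hO i h), h⟩⟩
  have hc : (O.card : ℚ) * grad G (fw2y G t) (fwPick G (fw2y G t)) ≤
      ∑ i ∈ O, grad G (fw2y G t) i := by
    have := card_nsmul_le_sum O (grad G (fw2y G t)) _ (fun i hi => fw2_pick_le (fw2y G t) (hO i hi))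
    rwa [nsmul_eq_mul] at this
  have hk' : (O.card : ℚ) ≤ ck G := by exact_mod_cast hk
  have hg0 := grad_le G (fw2y G t) (fwPick G (fw2y G t))
  have hkk : (ck G : ℚ) * grad G (fw2y G t) (fwPick G (fw2y G t)) ≤
      (O.card : ℚ) * grad G (fw2y G t) (fwPick G (fw2y G t)) :=
    mul_le_mul_of_nonpos_right hk' hg0
  rw [hs] at low
  have key : (ck G : ℚ) * grad G (fw2y G t) (fwPick G (fw2y G t)) -
      ∑ i ∈ range (nn G), fw2y G t i * grad G (fw2y G t) i ≤
      -(hobj G (fw2y G t) - hobj G (fun i => if i ∈ O then 1 else 0)) := by linarith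
  have := mul_le_mul_of_nonneg_left key e0
  linarith

theorem fw2_rate (hG : CtxOK L G) {O : Finset ℕ} (hO : ∀ i ∈ O, i ∈ cF G) (hk : O.card ≤ ck G)
    (t : ℕ) : hobj G (fw2y G (t + 1)) - hobj G (fun i => if i ∈ O then 1 else 0) ≤
      2 * (nn G * (DD G : ℚ) ^ 2 * (ck G : ℚ) ^ 2) / ((t : ℚ) + 3) := by
  have hC : (0 : ℚ) ≤ nn G * (DD G : ℚ) ^ 2 * (ck G : ℚ) ^ 2 := by positivity
  induction t with
  | zero =>
    have := fw2_gap hG hO hk 0
    generalize (nn G * (DD G : ℚ) ^ 2 * (ck G : ℚ) ^ 2) = C at *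
    norm_num at this ⊢
    linarith
  | succ t ih =>
    have h := fw2_gap hG hO hk (t + 1)
    generalize (nn G * (DD G : ℚ) ^ 2 * (ck G : ℚ) ^ 2) = C at *
    have ht : (0 : ℚ) ≤ t := Nat.cast_nonneg t
    have e1 : (0 : ℚ) ≤ 1 - 2 / (((t + 1 : ℕ) : ℚ) + 2) := by
      rw [sub_nonneg, div_le_one (by positivity)]
      push_cast
      linarith
    have h2 := mul_le_mul_of_nonneg_left ih e1
    refine h.trans ((add_le_add h2 le_rfl).trans ?_)
    push_cast
    have e : (1 - 2 / ((t : ℚ) + 1 + 2)) * (2 * C / ((t : ℚ) + 3)) +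
        (2 / ((t : ℚ) + 1 + 2)) ^ 2 * C / 2 = 2 * C * (((t : ℚ) + 2) / ((t : ℚ) + 3) ^ 2) := by
      field_simp
      ring
    rw [e, div_eq_mul_one_div (2 * C)]
    refine mul_le_mul_of_nonneg_left ?_ (by positivity)
    rw [div_le_div_iff₀ (by positivity) (by positivity)]
    nlinarith

theorem fw2_opt (hG : CtxOK L G) {O : Finset ℕ} (hO : ∀ i ∈ O, i ∈ cF G)
    {w : ℕ → ℕ} (hw : ∀ j ∈ cJ G, ∃ i ∈ O, dd G j i ≤ w j) (hD : (0 : ℚ) < DD G) :
    hobj G (fun i => if i ∈ O then 1 else 0) ≤ (((cJ G).map w).sum : ℕ) := by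
  rw [Nat.cast_list_sum, List.map_map]
  refine List.sum_le_sum fun j hj => ?_
  obtain ⟨i, hi, hd⟩ := hw j hj
  have h1 : ∀ r ∈ range (DD G), hg (DD G) (yb G (fun i => if i ∈ O then 1 else 0) j r) ≤
      if r ∈ range (w j) then (1 : ℚ) else 0 := by
    intro r _
    refine (hg_le hD _).trans ?_
    have hn : ∀ o ∈ range (nn G),
        (0 : ℚ) ≤ if dd G j o ≤ r then (if o ∈ O then (1 : ℚ) else 0) else 0 := by
      intro o _
      split_ifs <;> norm_num
    split_ifs with h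
    · have : 0 ≤ yb G (fun i => if i ∈ O then 1 else 0) j r := sum_nonneg hn
      exact max_le (by linarith) zero_le_one
    · have h2 := single_le_sum hn (mem_range.2 (hG.Flt _ (hO i hi)))
      have h3 : dd G j i ≤ r := hd.trans (by simpa using h)
      rw [if_pos h3, if_pos hi] at h2
      have : 1 ≤ yb G (fun i => if i ∈ O then 1 else 0) j r := h2
      exact max_le (by linarith) le_rfl
  refine (sum_le_sum h1).trans ?_
  rw [sum_ite_mem, sum_const, nsmul_eq_mul, mul_one]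
  have : (range (DD G) ∩ range (w j)).card ≤ w j :=
    (card_le_card inter_subset_right).trans (card_range _).le
  exact Nat.cast_le.2 this

theorem fw2_cj (hG : CtxOK L G) (y : ℕ → ℚ) (hD : (0 : ℚ) < DD G) :
    ((cJ G).map (cj G y)).sum ≤ hobj G y + (nn G : ℚ) / 2 := by
  have h1 : ((cJ G).map (cj G y)).sum ≤
      ((cJ G).map fun j => (∑ r ∈ range (DD G), hg (DD G) (yb G y j r)) + (1 / 2 : ℚ)).sum := by
    refine List.sum_le_sum fun j _ => ?_
    refine (sum_le_sum fun r _ => le_hg hD (yb G y j r)).trans ?_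
    rw [sum_add_distrib, sum_const, card_range, nsmul_eq_mul]
    refine add_le_add le_rfl (le_of_eq ?_)
    field_simp
  rw [List.sum_map_add, List.map_const', List.sum_replicate, nsmul_eq_mul] at h1
  have h2 : ((cJ G).length : ℚ) ≤ nn G := by exact_mod_cast hG.Jlen
  unfold hobj
  linarith

theorem fw_feas (hG : CtxOK L G) : (∀ i < nn G, 0 ≤ fwY L G i) ∧
    (∀ i < nn G, 0 < fwY L G i → i ∈ cF G) ∧ mass (nn G) (fwY L G) = ck G := by
  have h := fw2_inv hG (NN L G ^ 6)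
  have hN := hG.N800
  rw [if_neg (pow_ne_zero 6 (by omega))] at h
  exact h

theorem fw_val (hG : CtxOK L G) {O : Finset ℕ} (hO : ∀ i ∈ O, i ∈ cF G) (hk : O.card ≤ ck G)
    {w : ℕ → ℕ} (hw : ∀ j ∈ cJ G, ∃ i ∈ O, dd G j i ≤ w j) :
    ((cJ G).map (cj G (fwY L G))).sum ≤ (((cJ G).map w).sum : ℕ) + (nn G : ℚ) / 2 + 1 := by
  have hN := hG.N800
  have hn := hG.n1
  have hD : (0 : ℚ) < DD G := by
    have : 0 < DD G := by rw [hG.hD]; positivity
    exact_mod_cast this
  obtain ⟨t, ht⟩ : ∃ t, NN L G ^ 6 = t + 1 :=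
    Nat.exists_eq_succ_of_ne_zero (pow_ne_zero 6 (by omega))
  have e : fwY L G = fw2y G (t + 1) := by rw [← ht]; rfl
  have h1 := fw2_rate hG hO hk t
  have h2 := fw2_opt hG hO hw hD
  have h3 := fw2_cj hG (fwY L G) hD
  have h4 : 2 * (nn G * DD G ^ 2 * ck G ^ 2) ≤ t + 3 := by
    have a1 := hG.nN
    have a2 := hG.DN
    have a3 : ck G ≤ NN L G := hG.kn.trans a1
    have a4 : nn G * DD G ^ 2 * ck G ^ 2 ≤ NN L G * NN L G ^ 2 * NN L G ^ 2 := by gcongr
    have a5 : 2 * (NN L G * NN L G ^ 2 * NN L G ^ 2) ≤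
        NN L G * (NN L G * NN L G ^ 2 * NN L G ^ 2) := Nat.mul_le_mul_right _ (by omega)
    have a6 : NN L G * (NN L G * NN L G ^ 2 * NN L G ^ 2) = NN L G ^ 6 := by ring
    omega
  have h5 : 2 * (nn G * (DD G : ℚ) ^ 2 * (ck G : ℚ) ^ 2) / ((t : ℚ) + 3) ≤ 1 := by
    rw [div_le_one (by positivity)]
    exact_mod_cast h4
  rw [e] at h3 ⊢
  linarith

end Vale.Agent.P334
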