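import Vale.Agent.P334.Basic

/-! P334: the greedy filling `x0`.
PLAN. Order the indices below n by o ≺ i iff (dd j o, o) < (dd j i, i) lexicographically (a strict total
order).  For a ≺-down-closed set D ⊆ range n: sum over D of x0 = min Q (sum over D of y) (induction on the
card of D, removing its ≺-largest element i: the elements below i are exactly D.erase i).  Apply it to
D = range n (mass ≤ 1) and D = {i | dd j i ≤ r}.  As dd j i ≤ DD, dd j i = number of r < DD with
not (dd j i ≤ r), so acost + (1 - m) DD = sum_(r < DD) (1 - x(B r)) = sum_r max (1 - y(B r)) 0. -/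

namespace Vale.Agent.P334

open Finset

variable {L : ℕ} {G : Ctx}

theorem fill_down (n Q : ℕ) (d y : ℕ → ℕ) (D : Finset ℕ) : (∀ i ∈ D, i < n) →
    (∀ i ∈ D, ∀ o < n, (d o < d i ∨ (d o = d i ∧ o < i)) → o ∈ D) →
    ∑ i ∈ D, min (y i) (Q - ∑ o ∈ range n, if d o < d i ∨ (d o = d i ∧ o < i) then y o else 0) =
      min Q (∑ i ∈ D, y i) := by
  induction D using Finset.induction_on_max_value (fun i => toLex (d i, i)) with
  | empty => simp
  | insert a s ha hmax ih =>
    intro hn hD
    have hp : ∀ x ∈ s, d x < d a ∨ (d x = d a ∧ x < a) := by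
      intro x hx
      have h1 := hmax x hx
      rw [Prod.Lex.toLex_le_toLex] at h1
      have h2 : x ≠ a := fun h => ha (h ▸ hx)
      simp only at h1
      omega
    have h1 := ih (fun i hi => hn i (mem_insert_of_mem hi)) fun i hi o ho hoi => by
      rcases mem_insert.1 (hD i (mem_insert_of_mem hi) o ho hoi) with rfl | h
      · have := hp i hi
        omega
      · exact h
    have h2 : (∑ o ∈ range n, if d o < d a ∨ (d o = d a ∧ o < a) then y o else 0) =
        ∑ o ∈ s, y o := by
      rw [← sum_filter]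
      congr 1
      ext o
      simp only [mem_filter, mem_range]
      refine ⟨fun h => ?_, fun h => ⟨hn o (mem_insert_of_mem h), hp o h⟩⟩
      rcases mem_insert.1 (hD a (mem_insert_self _ _) o h.1 h.2) with rfl | h'
      · omega
      · exact h'
    rw [sum_insert ha, sum_insert ha, h1, h2]
    omega

theorem fill_ball (L : ℕ) (G : Ctx) (y : List ℕ) (j r : ℕ) :
    (∑ i ∈ range (nn G), if dd G j i ≤ r then x0 L G y j i else 0) =
      min (QQ L G) (∑ i ∈ range (nn G), if dd G j i ≤ r then y.getD i 0 else 0) := by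
  rw [← sum_filter, ← sum_filter]
  refine fill_down (nn G) (QQ L G) (dd G j) (fun i => y.getD i 0) _ (fun i hi => ?_)
    fun i hi o ho h => ?_
  · exact mem_range.1 (mem_filter.1 hi).1
  · have := (mem_filter.1 hi).2
    exact mem_filter.2 ⟨mem_range.2 ho, by omega⟩

theorem fill_count {a D : ℕ} (h : a ≤ D) :
    (∑ r ∈ range D, if a ≤ r then (1 : ℚ) else 0) = D - a := by
  rw [← sum_filter]
  have : (range D).filter (fun r => a ≤ r) = Ico a D := by
    ext r
    simp only [mem_filter, mem_range, mem_Ico]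
    omega
  rw [this, sum_const, Nat.card_Ico, nsmul_eq_mul, mul_one, Nat.cast_sub h]

theorem fill_le (L : ℕ) (G : Ctx) (y : List ℕ) (j i : ℕ) : x0 L G y j i ≤ y.getD i 0 := by
  exact min_le_left _ _

theorem fill_mass (hG : CtxOK L G) (y : List ℕ) (j : ℕ) :
    mass (nn G) (fun i => (x0 L G y j i : ℚ) / QQ L G) ≤ 1 := by
  have h := fill_down (nn G) (QQ L G) (dd G j) (fun i => y.getD i 0) (range (nn G))
    (fun i hi => mem_range.1 hi) fun i _ o ho _ => mem_range.2 ho
  unfold mass
  rw [← sum_div, div_le_one hG.Q0, ← Nat.cast_sum, Nat.cast_le]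
  exact (le_of_eq h).trans (min_le_left _ _)

theorem fill_cost (hG : CtxOK L G) (y : List ℕ) {j : ℕ} (hj : j < nn G) :
    acost (nn G) (fun i => (x0 L G y j i : ℚ) / QQ L G) (dq G j) +
      (1 - mass (nn G) fun i => (x0 L G y j i : ℚ) / QQ L G) * DD G =
      cj G (fun i => ((y.getD i 0 : ℕ) : ℚ) / QQ L G) j := by
  have hQ := hG.Q0
  have h1 : ∀ r, max (1 - yb G (fun i => ((y.getD i 0 : ℕ) : ℚ) / QQ L G) j r) 0 =
      1 - ∑ i ∈ range (nn G),
        (x0 L G y j i : ℚ) / QQ L G * if dd G j i ≤ r then (1 : ℚ) else 0 := by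
    intro r
    have h2 : yb G (fun i => ((y.getD i 0 : ℕ) : ℚ) / QQ L G) j r =
        ((∑ i ∈ range (nn G), if dd G j i ≤ r then y.getD i 0 else 0 : ℕ) : ℚ) / QQ L G := by
      rw [yb, Nat.cast_sum, sum_div]
      refine sum_congr rfl fun i _ => ?_
      split_ifs <;> simp
    have h3 : (∑ i ∈ range (nn G),
        (x0 L G y j i : ℚ) / QQ L G * if dd G j i ≤ r then (1 : ℚ) else 0) =
        ((∑ i ∈ range (nn G), if dd G j i ≤ r then x0 L G y j i else 0 : ℕ) : ℚ) / QQ L G := by
      rw [Nat.cast_sum, sum_div]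
      refine sum_congr rfl fun i _ => ?_
      split_ifs <;> simp
    rw [h2, h3, fill_ball, Nat.cast_min, ← min_div_div_right hQ.le, div_self hQ.ne',
      ← max_sub_sub_left, sub_self, max_comm]
  simp only [cj, h1, acost, mass, dq]
  rw [sum_sub_distrib, sum_comm, sum_const, card_range, nsmul_eq_mul, mul_one, sub_mul, one_mul,
    sum_mul, add_sub_left_comm, ← sum_sub_distrib, sub_eq_add_neg (DD G : ℚ), ← sum_neg_distrib]
  congr 1
  refine sum_congr rfl fun i hi => ?_
  rw [← mul_sum, fill_count (hG.le j hj i (mem_range.1 hi))]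
  ring

end Vale.Agent.P334
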