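import Vale.Agent.P334.CostL

/-! P334: in a stable instance every good solution is close to the optimal centres.
PLAN. For a client j let a j ∈ O attain the inf' (choose), C o = clients with a j = o, and
m o = cost mass sum_(j ∈ C o) (dist j o + dist j (near T j)); sum_o m o = cost O + costL T ≤ B.
E = {o ∈ O | ε γ < m o}; card E * ε γ ≤ B ≤ t ε γ so card E ≤ t.  For o ∈ O let o1 ∈ O.erase o be nearest
to o, l o = dist o o1.  Moving C o to o1: cost (O.erase o) ≤ cost O + card (C o) * l o, so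
γ ≤ card (C o) * l o; in particular C o is nonempty and l o > 0.  For o ∉ E some j ∈ C o has
dist j o + dist j (near T j) ≤ ε γ/card (C o) ≤ ε l o (`Finset.exists_le_of_sum_le`); put
w o = near T j, so dist (w o) o ≤ ε l o ≤ ε dist o o' for all o' ≠ o in O.  For o ∈ E put w o = o.
Injective on O: if w o = w o' = z, o ≠ o', then dist o o' ≤ dist z o + dist z o' ≤ 2ε dist o o' forces
dist o o' = 0 (ε < 1/2), against zero_iff. -/

namespace Vale.Agent.P334

open Finset

variable {I : Inst}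

theorem stable (hI : Valid I) {O : Finset ℕ} (hO : O.Nonempty) (hF : O ⊆ I.2.2.1.toFinset)
    (h2 : 2 ≤ O.card) {γ ε : ℚ} (γ0 : 0 < γ) (ε0 : 0 < ε) (ε1 : ε < 1 / 2)
    (hs : ∀ o ∈ O, ∀ h : (O.erase o).Nonempty, cost I O hO + γ ≤ cost I (O.erase o) h)
    {T : List ℕ} (hT : T ≠ []) (hTF : ∀ i ∈ T, i ∈ I.2.2.1) {t : ℕ}
    (hB : cost I O hO + costL I T ≤ t * ε * γ) :
    ∃ (E : Finset ℕ) (w : ℕ → ℕ), E ⊆ O ∧ E.card ≤ t ∧ (∀ o ∈ E, w o = o) ∧
      (∀ o ∈ O, o ∉ E → w o ∈ T) ∧ Set.InjOn w O ∧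
      ∀ o ∈ O, ∀ o' ∈ O, o' ≠ o → dist I (w o) o ≤ ε * dist I o o' := by
  classical
  have hOn : ∀ o ∈ O, o < I.1.length := fun o ho => hI.facilities.2 o (List.mem_toFinset.1 (hF ho))
  have hJn : ∀ j ∈ I.2.1.toFinset, j < I.1.length := fun j hj =>
    hI.clients.2 j (List.mem_toFinset.1 hj)
  have hTn : ∀ j, near I T j < I.1.length := fun j => hI.facilities.2 _ (hTF _ (near_mem I hT j))
  choose a haO ha using fun j => exists_mem_eq_inf' hO (dist I j)
  set f : ℕ → ℚ := fun j => dist I j (a j) + dist I j (near I T j) with hf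
  set m : ℕ → ℚ := fun o => ∑ j ∈ I.2.1.toFinset with a j = o, f j with hm
  have f0 : ∀ j ∈ I.2.1.toFinset, 0 ≤ f j := fun j hj =>
    add_nonneg (hI.nonneg (hJn j hj) (hOn _ (haO j))) (hI.nonneg (hJn j hj) (hTn j))
  have m0 : ∀ o, 0 ≤ m o := fun o => sum_nonneg fun j hj => f0 j (mem_filter.1 hj).1
  have hc : cost I O hO = ∑ j ∈ I.2.1.toFinset, dist I j (a j) := sum_congr rfl fun j _ => ha j
  have hsum : ∑ o ∈ O, m o = cost I O hO + costL I T := by
    rw [hm, sum_fiberwise_of_maps_to fun j _ => haO j, hc, costL, ← List.sum_toFinset _ hI.clients.1,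
      ← sum_add_distrib]
  have key : ∀ o, ∃ z, o ∈ O → m o ≤ ε * γ → z ∈ T ∧
      ∀ o' ∈ O, o' ≠ o → dist I z o ≤ ε * dist I o o' := by
    intro o
    by_cases ho : o ∈ O
    swap
    · exact ⟨0, fun h => absurd h ho⟩
    by_cases hmo : m o ≤ ε * γ
    swap
    · exact ⟨0, fun _ h => absurd h hmo⟩
    have hne : (O.erase o).Nonempty := by
      rw [← card_pos, card_erase_of_mem ho]
      omega
    obtain ⟨o1, h1, hmin⟩ := exists_min_image (O.erase o) (dist I o) hne
    have h1n := hOn o1 (mem_of_mem_erase h1)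
    have h3 : cost I (O.erase o) hne ≤ cost I O hO +
        ∑ j ∈ I.2.1.toFinset with a j = o, dist I o o1 := by
      rw [hc, sum_filter, ← sum_add_distrib]
      refine sum_le_sum fun j hj => ?_
      split_ifs with h
      · refine (inf'_le _ h1).trans ?_
        rw [h]
        exact hI.triangle j (hJn j hj) o (hOn o ho) o1 h1n
      · rw [add_zero]
        exact inf'_le _ (mem_erase.2 ⟨h, haO j⟩)
    have h4 : γ ≤ ∑ j ∈ I.2.1.toFinset with a j = o, dist I o o1 := by linarith [hs o ho hne]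
    have h5 : (I.2.1.toFinset.filter fun j => a j = o).Nonempty := by
      rw [nonempty_iff_ne_empty]
      intro h
      rw [h, sum_empty] at h4
      linarith
    obtain ⟨j, hj, h6⟩ := exists_le_of_sum_le h5 (f := f) (g := fun _ => ε * dist I o o1) (by
      rw [← mul_sum]
      exact hmo.trans (mul_le_mul_of_nonneg_left h4 ε0.le))
    obtain ⟨hj1, hj2⟩ := mem_filter.1 hj
    refine ⟨near I T j, fun _ _ => ⟨near_mem I hT j, fun o' ho' hne' => ?_⟩⟩
    have h7 := hI.triangle _ (hTn j) j (hJn j hj1) o (hOn o ho)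
    rw [hI.symm _ (hTn j) j (hJn j hj1)] at h7
    have h8 := mul_le_mul_of_nonneg_left (hmin o' (mem_erase.2 ⟨hne', ho'⟩)) ε0.le
    simp only [hf, hj2] at h6
    linarith
  choose z hz using key
  have hw : ∀ o ∈ O, (if ε * γ < m o then o else z o) < I.1.length ∧ ∀ o' ∈ O, o' ≠ o →
      dist I (if ε * γ < m o then o else z o) o ≤ ε * dist I o o' := fun o ho => by
    split_ifs with h
    · refine ⟨hOn o ho, fun o' ho' _ => ?_⟩
      rw [(hI.zero_iff o (hOn o ho) o (hOn o ho)).2 rfl]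
      exact mul_nonneg ε0.le (hI.nonneg (hOn o ho) (hOn o' ho'))
    · exact ⟨hI.facilities.2 _ (hTF _ (hz o ho (not_lt.1 h)).1), (hz o ho (not_lt.1 h)).2⟩
  refine ⟨O.filter fun o => ε * γ < m o, fun o => if ε * γ < m o then o else z o,
    filter_subset _ _, ?_, fun o ho => if_pos (mem_filter.1 ho).2, fun o ho hE => ?_,
    fun o ho o' ho' e => ?_, fun o ho => (hw o ho).2⟩
  · have h1 := card_nsmul_le_sum (O.filter fun o => ε * γ < m o) m (ε * γ)
      fun o ho => (mem_filter.1 ho).2.le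
    have h3 := sum_le_sum_of_subset_of_nonneg (filter_subset (fun o => ε * γ < m o) O)
      fun o _ _ => m0 o
    rw [nsmul_eq_mul] at h1
    have h4 : ((O.filter fun o => ε * γ < m o).card : ℚ) * (ε * γ) ≤ t * (ε * γ) := by linarith
    exact_mod_cast le_of_mul_le_mul_right h4 (mul_pos ε0 γ0)
  · have h : ¬ ε * γ < m o := fun h => hE (mem_filter.2 ⟨ho, h⟩)
    simp only [if_neg h]
    exact (hz o ho (not_lt.1 h)).1
  · by_contra hne
    have h1 := (hw o ho).2 o' ho' (Ne.symm hne)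
    have h3 := (hw o' ho').2 o ho hne
    have hn := (hw o ho).1
    simp only at e
    rw [← e, hI.symm o' (hOn o' ho') o (hOn o ho)] at h3
    have h4 := hI.triangle o (hOn o ho) _ hn o' (hOn o' ho')
    rw [hI.symm o (hOn o ho) _ hn] at h4
    have h5 := hI.nonneg (hOn o ho) (hOn o' ho')
    have h6 : dist I o o' ≠ 0 := fun h => hne ((hI.zero_iff o (hOn o ho) o' (hOn o' ho')).1 h)
    have h7 := lt_of_le_of_ne h5 h6.symm
    nlinarith

end Vale.Agent.P334
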