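import Vale.Agent.P334.Lloyd

/-! P334: the enumerated variants contain a Lloyd step from the perturbed optimum.
PLAN. W0 = O.image w, w0 ∈ W0.  A = T.toFinset \ W0 has card ≤ T.length - (card O - card E)
(w is injective on O and maps O \ E into T).  pad_ex gives lists D (members A ∪ {w0}) and V (members
E ∪ {w0}) of length EE L, both in tuples (mem_tuples; all members are in F).  The list
W = T.filter (∉ D) ++ V has exactly the members of W0.  π = inverse of w on O (`Function.invFunOn`).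
lloyd_feas, lloyd_cost. -/

namespace Vale.Agent.P334

open Finset

variable {L : ℕ} {I : Inst}

theorem variant_spec (hI : Valid I) {O : Finset ℕ} (hO : O.Nonempty) (hF : O ⊆ I.2.2.1.toFinset)
    {T : List ℕ} (hTF : ∀ i ∈ T, i ∈ I.2.2.1) {E : Finset ℕ} {w : ℕ → ℕ} (hE : E ⊆ O)
    (h1 : ∀ o ∈ E, w o = o) (h2 : ∀ o ∈ O, o ∉ E → w o ∈ T) (h3 : Set.InjOn w O) {ε : ℚ}
    (ε0 : 0 ≤ ε) (h4 : ∀ o ∈ O, ∀ o' ∈ O, o' ≠ o → dist I (w o) o ≤ ε * dist I o o')
    (c1 : E.card + 1 ≤ EE L) (c2 : T.length + E.card + 1 ≤ O.card + EE L) :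
    ∃ S ∈ variants L I T, S ≠ [] ∧ (∀ i ∈ S, i ∈ I.2.2.1) ∧ S.toFinset.card ≤ O.card ∧
      (1 - 2 * ε) * costL I S ≤ (1 + 2 * ε) * cost I O hO := by
  classical
  obtain ⟨o0, ho0⟩ := id hO
  have hOF : ∀ o ∈ O, o ∈ I.2.2.1 := fun o ho => List.mem_toFinset.1 (hF ho)
  have hwF : ∀ o ∈ O, w o ∈ I.2.2.1 := by
    intro o ho
    by_cases he : o ∈ E
    · rw [h1 o he]; exact hOF o ho
    · exact hTF _ (h2 o ho he)
  have hA : (T.toFinset \ O.image w).card + 1 ≤ EE L := by
    have hd : Disjoint (T.toFinset \ O.image w) ((O \ E).image w) :=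
      disjoint_of_subset_right (image_subset_image sdiff_subset) sdiff_disjoint
    have hs : (T.toFinset \ O.image w) ∪ (O \ E).image w ⊆ T.toFinset := by
      refine union_subset sdiff_subset fun i hi => ?_
      obtain ⟨o, ho, rfl⟩ := mem_image.1 hi
      exact List.mem_toFinset.2 (h2 o (mem_sdiff.1 ho).1 (mem_sdiff.1 ho).2)
    have hc := card_le_card hs
    rw [card_union_of_disjoint hd,
      card_image_of_injOn (h3.mono (coe_subset.2 sdiff_subset)), card_sdiff_of_subset hE] at hc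
    have h5 := List.toFinset_card_le T
    have h6 := card_le_card hE
    omega
  obtain ⟨D, hDl, hD⟩ := pad_ex hA (w o0)
  obtain ⟨V, hVl, hV⟩ := pad_ex c1 (w o0)
  have hDt : D ∈ tuples I.2.2.1 (EE L) := by
    refine mem_tuples hDl fun a ha => ?_
    rcases (hD a).1 ha with h | rfl
    · exact hTF a (List.mem_toFinset.1 (mem_sdiff.1 h).1)
    · exact hwF o0 ho0
  have hVt : V ∈ tuples I.2.2.1 (EE L) := by
    refine mem_tuples hVl fun a ha => ?_
    rcases (hV a).1 ha with h | rfl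
    · exact hOF a (hE h)
    · exact hwF o0 ho0
  obtain ⟨W, hW⟩ : ∃ W, W = (T.filter fun i => decide (i ∉ D)) ++ V := ⟨_, rfl⟩
  have hmem : ∀ i, i ∈ W ↔ ∃ o ∈ O, w o = i := by
    intro i
    rw [hW, List.mem_append, List.mem_filter, decide_eq_true_eq, hD, hV]
    constructor
    · rintro (⟨hi, hn⟩ | hi | rfl)
      · by_contra hc
        exact hn (Or.inl (mem_sdiff.2 ⟨List.mem_toFinset.2 hi, fun h => hc (mem_image.1 h)⟩))
      · exact ⟨i, hE hi, h1 i hi⟩
      · exact ⟨o0, ho0, rfl⟩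
    · rintro ⟨o, ho, rfl⟩
      by_cases he : o ∈ E
      · exact Or.inr (Or.inl (by rw [h1 o he]; exact he))
      · by_cases h0 : w o = w o0
        · exact Or.inr (Or.inr h0)
        · refine Or.inl ⟨h2 o ho he, ?_⟩
          rintro (h | h)
          · exact (mem_sdiff.1 h).2 (mem_image_of_mem w ho)
          · exact h0 h
  have hπ : ∀ o ∈ O, Function.invFunOn w (O : Set ℕ) (w o) = o := fun o ho =>
    h3.leftInvOn_invFunOn ho
  have hne : W ≠ [] := List.ne_nil_of_mem ((hmem _).2 ⟨o0, ho0, rfl⟩)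
  obtain ⟨f1, f2, f3⟩ := lloyd_feas hI hne
  refine ⟨lloyd I W, ?_, f1, f2, f3.trans ?_, ?_⟩
  · rw [variants, List.mem_cons, List.mem_flatMap]
    exact Or.inr ⟨D, hDt, List.mem_map.2 ⟨V, hVt, by rw [hW]⟩⟩
  · refine (card_le_card (t := O.image w) fun i hi => ?_).trans card_image_le
    exact mem_image.2 ((hmem i).1 (List.mem_toFinset.1 hi))
  · refine lloyd_cost hI (π := Function.invFunOn w (O : Set ℕ)) (fun i hi => ?_) hO hF
      (fun i hi => ?_) (fun o ho => ⟨w o, (hmem _).2 ⟨o, ho, rfl⟩, hπ o ho⟩) ε0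
      (fun i hi o' ho' hne' => ?_)
    · obtain ⟨o, ho, rfl⟩ := (hmem i).1 hi
      exact hwF o ho
    · obtain ⟨o, ho, rfl⟩ := (hmem i).1 hi
      rw [hπ o ho]; exact ho
    · obtain ⟨o, ho, rfl⟩ := (hmem i).1 hi
      rw [hπ o ho] at hne' ⊢
      exact h4 o ho o' ho' hne'

end Vale.Agent.P334
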