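import Vale.Agent.P334.Guess
import Vale.Agent.P334.Stable
import Vale.Agent.P334.Variant

/-! P334: correctness of the algorithm.
PLAN. k = I.2.2.2 ≤ |F| ≤ n, C = CC L, α = al1 L M ∈ [3/2, 3].  For 1 ≤ i choose optimal O i with value
v i (opt_ex); v is antitone and ≥ 0.  `cand_ex` (n ≥ 2):
(1) k ≤ C: T = pseudo g 1 from guess_spec (k = 1, O 1), variant_spec with E = O k, w = id, ε = 0.
(2) k > C and v (k - C) ≤ (1 + 1/L) v k: S = T = pseudo g (k - C), the head of `variants`.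
(3) otherwise, with γ0 = v k/(L C), some i ∈ (k - C, k] has v (i-1) - v i > γ0 (telescoping); take the
largest such i =: k' ≥ 2; then v k' ≤ v k + C γ0 = (1 + 1/L) v k ≤ 2 v k.  γ = v (k'-1) - v k' > 0,
card (O k') = k' (otherwise v (k'-1) ≤ v k'), erasing a centre costs ≥ γ (LB at k'-1).
T = pseudo g k' from guess_spec; v k' + costL T ≤ 4 v k' ≤ 8 v k ≤ 8 L C γ = t (1/L) γ with t = 8 L^2 C.
stable, variant_spec with ε = 1/L; (1 + 2/L) ≤ (3/2)(1 - 2/L).
`alg_spec`: the result is the default [head F] or passes feasB (amin_mem'); both are feasible.  If n ≥ 2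
use amin_le' with cand_ex, feasB_iff, costL_eq.  If n ≤ 1 all distances between points are 0. -/

namespace Vale.Agent.P334

open Finset

variable {L M : ℕ} {I : Inst}

theorem top_jump (u : ℕ → ℚ) (γ : ℚ) (C : ℕ) :
    u C ≤ u 0 + C * γ ∨ ∃ t < C, γ < u (t + 1) - u t ∧ u t ≤ u 0 + t * γ := by
  induction C with
  | zero => simp
  | succ C ih =>
    rcases ih with h | ⟨t, h1, h2⟩
    · by_cases h2 : γ < u (C + 1) - u C
      · exact Or.inr ⟨C, Nat.lt_succ_self _, h2, h⟩
      · left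
        push_cast
        linarith
    · exact Or.inr ⟨t, by omega, h2⟩

theorem top_mem {k : ℕ} (hk : k ≤ I.1.length) {g : ℚ} (hg : g ∈ guesses I) {S : List ℕ}
    (hS : S ∈ variants L I (pseudo L M I g k)) : S ∈ cands L M I :=
  List.mem_flatMap.2 ⟨k, List.mem_range.2 (by omega), List.mem_flatMap.2 ⟨g, hg, hS⟩⟩

theorem cand_ex (hL : 200 ≤ L) (hI : Valid I) (hn : 2 ≤ I.1.length) {O : Finset ℕ}
    (hO : O.Nonempty) (hF : Feas I O) : ∃ S ∈ cands L M I, S ≠ [] ∧ (∀ i ∈ S, i ∈ I.2.2.1) ∧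
      S.toFinset.card ≤ I.2.2.2 ∧ costL I S ≤ al1 L M * (1 + 1 / L) * cost I O hO := by
  have hkn : I.2.2.2 ≤ I.1.length := hI.k_le.trans hI.Flen
  have hk1 := hI.k_pos
  obtain ⟨hF1, hF2⟩ := hF
  set k := I.2.2.2 with hk
  obtain ⟨a1, a2⟩ := al1_bd hL M
  have hc0 := cost_nonneg hI hO hF1
  have hLq : (200 : ℚ) ≤ L := by exact_mod_cast hL
  have e0 : (0 : ℚ) < 1 / L := by positivity
  have e1 : (1 : ℚ) / L ≤ 1 / 200 := one_div_le_one_div_of_le (by norm_num) hLq
  have e2 : (L : ℚ) * (1 / L) = 1 := by field_simp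
  choose Os hOs h1 h2 h3 using fun i => opt_ex hI (Nat.le_add_left 1 i)
  by_cases hC : k ≤ CC L
  · obtain ⟨g, hg, -, t2, t3, -⟩ := guess_spec (M := M) hL hI hn le_rfl (by omega) (hOs 0) (h1 0)
      (h2 0)
    obtain ⟨S, s1, s2, s3, s4, s5⟩ := variant_spec (L := L) hI hO hF1 t2 (E := O) (w := id)
      subset_rfl (fun _ _ => rfl) (fun o h h' => absurd h h') (Set.injOn_id _) le_rfl
      (fun o ho _ _ _ => by
        have := hI.facilities.2 o (List.mem_toFinset.1 (hF1 ho))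
        rw [zero_mul]
        exact ((hI.zero_iff o this o this).2 rfl).le)
      (by unfold EE; omega) (by unfold EE; omega)
    refine ⟨S, top_mem (by omega) hg s1, s2, s3, s4.trans hF2, ?_⟩
    have : 1 * cost I O hO ≤ al1 L M * (1 + 1 / L) * cost I O hO :=
      mul_le_mul_of_nonneg_right (by nlinarith) hc0
    linarith
  set v : ℕ → ℚ := fun i => cost I (Os i) (hOs i) with hv
  have v0 : ∀ i, 0 ≤ v i := fun i => cost_nonneg hI (hOs i) (h1 i)
  have vO : v (k - 1) ≤ cost I O hO := h3 (k - 1) O hO hF1 (by omega)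
  have hC0 : (0 : ℚ) < CC L := by
    unfold CC
    positivity
  set γ0 := v (k - 1) * (1 / L) / CC L with hγ0
  have g0 : 0 ≤ γ0 := div_nonneg (mul_nonneg (v0 _) e0.le) hC0.le
  have g1 : CC L * γ0 = v (k - 1) * (1 / L) := by rw [hγ0]; field_simp
  have g2 : (1 + 1 / L) * v (k - 1) ≤ (1 + 1 / L) * cost I O hO :=
    mul_le_mul_of_nonneg_left vO (by positivity)
  rcases top_jump (fun t => v (k - 1 - t)) γ0 (CC L) with h | ⟨t, ht, h4, h5⟩
  · obtain ⟨g, hg, t1, t2, t3, t4⟩ := guess_spec (M := M) hL hI hn (Nat.le_add_left 1 _)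
      (by omega) (hOs (k - 1 - CC L)) (h1 _) (h2 _)
    refine ⟨_, top_mem (by omega) hg List.mem_cons_self, t1, t2,
      (List.toFinset_card_le _).trans (by omega), t4.trans ?_⟩
    rw [mul_assoc]
    refine mul_le_mul_of_nonneg_left ?_ (by linarith)
    change v (k - 1 - CC L) ≤ v (k - 1) + _ at h
    change v (k - 1 - CC L) ≤ _
    linarith
  obtain ⟨j, hj⟩ : ∃ j, k - 1 - t = j + 1 := ⟨k - 1 - t - 1, by omega⟩
  change γ0 < v (k - 1 - (t + 1)) - v (k - 1 - t) at h4
  change v (k - 1 - t) ≤ v (k - 1) + _ at h5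
  rw [show k - 1 - (t + 1) = j by omega, hj] at h4
  rw [hj] at h5
  have h6 : (t : ℚ) * γ0 ≤ CC L * γ0 := mul_le_mul_of_nonneg_right (by exact_mod_cast ht.le) g0
  have h7 : v (j + 1) ≤ (1 + 1 / L) * v (k - 1) := by linarith
  have hcard : (Os (j + 1)).card = j + 2 := by
    refine le_antisymm (h2 _) (not_lt.1 fun hlt => ?_)
    have : v j ≤ v (j + 1) := h3 j _ (hOs (j + 1)) (h1 _) (by omega)
    linarith
  obtain ⟨g, hg, t1, t2, t3, t4⟩ := guess_spec (M := M) hL hI hn (Nat.le_add_left 1 _)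
    (by omega) (hOs (j + 1)) (h1 _) (h2 _)
  change _ ≤ _ * v (j + 1) at t4
  obtain ⟨E, w, s1, s2, s3, s4, s5, s6⟩ := stable hI (hOs (j + 1)) (h1 _) (by omega)
    (γ := v j - v (j + 1)) (ε := 1 / L) (by linarith) e0 (by linarith)
    (fun o ho h => by
      have : v j ≤ cost I ((Os (j + 1)).erase o) h :=
        h3 j _ h ((erase_subset _ _).trans (h1 _)) (by rw [card_erase_of_mem ho]; omega)
      change v (j + 1) + _ ≤ _
      linarith) t1 t2 (t := 8 * L ^ 2 * CC L) (by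
      change v (j + 1) + _ ≤ _
      have k1 : al1 L M * v (j + 1) ≤ 3 * v (j + 1) := mul_le_mul_of_nonneg_right a2 (v0 _)
      have k2 : (1 + 1 / L) * v (k - 1) ≤ 2 * v (k - 1) :=
        mul_le_mul_of_nonneg_right (by linarith) (v0 _)
      have k3 : ((8 * L ^ 2 * CC L : ℕ) : ℚ) * (1 / L) * γ0 = 8 * v (k - 1) := by
        rw [hγ0]
        push_cast
        field_simp
      have k4 : ((8 * L ^ 2 * CC L : ℕ) : ℚ) * (1 / L) * γ0 ≤
          ((8 * L ^ 2 * CC L : ℕ) : ℚ) * (1 / L) * (v j - v (j + 1)) :=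
        mul_le_mul_of_nonneg_left h4.le (by positivity)
      linarith)
  obtain ⟨S, r1, r2, r3, r4, r5⟩ := variant_spec (L := L) hI (hOs (j + 1)) (h1 _) t2 s1 s3 s4 s5
    e0.le s6 (by unfold EE; omega) (by unfold EE; omega)
  refine ⟨S, top_mem (by omega) hg r1, r2, r3, by omega, ?_⟩
  change _ ≤ _ * v (j + 1) at r5
  refine le_of_mul_le_mul_left (r5.trans ?_) (by linarith)
  rw [mul_assoc, ← mul_assoc]
  exact mul_le_mul (by nlinarith) (h7.trans g2) (v0 _) (mul_nonneg (by linarith) (by linarith))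

theorem alg_spec (hL : 200 ≤ L) (hI : Valid I) : ∃ hS : (alg L M I).toFinset.Nonempty,
    Feas I (alg L M I).toFinset ∧ ∀ (O : Finset ℕ) (hO : O.Nonempty), Feas I O →
      cost I (alg L M I).toFinset hS ≤ al1 L M * (1 + 1 / L) * cost I O hO := by
  have hf : (alg L M I).toFinset.Nonempty ∧ Feas I (alg L M I).toFinset := by
    rcases List.mem_cons.1 (amin_mem' (costL I) [I.2.2.1.headD 0]
      ((cands L M I).filter (feasB I))) with h | h
    · have h' : alg L M I = [I.2.2.1.headD 0] := h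
      rw [h']
      refine ⟨by simp, fun i hi => ?_, by simpa using hI.k_pos⟩
      obtain ⟨a, t, e⟩ := List.exists_cons_of_ne_nil hI.Fne
      rw [e] at hi ⊢
      simp_all
    · exact (feasB_iff hI _).1 (List.mem_filter.1 h).2
  refine ⟨hf.1, hf.2, fun O hO hF => ?_⟩
  by_cases hn : 2 ≤ I.1.length
  · obtain ⟨S, s1, s2, s3, s4, s5⟩ := cand_ex (M := M) hL hI hn hO hF
    have h1 : feasB I S = true := (feasB_iff hI S).2
      ⟨List.toFinset_nonempty_iff S |>.2 s2, fun i hi => by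
        rw [List.mem_toFinset] at hi ⊢
        exact s3 i hi, s4⟩
    rw [← costL_eq hI]
    exact (amin_le' (costL I) _ _ S (List.mem_cons_of_mem _ (List.mem_filter.2 ⟨s1, h1⟩))).trans s5
  · obtain ⟨a1, -⟩ := al1_bd hL M
    refine le_trans (sum_nonpos fun j hj => ?_)
      (mul_nonneg (by positivity) (cost_nonneg hI hO hF.1))
    obtain ⟨i, hi⟩ := hf.1
    have h1 := hI.clients.2 j (List.mem_toFinset.1 hj)
    have h2 := hI.facilities.2 i (List.mem_toFinset.1 (hf.2.1 hi))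
    exact (inf'_le _ hi).trans ((hI.zero_iff j h1 i h2).2 (by omega)).le

end Vale.Agent.P334
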