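import Vale.Agent.P334.PTop
import Vale.Agent.P334.Top
import Vale.Agent.P334.CN3

/-! P334: the Turing machine and the choice of the constants. -/

namespace Vale.Agent.P334

open Vale.Agent.Lib.H23 Vale.Agent.P325 Enc Turing

theorem ser_list {α : Type} [Enc α] {f : α → List Bool} (h : ∀ a, ser (enc a) = f a)
    (l : List α) : ser (enc l) = bList f l := by
  induction l with
  | nil => rfl
  | cons a l ih => rw [enc_cons, ser, h, ih, bList]

theorem ser_pair {α β : Type} [Enc α] [Enc β] {f : α → List Bool} {g : β → List Bool}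
    (h1 : ∀ a, ser (enc a) = f a) (h2 : ∀ a, ser (enc a) = g a) (p : α × β) :
    ser (enc p) = bPair f g p := by
  obtain ⟨a, b⟩ := p
  rw [enc_pair, ser, h1, h2, bPair]

theorem ser_bool (b : Bool) : ser (enc b) = bBool b := by cases b <;> rfl
theorem ser_nat (n : ℕ) : ser (enc n) = bNat n := ser_list ser_bool n.bits
theorem ser_rat (q : ℚ) : ser (enc q) = bRat q :=
  ser_pair (ser_pair ser_bool ser_nat) ser_nat ((decide (q.num < 0), q.num.natAbs), q.den)
theorem ser_inst (I : Inst) : ser (enc I) = codeInst I :=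
  ser_pair (ser_list (ser_list ser_rat))
    (ser_pair (ser_list ser_nat) (ser_pair (ser_list ser_nat) ser_nat)) I

theorem machine {f : Inst → List ℕ} (hf : PT f) :
    ∃ M : TM2ComputableInPolyTime codeInst (bList bNat) f, ∀ k, Finite (M.tm.Γ k) := by
  obtain ⟨c, P, h⟩ := hf
  have key : ∀ I : Inst, TM2OutputsInTime (compile c)
      (List.map (id : Bool → Bool) (codeInst I))
      (some (List.map (id : Bool → Bool) (bList bNat (f I))))
      ((P + 1).eval (codeInst I).length) := by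
    intro I
    have h1 := (h I).outputs
    rw [sz, Tr.size, ser_inst, ser_list ser_nat] at h1
    rw [← List.map_id (codeInst I), ← List.map_id (bList bNat (f I)), List.length_map] at h1
    rw [Polynomial.eval_add, Polynomial.eval_one]
    exact Classical.choice h1
  exact ⟨⟨⟨compile c, Equiv.refl _, Equiv.refl _⟩, P + 1, key⟩,
    fun _ => (inferInstance : Finite Bool)⟩

theorem ratio_le {L : ℕ} (hL : 200 ≤ L) (M : ℕ) :
    al1 L M * (1 + 1 / L) ≤ cN M 1 + 241 / L := by
  have h3 := (al1_bd hL M).2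
  have hc : cN M 1 ≤ 3 := ((goodC M).c_le 1 zero_le_one le_rfl).trans (by norm_num [cU])
  have hc0 : 0 ≤ cN M 1 := (goodC M).c_ge 1 zero_le_one le_rfl
  have hq : (200 : ℚ) ≤ L := by exact_mod_cast hL
  have h0 : (0 : ℚ) < 1 / L := by positivity
  have h1 : (1 : ℚ) / L ≤ 1 / 200 := one_div_le_one_div_of_le (by norm_num) hq
  have h2 : (L : ℚ) / (L - 1) ≤ 1 + 2 * (1 / L) := by
    rw [div_le_iff₀ (by linarith)]
    have : (1 : ℚ) / L * L = 1 := by field_simp
    nlinarith
  have h4 : al0 L M ≤ (cN M 1 + 200 * (1 / L)) * (1 + 2 * (1 / L)) := by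
    unfold al0
    rw [mul_one_div]
    exact mul_le_mul_of_nonneg_left h2 (by positivity)
  have h5 : al1 L M = al0 L M + 28 * (1 / L) := by unfold al1; ring
  have h6 : (241 : ℚ) / L = 241 * (1 / L) := by ring
  rw [h6]
  nlinarith

theorem upper {ε : ℝ} (hε : 0 < ε) : ∃ (f : Inst → List ℕ)
    (M : TM2ComputableInPolyTime codeInst (bList bNat) f), (∀ k, Finite (M.tm.Γ k)) ∧
    ∀ I : Inst, Valid I → ∃ hS : (f I).toFinset.Nonempty, Feas I (f I).toFinset ∧
      ∀ (O : Finset ℕ) (hO : O.Nonempty), Feas I O →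
        (cost I (f I).toFinset hS : ℝ) ≤ (1 + 2 / Real.exp 1 + ε) * (cost I O hO : ℝ) := by
  obtain ⟨M, hM⟩ := cN_lim (half_pos hε)
  obtain ⟨L0, hL0⟩ := exists_nat_ge (482 / ε)
  obtain ⟨L, hL, hL1⟩ : ∃ L : ℕ, 200 ≤ L ∧ 482 / ε ≤ L :=
    ⟨max 200 L0, le_max_left _ _, hL0.trans (Nat.cast_le.2 (le_max_right _ _))⟩
  obtain ⟨T, hT⟩ := machine (pt_alg L M)
  refine ⟨alg L M, T, hT, fun I hI => ?_⟩
  obtain ⟨hS, h1, h2⟩ := alg_spec (M := M) hL hI
  refine ⟨hS, h1, fun O hO hF => ?_⟩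
  have h3 := h2 O hO hF
  have h4 := cost_nonneg hI hO hF.1
  have h5 := (Rat.cast_le (K := ℝ)).2
    (h3.trans (mul_le_mul_of_nonneg_right (ratio_le hL M) h4))
  push_cast at h5
  refine h5.trans (mul_le_mul_of_nonneg_right ?_ (by exact_mod_cast h4))
  have hq : (200 : ℝ) ≤ L := by exact_mod_cast hL
  have h7 : (241 : ℝ) / L ≤ ε / 2 := by
    rw [div_le_iff₀ hε] at hL1
    rw [div_le_iff₀ (by linarith)]
    linarith
  linarith

end Vale.Agent.P334
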