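import Vale.Agent.P334.Scale

/-! P334: one of the guesses works.
PLAN. c = cost I O hO ≥ 0, n = I.1.length ≥ 2.  If c > 0: let l = max over clients j of inf' O (dist j)
= dist j i for some client j, i ∈ O; l ≤ c ≤ n l, l > 0; t = ceil (c/l) ≤ n, g = t l ∈ guesses,
c ≤ g ≤ c + l ≤ 2c, and pseudo_spec gives al0 c + 28 c/L.  If c = 0: let g be the least distance
dist u v over u ≠ v < n (positive by zero_iff; g = 1 * dist u v ∈ guesses).  pseudo_spec gives
costL T ≤ 14 g/L < g; every term dist j (near T j) is ≥ 0 and either 0 or ≥ g, so all are 0. -/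

namespace Vale.Agent.P334

open Finset

variable {L M : ℕ} {I : Inst}

theorem guess_mem {u v t : ℕ} (hu : u < I.1.length) (hv : v < I.1.length) (ht : t ≤ I.1.length) :
    (t : ℚ) * dist I u v ∈ guesses I :=
  List.mem_flatMap.2 ⟨u, List.mem_range.2 hu, List.mem_flatMap.2 ⟨v, List.mem_range.2 hv,
    List.mem_map.2 ⟨t, by simpa using Nat.lt_succ_of_le ht, rfl⟩⟩⟩

theorem guess_pos (hI : Valid I) {O : Finset ℕ} (hO : O.Nonempty) (hF : O ⊆ I.2.2.1.toFinset)
    (hc : 0 < cost I O hO) : ∃ g ∈ guesses I, cost I O hO ≤ g ∧ g ≤ 2 * cost I O hO := by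
  obtain ⟨j, hj, hm⟩ := exists_max_image I.2.1.toFinset (fun j => O.inf' hO (dist I j))
    (nonempty_of_sum_ne_zero hc.ne')
  obtain ⟨i, hi, e⟩ := exists_mem_eq_inf' hO (dist I j)
  have h0 : ∀ j ∈ I.2.1.toFinset, 0 ≤ O.inf' hO (dist I j) := fun j hj => le_inf' _ _ fun i hi =>
    hI.nonneg (hI.clients.2 j (List.mem_toFinset.1 hj))
      (hI.facilities.2 i (List.mem_toFinset.1 (hF hi)))
  have h1 : dist I j i ≤ cost I O hO := e.ge.trans (single_le_sum h0 hj)
  have h2 : cost I O hO ≤ I.1.length * dist I j i := by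
    refine (sum_le_card_nsmul _ _ _ hm).trans ?_
    rw [nsmul_eq_mul, List.toFinset_card_of_nodup hI.clients.1, ← e]
    exact mul_le_mul_of_nonneg_right (Nat.cast_le.2 hI.Jlen) (h0 j hj)
  have h3 : 0 < dist I j i := pos_of_mul_pos_right (hc.trans_le h2) (Nat.cast_nonneg _)
  refine ⟨_, guess_mem (t := ⌈cost I O hO / dist I j i⌉₊) (hI.clients.2 j (List.mem_toFinset.1 hj))
    (hI.facilities.2 i (List.mem_toFinset.1 (hF hi))) (Nat.ceil_le.2 ((div_le_iff₀ h3).2 h2)),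
    (div_le_iff₀ h3).1 (Nat.le_ceil _), ?_⟩
  have h4 := mul_le_mul_of_nonneg_right (Nat.ceil_lt_add_one (div_nonneg hc.le h3.le)).le h3.le
  rw [add_mul, div_mul_cancel₀ _ h3.ne'] at h4
  linarith

theorem guess_spec (hL : 200 ≤ L) (hI : Valid I) (hn : 2 ≤ I.1.length) {k : ℕ} (k1 : 1 ≤ k)
    (kn : k ≤ I.1.length) {O : Finset ℕ} (hO : O.Nonempty) (hF : O ⊆ I.2.2.1.toFinset)
    (hk : O.card ≤ k) : ∃ g ∈ guesses I,
    pseudo L M I g k ≠ [] ∧ (∀ i ∈ pseudo L M I g k, i ∈ I.2.2.1) ∧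
      (pseudo L M I g k).length ≤ k + CC L ∧
      costL I (pseudo L M I g k) ≤ al1 L M * cost I O hO := by
  have hL' : (200 : ℚ) ≤ L := by exact_mod_cast hL
  rcases (cost_nonneg hI hO hF).eq_or_lt with hc | hc
  · obtain ⟨p, hp, hm⟩ := exists_min_image (range I.1.length).offDiag (fun p => dist I p.1 p.2)
      ⟨(0, 1), mem_offDiag.2 ⟨mem_range.2 (by omega), mem_range.2 hn, zero_ne_one⟩⟩
    obtain ⟨h1, h2, h3⟩ := mem_offDiag.1 hp
    rw [mem_range] at h1 h2
    have hg : 0 < dist I p.1 p.2 :=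
      (hI.nonneg h1 h2).lt_of_ne' fun e => h3 ((hI.zero_iff _ h1 _ h2).1 e)
    obtain ⟨a1, a2, a3, a4⟩ := pseudo_spec (M := M) hL hI hg k1 kn hO hF hk (hc.ge.trans hg.le)
    refine ⟨_, by simpa using guess_mem (t := 1) h1 h2 (by omega), a1, a2, a3, ?_⟩
    generalize pseudo L M I (dist I p.1 p.2) k = T at a1 a2 a4
    rw [← hc, mul_zero] at a4 ⊢
    have h4 : costL I T < dist I p.1 p.2 := by
      refine a4.trans_lt ?_
      rw [zero_add, div_lt_iff₀ (by linarith), mul_comm]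
      exact mul_lt_mul_of_pos_left (by linarith) hg
    have h5 : ∀ j, near I T j < I.1.length := fun j => hI.facilities.2 _ (a2 _ (near_mem I a1 j))
    refine (List.sum_eq_zero fun x hx => ?_).le
    have h6 := List.single_le_sum (fun y hy => by
      obtain ⟨j, hj, rfl⟩ := List.mem_map.1 hy
      exact hI.nonneg (hI.clients.2 j hj) (h5 j)) x hx
    obtain ⟨j, hj, rfl⟩ := List.mem_map.1 hx
    refine (hI.zero_iff _ (hI.clients.2 j hj) _ (h5 j)).2 (by_contra fun e => ?_)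
    exact absurd (hm (j, near I T j) (mem_offDiag.2
      ⟨mem_range.2 (hI.clients.2 j hj), mem_range.2 (h5 j), e⟩)) (not_le.2 (h6.trans_lt h4))
  · obtain ⟨g, hg, h1, h2⟩ := guess_pos hI hO hF hc
    obtain ⟨a1, a2, a3, a4⟩ := pseudo_spec (M := M) hL hI (hc.trans_le h1) k1 kn hO hF hk h1
    refine ⟨g, hg, a1, a2, a3, a4.trans ?_⟩
    rw [al1, add_mul, div_mul_eq_mul_div]
    exact add_le_add_right (div_le_div_of_nonneg_right (by linarith) (by linarith)) _

theorem al1_bd (hL : 200 ≤ L) (M : ℕ) : 3 / 2 ≤ al1 L M ∧ al1 L M ≤ 3 := by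
  obtain ⟨b1, b2, b3, b4⟩ := sc_num hL M
  have hL' : (200 : ℚ) ≤ L := by exact_mod_cast hL
  have h1 : (0 : ℚ) ≤ 28 / L := by positivity
  have h2 : (28 : ℚ) / L ≤ 28 / 200 := div_le_div_of_nonneg_left (by norm_num) (by norm_num) hL'
  have h3 := mul_le_mul b3 b1 zero_le_one (by linarith)
  have h4 := mul_le_mul b4 b2 (by linarith) (by norm_num)
  rw [al1, al0]
  exact ⟨by linarith, by linarith⟩

end Vale.Agent.P334
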