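import Vale.Agent.P334.FW2
import Vale.Agent.P334.Fill
import Vale.Agent.P334.CN3

/-! P334: the initial state.
PLAN. yq init i = fl (min 1 (fwY i))/Q ∈ [min 1 (fwY i) - 1/Q, min 1 (fwY i)], xq init j i = x0 ../Q
(getD_rmap), Wq init = 1, S = [head of F].  For every ball: max (1 - yb (yq init)) 0 ≤
max (1 - yb fwY) 0 + nn/Q (if some i in the ball has fwY i ≥ 1 then yb (min 1 fwY) ≥ 1, otherwise the
min does nothing on the ball).  So cj (yq init) j ≤ cj fwY j + DD nn/Q, and nn^2 DD/Q ≤ 1.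
ph ≤ (cN M 1 + 200/L) cj (yq init) j by phi_congr, phi_init, fill_cost.  Sum: fw_val, nn/2 + 2 ≤ 3 nn,
Yq ≤ k.  `pb`: cN M 1 ≤ 7/4 (c_two), 200/L ≤ 1, (11/4)(L+4) n + 2n ≤ 3 (L+4) n.
`cnt`: the exponent is vt (Yq - k) ≤ 0. -/

namespace Vale.Agent.P334

open Finset

variable {L M : ℕ} {G : Ctx}

theorem init_y {i : ℕ} (hi : i < nn G) :
    yq L G (init L G) i = (fl L G (min 1 (fwY L G i)) : ℚ) / QQ L G := by
  unfold yq init y0L
  rw [getD_rmap hi]
  rfl

theorem init_x {j i : ℕ} (hj : j < nn G) (hi : i < nn G) :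
    xq L G (init L G) j i = (x0 L G (y0L L G) j i : ℚ) / QQ L G := by
  unfold xq init
  rw [getD_rmap hj, getD_rmap hi]

theorem init_y_le (hG : CtxOK L G) {i : ℕ} (hi : i < nn G) :
    yq L G (init L G) i ≤ min 1 (fwY L G i) := by
  rw [init_y hi]
  exact fl_le hG (le_min zero_le_one ((fw_feas hG).1 i hi))

theorem init_y_ge (hG : CtxOK L G) {i : ℕ} (hi : i < nn G) :
    min 1 (fwY L G i) - 1 / QQ L G ≤ yq L G (init L G) i := by
  rw [init_y hi]
  exact fl_ge hG (min_le_left _ _)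

theorem init_W (hG : CtxOK L G) : Wq L G (init L G) = 1 := div_self hG.Q0.ne'

theorem init_Y (hG : CtxOK L G) : Yq L G (init L G) ≤ ck G := by
  rw [← (fw_feas hG).2.2]
  exact sum_le_sum fun i hi => (init_y_le hG (mem_range.1 hi)).trans (min_le_right _ _)

theorem init_mass (hG : CtxOK L G) {j : ℕ} (hj : j < nn G) :
    mass (nn G) (xq L G (init L G) j) ≤ 1 := by
  refine le_trans (le_of_eq ?_) (fill_mass hG (y0L L G) j)
  exact sum_congr rfl fun i hi => init_x hj (mem_range.1 hi)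

theorem init_ball {y z : ℕ → ℚ} {ε : ℚ} (hε : 0 ≤ ε) (hz : ∀ i < nn G, 0 ≤ z i)
    (hy : ∀ i < nn G, min 1 (z i) - ε ≤ y i) (j r : ℕ) :
    max (1 - yb G y j r) 0 ≤ max (1 - yb G z j r) 0 + nn G * ε := by
  have h1 : yb G (fun i => min 1 (z i)) j r ≤ yb G y j r + nn G * ε := by
    have e : (nn G : ℚ) * ε = ∑ _i ∈ range (nn G), ε := by simp
    rw [e, yb, yb, ← sum_add_distrib]
    refine sum_le_sum fun i hi => ?_
    have := hy i (mem_range.1 hi)
    split_ifs <;> linarith
  have h2 : 1 - yb G (fun i => min 1 (z i)) j r ≤ max (1 - yb G z j r) 0 := by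
    by_cases h : ∃ i ∈ range (nn G), dd G j i ≤ r ∧ 1 ≤ z i
    · obtain ⟨i, hi, h3, h4⟩ := h
      have h5 := single_le_sum (f := fun i => if dd G j i ≤ r then min 1 (z i) else 0)
        (fun i hi => by
          split_ifs
          · exact le_min zero_le_one (hz i (mem_range.1 hi))
          · exact le_rfl) hi
      rw [if_pos h3, min_eq_left h4] at h5
      exact le_trans (sub_nonpos.2 h5) (le_max_right _ _)
    · refine le_trans (le_of_eq ?_) (le_max_left _ _)
      congr 1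
      refine sum_congr rfl fun i hi => ?_
      split_ifs with h3
      · exact min_eq_right (le_of_not_ge fun h4 => h ⟨i, hi, h3, h4⟩)
      · rfl
  have h3 : (0 : ℚ) ≤ nn G * ε := by positivity
  have h4 := le_max_right (1 - yb G z j r) 0
  exact max_le (by linarith) (by linarith)

theorem init_cj (hG : CtxOK L G) (j : ℕ) :
    cj G (yq L G (init L G)) j ≤ cj G (fwY L G) j + DD G * (nn G * (1 / QQ L G)) := by
  have e : (DD G : ℚ) * (nn G * (1 / QQ L G)) = ∑ _r ∈ range (DD G), (nn G : ℚ) * (1 / QQ L G) := by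
    rw [sum_const, card_range, nsmul_eq_mul]
  rw [e, cj, cj, ← sum_add_distrib]
  exact sum_le_sum fun r _ =>
    init_ball (by positivity) (fw_feas hG).1 (fun i hi => init_y_ge hG hi) j r

theorem init_ph (hG : CtxOK L G) {j : ℕ} (hj : j < nn G) :
    ph L M G (xq L G (init L G) j) j (δq G (init L G) j) ≤
      (cN M 1 + 200 / L) * cj G (yq L G (init L G)) j := by
  have hL : (200 : ℚ) ≤ L := by exact_mod_cast hG.L200
  have h4 : (4 : ℚ) ≤ (L : ℚ) ^ 4 :=
    le_trans (by norm_num) (pow_le_pow_left₀ (by norm_num) hL 4)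
  have htp : 2 * (1 / (L : ℚ) ^ 4) ≤ 1 / 2 := by
    have := one_div_le_one_div_of_le (by norm_num) h4
    linarith
  have hm : Meas (nn G) (fun i => (x0 L G (y0L L G) j i : ℚ) / QQ L G) (dq G j)
      (δq G (init L G) j) :=
    ⟨fun _ _ => by positivity, fill_mass hG _ j, fun _ _ => Nat.cast_nonneg _, Nat.cast_nonneg _⟩
  have h := phi_init (ga := 200 / L) (Δ := DD G) (goodC M) hm (by positivity) (by positivity) htp
    (by unfold δq; exact_mod_cast dS_le G _ j)
  rw [fill_cost hG _ hj] at h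
  rw [ph, phi_congr fun i hi => init_x hj hi]
  exact h

theorem init_pot (hG : CtxOK L G) {O : Finset ℕ} (hO : ∀ i ∈ O, i ∈ cF G) (hk : O.card ≤ ck G)
    {w : ℕ → ℕ} (hw : ∀ j ∈ cJ G, ∃ i ∈ O, dd G j i ≤ w j) :
    pot L M G (init L G) ≤
      (cN M 1 + 200 / L) * ((((cJ G).map w).sum : ℕ) + 3 * (nn G : ℚ)) + 2 * nn G := by
  have hC : 0 ≤ cN M 1 + 200 / L := add_nonneg (cN_ge M zero_le_one le_rfl) (by positivity)
  have h1 : ((cJ G).map fun j => ph L M G (xq L G (init L G) j) j (δq G (init L G) j)).sum ≤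
      ((cJ G).map fun j => (cN M 1 + 200 / L) *
        (cj G (fwY L G) j + DD G * (nn G * (1 / QQ L G)))).sum :=
    List.sum_le_sum fun j hj => (init_ph hG (hG.Jlt j hj)).trans
      (mul_le_mul_of_nonneg_left (init_cj hG j) hC)
  rw [List.sum_map_mul_left, List.sum_map_add, List.map_const', List.sum_replicate,
    nsmul_eq_mul] at h1
  have h2 : ((cJ G).length : ℚ) * (DD G * (nn G * (1 / QQ L G))) ≤ 1 := by
    have h3 : (cJ G).length * (DD G * nn G) ≤ QQ L G :=
      calc (cJ G).length * (DD G * nn G) ≤ NN L G * (NN L G * NN L G) :=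
            Nat.mul_le_mul (hG.Jlen.trans hG.nN) (Nat.mul_le_mul hG.DN hG.nN)
        _ = NN L G ^ 3 := by ring
        _ ≤ _ := Nat.pow_le_pow_right (by have := hG.N800; omega) (by norm_num)
    rw [mul_one_div, ← mul_div_assoc, ← mul_div_assoc, div_le_one hG.Q0]
    exact_mod_cast h3
  have h3 := fw_val hG hO hk hw
  have hn : (1 : ℚ) ≤ nn G := by exact_mod_cast hG.n1
  have hk1 : (0 : ℚ) < ck G := by exact_mod_cast hG.k1
  have h4 : (nn G : ℚ) / ck G * Yq L G (init L G) ≤ nn G := by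
    rw [div_mul_eq_mul_div, div_le_iff₀ hk1]
    exact mul_le_mul_of_nonneg_left (init_Y hG) (by linarith)
  have h5 := mul_le_mul_of_nonneg_left (show ((cJ G).map (cj G (fwY L G))).sum +
      ((cJ G).length : ℚ) * (DD G * (nn G * (1 / QQ L G))) ≤
      (((cJ G).map w).sum : ℕ) + 3 * (nn G : ℚ) by linarith) hC
  rw [pot, init_W hG]
  linarith

theorem init_inv (hG : CtxOK L G) {O : Finset ℕ} (hO : ∀ i ∈ O, i ∈ cF G) (hk : O.card ≤ ck G)
    {w : ℕ → ℕ} (hw : ∀ j ∈ cJ G, ∃ i ∈ O, dd G j i ≤ w j)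
    (hs : ((cJ G).map w).sum ≤ (L + 1) * nn G) : Inv L M G (init L G) := by
  have hL : (200 : ℚ) ≤ L := by exact_mod_cast hG.L200
  refine ⟨fun i hi => (init_y_le hG hi).trans (min_le_left _ _), fun i hi h => ?_,
    fun j hj i hi => ?_, fun j hj => init_mass hG hj, init_Y hG, List.cons_ne_nil _ _,
    fun i hi => ?_, ?_, ?_⟩
  · refine (fw_feas hG).2.1 i hi ?_
    change 0 < (y0L L G).getD i 0 at h
    rw [y0L, getD_rmap hi] at h
    exact (fl_pos L G h).trans_le (min_le_right _ _)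
  · rw [init_x hj hi]
    exact div_le_div_of_nonneg_right (by exact_mod_cast fill_le L G (y0L L G) j i) hG.Q0.le
  · rw [List.mem_singleton.1 hi]
    have := hG.Fne
    cases h : cF G with
    | nil => exact absurd h this
    | cons a l => exact List.mem_cons_self
  · rw [init_W hG, Rat.cast_one, Real.exp_le_one_iff]
    have h1 : (((init L G).2.2.1.length : ℕ) : ℚ) = 1 := Nat.cast_one
    have h2 := init_Y hG
    have h3 : 0 ≤ vt L := by unfold vt; positivity
    exact_mod_cast mul_nonpos_of_nonneg_of_nonpos h3 (by linarith)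
  · refine (init_pot hG hO hk hw).trans ?_
    have h1 := (goodC M).c_two zero_le_one le_rfl
    have h2 : (200 : ℚ) / L ≤ 1 := by rw [div_le_one (by linarith)]; exact hL
    have h3 : ((((cJ G).map w).sum : ℕ) : ℚ) ≤ (L + 1) * nn G := by exact_mod_cast hs
    have hn : (0 : ℚ) ≤ nn G := Nat.cast_nonneg _
    have h4 : (cN M 1 + 200 / L) * ((((cJ G).map w).sum : ℕ) + 3 * (nn G : ℚ)) ≤
        11 / 4 * ((L + 4) * nn G) :=
      mul_le_mul (by linarith) (by linarith) (by positivity) (by norm_num)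
    nlinarith [mul_nonneg (sub_nonneg.2 hL) hn]

end Vale.Agent.P334
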