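import Vale.Agent.P334.Basic

/-! P334: the kernel and the choice of the radii.
PLAN. `ker`: unfold, `max_def`/`min_def`; for R = 0 the quotient is 0 so ker = 0.
okR .. 0 holds (ker 0 d = 0), so `Nat.findGreatest_spec` gives okR at `rad`: this is uq ≥ 0 and
(1 + 1/L) Rq ≤ dS.  `rad_alt`: let D = dS G S i, t0 = NN^5 L D, so t0 (L+1) = PP L D and t0 ≤ PP DD.
rad ≤ t0.  If rad = t0 then (1+1/L) Rq = D.  Otherwise t = rad, t+1 ≤ t0 ≤ PP DD and
`Nat.findGreatest_is_greatest` gives kmass (t+1) > 1.  If t = 0: ker (1/PP) d = 0 for d ≥ 1 (PP ≥ 1), so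
kmass 1 ≤ yq i ≤ 1 (only o = i has distance 0; pos), contradiction.  If t ≥ 1: for a natural number d,
ker ((t+1)/PP) d ≤ ker (t/PP) d + 6/PP (d = 0: both are min 1 (1/ka) = 1; d ≥ 1: the left side vanishes
unless R' = (t+1)/PP > 1, then R = t/PP ≥ 1/2, d < R' and (R'-d)/(ka R') - (R-d)/(ka R)
= d (R'-R)/(ka R R') ≤ (1/PP)/(ka R) ≤ 6/PP; clamps are 1-Lipschitz).  So uq ≤ 6 Yq/PP. -/

namespace Vale.Agent.P334

open Finset

variable {L M : ℕ} {G : Ctx} {s : St}

theorem ka_pos_kern : (0 : ℚ) < ka := by unfold ka; norm_num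

theorem ker0 (R d : ℚ) : 0 ≤ ker R d := le_max_left _ _
theorem ker1 (R d : ℚ) : ker R d ≤ 1 := max_le zero_le_one (min_le_left _ _)
theorem ker_zero_kern (d : ℚ) : ker 0 d = 0 := by simp [ker]
theorem ker_pos {R d : ℚ} (hR : 0 ≤ R) (h : 0 < ker R d) : d ≤ R * (1 - ka * ker R d) := by
  rcases hR.eq_or_lt with rfl | hR
  · rw [ker_zero_kern] at h; exact absurd h (lt_irrefl _)
  have hk : 0 < ka * R := mul_pos ka_pos_kern hR
  have h1 : ker R d ≤ (R - d) / (ka * R) := by
    unfold ker at h ⊢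
    rcases le_total (min 1 ((R - d) / (ka * R))) 0 with h0 | h0
    · rw [max_eq_left h0] at h; exact absurd h (lt_irrefl _)
    · rw [max_eq_right h0]; exact min_le_right _ _
  rw [le_div_iff₀ hk] at h1
  nlinarith
theorem ker_lt {R d : ℚ} (hR : 0 ≤ R) (hd : 0 ≤ d) (h : ker R d < 1) :
    R - d ≤ ka * R * ker R d := by
  rcases hR.eq_or_lt with rfl | hR
  · simp; exact hd
  have hk : 0 < ka * R := mul_pos ka_pos_kern hR
  have h1 : (R - d) / (ka * R) ≤ ker R d := by
    unfold ker at h ⊢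
    rcases le_total 1 ((R - d) / (ka * R)) with h0 | h0
    · rw [min_eq_left h0, max_eq_right zero_le_one] at h; exact absurd h (lt_irrefl _)
    · rw [min_eq_right h0]; exact le_max_right _ _
  rw [div_le_iff₀ hk] at h1
  nlinarith
theorem Rq0 (L : ℕ) (G : Ctx) (s : St) (i : ℕ) : 0 ≤ Rq L G s i := by
  unfold Rq; positivity

theorem okR_rad_kern (L : ℕ) (G : Ctx) (s : St) (i : ℕ) : okR L G s i (rad L G s i) := by
  unfold rad
  refine Nat.findGreatest_spec (Nat.zero_le _) ?_
  refine ⟨by simp, ?_⟩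
  unfold kmass
  simp [ker_zero_kern]

theorem uq_eq_kern (L : ℕ) (G : Ctx) (s : St) (i : ℕ) :
    uq L G s i = 1 - kmass L G s i (rad L G s i) := rfl

theorem uq0 (L : ℕ) (G : Ctx) (s : St) (i : ℕ) : 0 ≤ uq L G s i := by
  rw [uq_eq_kern]; linarith [(okR_rad_kern L G s i).2]
theorem uq1 (L : ℕ) (G : Ctx) (s : St) (i : ℕ) : uq L G s i ≤ 1 := by
  unfold uq
  have : 0 ≤ ∑ o ∈ range (nn G), yq L G s o * Kq L G s i o :=
    sum_nonneg fun o _ => mul_nonneg (yq0 L G s o) (ker0 _ _)
  linarith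

theorem PP_pos_kern (hG : CtxOK L G) : 0 < PP L G := by
  have := hG.N800
  unfold PP
  have h0 : 0 < NN L G := by omega
  positivity

theorem rad_le (hG : CtxOK L G) (s : St) (i : ℕ) :
    (1 + 1 / (L : ℚ)) * Rq L G s i ≤ δq G s i := by
  have h1 := (okR_rad_kern L G s i).1
  have hP : (0 : ℚ) < PP L G := by exact_mod_cast PP_pos_kern hG
  have hL : (0 : ℚ) < L := by have := hG.L200; exact_mod_cast (by omega : 0 < L)
  have h2 : (rad L G s i : ℚ) * (L + 1) ≤ PP L G * L * dS G s.2.2.1 i := by exact_mod_cast h1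
  unfold Rq δq
  have h3 : (1 + 1 / (L : ℚ)) * ((rad L G s i : ℚ) / PP L G) =
      (rad L G s i : ℚ) * (L + 1) / (PP L G * L) := by field_simp
  rw [h3, div_le_iff₀ (by positivity)]
  linarith

theorem clamp_lip_kern {a b e : ℚ} (he : 0 ≤ e) (h : a ≤ b + e) :
    max 0 (min 1 a) ≤ max 0 (min 1 b) + e := by
  simp only [max_def, min_def]
  split_ifs <;> linarith

theorem ker_step_kern {P : ℚ} (hP : 1 ≤ P) {t : ℕ} (ht : 1 ≤ t) (d : ℕ) :
    ker (((t + 1 : ℕ) : ℚ) / P) d ≤ ker ((t : ℚ) / P) d + 6 / P := by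
  have hP0 : 0 < P := by linarith
  have ht' : (1 : ℚ) ≤ t := by exact_mod_cast ht
  have h6 : 0 ≤ 6 / P := by positivity
  push_cast
  by_cases hd : ((t : ℚ) + 1) / P ≤ d
  · have : ker (((t : ℚ) + 1) / P) d = 0 := by
      unfold ker
      apply max_eq_left
      refine (min_le_right _ _).trans ?_
      apply div_nonpos_of_nonpos_of_nonneg (by linarith)
      have := ka_pos_kern
      positivity
    rw [this]; linarith [ker0 ((t : ℚ) / P) d]
  push Not at hd
  unfold ker
  apply clamp_lip_kern h6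
  have hk := ka_pos_kern
  have e1 : (((t : ℚ) + 1) / P - d) / (ka * (((t : ℚ) + 1) / P)) =
      1 / ka - d * P / (ka * (t + 1)) := by field_simp
  have e2 : ((t : ℚ) / P - d) / (ka * ((t : ℚ) / P)) = 1 / ka - d * P / (ka * t) := by
    field_simp
  rw [e1, e2]
  have e3 : (d : ℚ) * P / (ka * t) - d * P / (ka * (t + 1)) = d * P / (ka * (t * (t + 1))) := by
    field_simp; ring
  have e4 : (d : ℚ) * P / (ka * (t * (t + 1))) ≤ 6 / P := by
    rw [div_le_div_iff₀ (by positivity) hP0]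
    rw [lt_div_iff₀ hP0] at hd
    rcases Nat.eq_zero_or_pos d with rfl | hd1
    · simp; positivity
    have hd2 : (1 : ℚ) ≤ d := by exact_mod_cast hd1
    have hPt : P ≤ 2 * t := by nlinarith
    have hka : (2 : ℚ) ≤ 6 * ka := by unfold ka; norm_num
    have a1 : (d : ℚ) * P * P ≤ (t + 1) * (2 * t) :=
      mul_le_mul hd.le hPt hP0.le (by positivity)
    have a2 : (0 : ℚ) ≤ t * (t + 1) := by positivity
    nlinarith
  linarith

theorem rad_alt (hG : CtxOK L G) (h : Inv L M G s) {i : ℕ} (hi : i < nn G) :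
    (1 + 1 / (L : ℚ)) * Rq L G s i = δq G s i ∨ uq L G s i ≤ 6 * Yq L G s / PP L G := by
  have hPn := PP_pos_kern hG
  have hP : (0 : ℚ) < PP L G := by exact_mod_cast hPn
  have hP1 : (1 : ℚ) ≤ PP L G := by exact_mod_cast hPn
  have hL : (0 : ℚ) < L := by have := hG.L200; exact_mod_cast (by omega : 0 < L)
  set D := dS G s.2.2.1 i with hD
  set t := rad L G s i with ht
  set t0 := NN L G ^ 5 * L * D with ht0
  have e0 : t0 * (L + 1) = PP L G * L * D := by rw [ht0]; unfold PP; ring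
  have hDD : D ≤ DD G := dS_le G _ _
  have e1 : t0 ≤ PP L G * DD G := by
    rw [ht0]; unfold PP
    have : NN L G ^ 5 * L ≤ (L + 1) * NN L G ^ 5 := by nlinarith [Nat.zero_le (NN L G ^ 5)]
    exact Nat.mul_le_mul this hDD
  have h1 : t * (L + 1) ≤ t0 * (L + 1) := by rw [e0]; exact (okR_rad_kern L G s i).1
  have h2 : t ≤ t0 := Nat.le_of_mul_le_mul_right h1 (by omega)
  rcases h2.eq_or_lt with h3 | h3
  · left
    unfold Rq δq
    rw [← ht, ← hD, h3]
    have e0' : (t0 : ℚ) * (L + 1) = PP L G * L * D := by exact_mod_cast e0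
    field_simp
    linarith
  right
  have h4 : ¬ okR L G s i (t + 1) :=
    Nat.findGreatest_is_greatest (P := okR L G s i) (n := PP L G * DD G)
      (Nat.lt_succ_self _) (by omega)
  have h5 : 1 < kmass L G s i (t + 1) := by
    by_contra h5
    push Not at h5
    refine h4 ⟨?_, h5⟩
    rw [← hD, ← e0]
    exact Nat.mul_le_mul_right _ h3
  rcases Nat.eq_zero_or_pos t with h6 | h6
  · exfalso
    rw [h6] at h5
    have h7 : kmass L G s i (0 + 1) ≤ ∑ o ∈ range (nn G), if o = i then yq L G s o else 0 := by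
      unfold kmass
      refine sum_le_sum fun o ho => ?_
      split_ifs with hoi
      · exact mul_le_of_le_one_right (yq0 L G s o) (ker1 _ _)
      · have hd : 1 ≤ dd G i o := hG.pos i hi o (mem_range.1 ho) (Ne.symm hoi)
        have hd' : (1 : ℚ) ≤ dq G i o := by unfold dq; exact_mod_cast hd
        have : ker (((0 + 1 : ℕ) : ℚ) / PP L G) (dq G i o) = 0 := by
          unfold ker
          apply max_eq_left
          refine (min_le_right _ _).trans ?_
          have hk := ka_pos_kern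
          apply div_nonpos_of_nonpos_of_nonneg _ (by positivity)
          have : ((0 + 1 : ℕ) : ℚ) / PP L G ≤ 1 := by
            rw [div_le_one hP]; simpa using hP1
          linarith
        rw [this, mul_zero]
    rw [sum_ite_eq' (range (nn G)) i, if_pos (mem_range.2 hi)] at h7
    linarith [h.y1 i hi]
  have h7 : kmass L G s i (t + 1) ≤ kmass L G s i t + 6 * Yq L G s / PP L G := by
    have e : 6 * Yq L G s / PP L G = ∑ o ∈ range (nn G), yq L G s o * (6 / PP L G) := by
      rw [← sum_mul]; unfold Yq mass; ring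
    rw [e]
    unfold kmass
    rw [← sum_add_distrib]
    refine sum_le_sum fun o _ => ?_
    rw [← mul_add]
    exact mul_le_mul_of_nonneg_left (ker_step_kern hP1 h6 (dd G i o)) (yq0 L G s o)
  rw [uq_eq_kern, ← ht]
  linarith

end Vale.Agent.P334
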