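import Vale.Agent.P334.CostL

/-! P334: one Lloyd step from a small perturbation of a solution.
PLAN. S = lloyd I W = W.map f, f w ∈ F minimises s w f = sum over clients j with near W j = w of dist j f.
costL S ≤ sum_j dist j (f (near W j)) = sum_(w ∈ W.toFinset) s w (f w) ≤ sum_w s w (π w)
= sum_j dist j (π (near W j)) (`Finset.sum_fiberwise`-type regrouping).  For a client j let w = near W j,
o = π w, o* ∈ O attain the inf', w* ∈ W with π w* = o*.  If o = o* done.  Else with D = dist o o*: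
dist j o ≤ dist j w + ε D ≤ dist j w* + ε D ≤ dist j o* + 2 ε D ≤ dist j o* + 2ε (dist j o + dist j o*). -/

namespace Vale.Agent.P334

open Finset

variable {I : Inst}

/-- the cost of serving the cell of `w` from `f` -/
def llS (I : Inst) (W : List ℕ) (w f : ℕ) : ℚ :=
  (I.2.1.map fun j => if near I W j = w then dist I j f else 0).sum

/-- the best centre of the cell of `w` -/
def llF (I : Inst) (W : List ℕ) (w : ℕ) : ℕ := amin (llS I W w) (I.2.2.1.headD 0) I.2.2.1

theorem ll_eq (W : List ℕ) : lloyd I W = W.map (llF I W) := rfl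

theorem ll_mem (hI : Valid I) (W : List ℕ) (w : ℕ) : llF I W w ∈ I.2.2.1 := by
  obtain ⟨a, t, h⟩ := List.exists_cons_of_ne_nil hI.Fne
  rcases List.mem_cons.1 (amin_mem' (llS I W w) (I.2.2.1.headD 0) I.2.2.1) with h1 | h1
  · rw [llF, h1, h]
    exact List.mem_cons_self
  · exact h1

theorem ll_sum (hI : Valid I) {W : List ℕ} (hW : W ≠ []) (g : ℕ → ℕ) :
    ∑ w ∈ W.toFinset, llS I W w (g w) = ∑ j ∈ I.2.1.toFinset, dist I j (g (near I W j)) := by
  simp only [llS, ← List.sum_toFinset _ hI.clients.1]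
  rw [sum_comm]
  refine sum_congr rfl fun j _ => ?_
  rw [sum_ite_eq, if_pos (List.mem_toFinset.2 (near_mem I hW j))]

theorem lloyd_feas (hI : Valid I) {W : List ℕ} (hW : W ≠ []) :
    lloyd I W ≠ [] ∧ (∀ i ∈ lloyd I W, i ∈ I.2.2.1) ∧
      (lloyd I W).toFinset.card ≤ W.toFinset.card := by
  rw [ll_eq]
  refine ⟨by simpa using hW, fun i hi => ?_, ?_⟩
  · obtain ⟨w, -, rfl⟩ := List.mem_map.1 hi
    exact ll_mem hI W w
  · refine le_trans (card_le_card fun i hi => ?_) (card_image_le (f := llF I W))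
    obtain ⟨w, hw, rfl⟩ := List.mem_map.1 (List.mem_toFinset.1 hi)
    exact mem_image_of_mem _ (List.mem_toFinset.2 hw)

theorem lloyd_cost (hI : Valid I) {W : List ℕ} (hWF : ∀ w ∈ W, w ∈ I.2.2.1)
    {O : Finset ℕ} (hO : O.Nonempty) (hF : O ⊆ I.2.2.1.toFinset) {π : ℕ → ℕ}
    (h1 : ∀ w ∈ W, π w ∈ O) (h2 : ∀ o ∈ O, ∃ w ∈ W, π w = o) {ε : ℚ} (ε0 : 0 ≤ ε)
    (h3 : ∀ w ∈ W, ∀ o ∈ O, o ≠ π w → dist I w (π w) ≤ ε * dist I (π w) o) :
    (1 - 2 * ε) * costL I (lloyd I W) ≤ (1 + 2 * ε) * cost I O hO := by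
  have hW : W ≠ [] := by
    obtain ⟨o, ho⟩ := hO
    obtain ⟨w, hw, -⟩ := h2 o ho
    exact List.ne_nil_of_mem hw
  have hc : ∀ j ∈ I.2.1.toFinset, j < I.1.length :=
    fun j hj => hI.clients.2 j (List.mem_toFinset.1 hj)
  have ho : ∀ o ∈ O, o < I.1.length := fun o h => hI.facilities.2 o (List.mem_toFinset.1 (hF h))
  have hw : ∀ w ∈ W, w < I.1.length := fun w h => hI.facilities.2 w (hWF w h)
  have a1 : costL I (lloyd I W) ≤ ∑ j ∈ I.2.1.toFinset, dist I j (π (near I W j)) := by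
    rw [costL, ← List.sum_toFinset _ hI.clients.1, ← ll_sum hI hW π]
    refine le_trans (sum_le_sum fun j _ => near_le I (i := llF I W (near I W j))
      (List.mem_map_of_mem (near_mem I hW j)) j) ?_
    rw [← ll_sum hI hW (llF I W)]
    exact sum_le_sum fun w h => amin_le' _ _ _ _ (List.mem_cons_of_mem _
      (List.mem_toFinset.1 (hF (h1 w (List.mem_toFinset.1 h)))))
  have a2 : ∀ j ∈ I.2.1.toFinset,
      (1 - 2 * ε) * dist I j (π (near I W j)) ≤ (1 + 2 * ε) * O.inf' hO (dist I j) := by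
    intro j hj
    obtain ⟨o, b1, b2⟩ := exists_mem_eq_inf' hO (dist I j)
    obtain ⟨w, b3, rfl⟩ := h2 o b1
    have b4 := near_mem I hW j
    have b5 := h1 _ b4
    have b6 := hI.nonneg (hc j hj) (ho _ b1)
    rw [b2]
    by_cases e : π w = π (near I W j)
    · rw [← e]
      nlinarith [mul_nonneg ε0 b6]
    have c1 := h3 _ b4 _ b1 e
    have c2 := h3 _ b3 _ b5 (Ne.symm e)
    have c3 := near_le I b3 j
    have c4 := hI.triangle j (hc j hj) _ (hw _ b4) _ (ho _ b5)
    have c5 := hI.triangle j (hc j hj) _ (ho _ b1) _ (hw _ b3)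
    have c6 := hI.triangle _ (ho _ b5) j (hc j hj) _ (ho _ b1)
    rw [hI.symm _ (ho _ b1) _ (ho _ b5)] at c2
    rw [hI.symm _ (ho _ b1) _ (hw _ b3)] at c5
    rw [hI.symm _ (ho _ b5) _ (hc j hj)] at c6
    nlinarith [mul_le_mul_of_nonneg_left c6 ε0]
  rcases le_total 0 (1 - 2 * ε) with h | h
  · refine (mul_le_mul_of_nonneg_left a1 h).trans ?_
    rw [cost, mul_sum, mul_sum]
    exact sum_le_sum a2
  · obtain ⟨b1, b2, -⟩ := lloyd_feas hI hW
    have b3 : (lloyd I W).toFinset.Nonempty := (List.toFinset_nonempty_iff _).2 b1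
    have b4 := cost_nonneg hI b3 fun i hi => List.mem_toFinset.2 (b2 i (List.mem_toFinset.1 hi))
    rw [← costL_eq hI b3] at b4
    exact (mul_nonpos_of_nonpos_of_nonneg h b4).trans
      (mul_nonneg (by linarith) (cost_nonneg hI hO hF))

end Vale.Agent.P334
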