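import Vale.Agent.P334.PKit

/-! P334: one step of the process is polynomial time. -/

namespace Vale.Agent.P334

open Vale.Agent.Lib.H23 Vale.Agent.P338 Finset

variable {α : Type} [Enc α] (L M : ℕ) {G : α → Ctx} {s : α → St}

@[fun_prop] theorem pt_yq (hG : PT G) (hs : PT s) {i : α → ℕ} (hi : PT i) :
    PT fun x => yq L (G x) (s x) (i x) := by unfold yq; fun_prop
@[fun_prop] theorem pt_xq (hG : PT G) (hs : PT s) {i j : α → ℕ} (hj : PT j) (hi : PT i) :
    PT fun x => xq L (G x) (s x) (j x) (i x) := by unfold xq; fun_prop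
@[fun_prop] theorem pt_Wq (hG : PT G) (hs : PT s) : PT fun x => Wq L (G x) (s x) := by
  unfold Wq; fun_prop
@[fun_prop] theorem pt_Yq (hG : PT G) (hs : PT s) : PT fun x => Yq L (G x) (s x) := by
  unfold Yq; fun_prop
@[fun_prop] theorem pt_ker {R d : α → ℚ} (hR : PT R) (hd : PT d) :
    PT fun x => ker (R x) (d x) := by unfold ker; fun_prop
@[fun_prop] theorem pt_kmass (hG : PT G) (hs : PT s) {i t : α → ℕ} (hi : PT i) (ht : PT t) :
    PT fun x => kmass L (G x) (s x) (i x) (t x) := by unfold kmass; fun_prop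
@[fun_prop] theorem pt_rad (hG : PT G) (hs : PT s) {i : α → ℕ} (hi : PT i) :
    PT fun x => rad L (G x) (s x) (i x) := by
  unfold rad
  refine pt_findGreatest (P := fun x => okR L (G x) (s x) (i x)) ?_ (by fun_prop)
  have h : PT fun p : α × ℕ => decide (p.2 * (L + 1) ≤
      PP L (G p.1) * L * dS (G p.1) (s p.1).2.2.1 (i p.1) ∧
      kmass L (G p.1) (s p.1) (i p.1) p.2 ≤ 1) := by fun_prop
  exact h.congr fun _ => decide_eq_decide.2 Iff.rfl
@[fun_prop] theorem pt_Rq (hG : PT G) (hs : PT s) {i : α → ℕ} (hi : PT i) :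
    PT fun x => Rq L (G x) (s x) (i x) := by unfold Rq; fun_prop
@[fun_prop] theorem pt_Kq (hG : PT G) (hs : PT s) {i o : α → ℕ} (hi : PT i) (ho : PT o) :
    PT fun x => Kq L (G x) (s x) (i x) (o x) := by unfold Kq; fun_prop
@[fun_prop] theorem pt_uq (hG : PT G) (hs : PT s) {i : α → ℕ} (hi : PT i) :
    PT fun x => uq L (G x) (s x) (i x) := by unfold uq; fun_prop
@[fun_prop] theorem pt_Mq (hG : PT G) (hs : PT s) {i : α → ℕ} (hi : PT i) :
    PT fun x => Mq L (G x) (s x) (i x) := by unfold Mq; fun_prop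
@[fun_prop] theorem pt_βq (hG : PT G) (hs : PT s) {i : α → ℕ} (hi : PT i) :
    PT fun x => βq L (G x) (s x) (i x) := by unfold βq; fun_prop
@[fun_prop] theorem pt_Jq (hG : PT G) (hs : PT s) {i : α → ℕ} (hi : PT i) :
    PT fun x => Jq L (G x) (s x) (i x) := by unfold Jq; fun_prop
@[fun_prop] theorem pt_Dm (hG : PT G) (hs : PT s) : PT fun x => Dm L (G x) (s x) := by
  unfold Dm; fun_prop
@[fun_prop] theorem pt_lev (hG : PT G) (hs : PT s) {e i : α → ℕ} (he : PT e) (hi : PT i) :
    PT fun x => lev L (G x) (s x) (e x) (i x) := by unfold lev; fun_prop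
@[fun_prop] theorem pt_jump (hG : PT G) (hs : PT s) {e : α → ℕ} (he : PT e) :
    PT fun x => jump L (G x) (s x) (e x) := by unfold jump; fun_prop
@[fun_prop] theorem pt_nS (hG : PT G) (hs : PT s) {e : α → ℕ} (he : PT e) :
    PT fun x => nS (G x) (s x) (e x) := by unfold nS; fun_prop
@[fun_prop] theorem pt_xo (hG : PT G) (hs : PT s) {e j i : α → ℕ} (he : PT e) (hj : PT j)
    (hi : PT i) : PT fun x => xo L (G x) (s x) (e x) (j x) (i x) := by unfold xo kill; fun_prop
@[fun_prop] theorem pt_xd (hG : PT G) (hs : PT s) {e j i : α → ℕ} (he : PT e) (hj : PT j)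
    (hi : PT i) : PT fun x => xd L (G x) (s x) (e x) (j x) (i x) := by
  unfold xd kill dlev; fun_prop
@[fun_prop] theorem pt_ph (hG : PT G) {y : α → ℕ → ℚ} (hy : PT fun p : α × ℕ => y p.1 p.2)
    {j : α → ℕ} {δ : α → ℚ} (hj : PT j) (hδ : PT δ) :
    PT fun x => ph L M (G x) (y x) (j x) (δ x) :=
  pt_phi M _ _ (pu_nn hG) hy (by fun_prop) hδ
@[fun_prop] theorem pt_xn (hG : PT G) (hs : PT s) {e j i : α → ℕ} (he : PT e) (hj : PT j)
    (hi : PT i) : PT fun x => xn L M (G x) (s x) (e x) (j x) (i x) := by unfold xn; fun_prop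
@[fun_prop] theorem pt_wf (hG : PT G) (hs : PT s) {e : α → ℕ} (he : PT e) :
    PT fun x => wf L (G x) (s x) (e x) := by unfold wf; fun_prop
@[fun_prop] theorem pt_ev (hG : PT G) (hs : PT s) {e : α → ℕ} (he : PT e) :
    PT fun x => ev L M (G x) (s x) (e x) := by unfold ev kill; fun_prop
@[fun_prop] theorem pt_pot (hG : PT G) (hs : PT s) : PT fun x => pot L M (G x) (s x) := by
  unfold pot δq; fun_prop
@[fun_prop] theorem pt_step (hG : PT G) (hs : PT s) : PT fun x => step L M (G x) (s x) := by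
  unfold step; fun_prop

end Vale.Agent.P334
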