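import Vale.Agent.P334.ADefs

/-! P334: more polynomial time operations. -/

namespace Vale.Agent.P334

open Vale.Agent.Lib.H23 Vale.Agent.P338 Finset Polynomial

variable {α β : Type} [Enc α] [Enc β]

/-- computable in unary -/
@[fun_prop] def PU (u : α → ℕ) : Prop := PT fun x => (⟨u x⟩ : Un)

@[fun_prop] theorem pu_const (k : ℕ) : PU fun _ : α => k := PT.const _
@[fun_prop] theorem pu_un {u : α → Un} (hu : PT u) : PU fun x => (u x).n := hu
@[fun_prop] theorem pu_add {u v : α → ℕ} (hu : PU u) (hv : PU v) : PU fun x => u x + v x :=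
  PT_unAdd hu hv
@[fun_prop] theorem pu_mul {u v : α → ℕ} (hu : PU u) (hv : PU v) : PU fun x => u x * v x :=
  PT_unMul hu hv
@[fun_prop] theorem pu_pow {u : α → ℕ} (hu : PU u) (k : ℕ) : PU fun x => u x ^ k := by
  induction k with
  | zero => exact (pu_const 1 : PU fun _ : α => 1)
  | succ k ih => exact pu_mul ih hu
@[fun_prop] theorem pu_len {l : α → List β} (hl : PT l) : PU fun x => (l x).length := PT_unLen hl
theorem PU.pt {u : α → ℕ} (hu : PU u) : PT u := PT_unn hu
theorem PU.le {u : α → ℕ} (hu : PU u) : ∃ Q : ℕ[X], ∀ x, u x ≤ Q.eval (sz x) := by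
  obtain ⟨Q, hQ⟩ := PT.size_le hu
  exact ⟨Q, fun x => by have := hQ x; rw [sz_un] at this; dsimp only at this; omega⟩
@[fun_prop] theorem pt_mkUn {u : α → ℕ} (hu : PU u) : PT fun x => (⟨u x⟩ : Un) := hu

@[fun_prop] theorem pt_lrange {u : α → ℕ} (hu : PU u) : PT fun x => List.range (u x) :=
  PT_range hu

@[fun_prop] theorem pt_fsumq {u : α → ℕ} {f : α → ℕ → ℚ} (hu : PU u)
    (hf : PT fun p : α × ℕ => f p.1 p.2) : PT fun x => ∑ i ∈ range (u x), f x i :=
  (pt_qsum (PT.map hf (pt_lrange hu))).congr fun x => by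
    rw [← List.sum_toFinset _ List.nodup_range, List.toFinset_range]
@[fun_prop] theorem pt_fsumn {u : α → ℕ} {f : α → ℕ → ℕ} (hu : PU u)
    (hf : PT fun p : α × ℕ => f p.1 p.2) : PT fun x => ∑ i ∈ range (u x), f x i :=
  (PT_sum (PT.map hf (pt_lrange hu))).congr fun x => by
    rw [← List.sum_toFinset _ List.nodup_range, List.toFinset_range]

@[fun_prop] theorem pt_if {p : α → Prop} [∀ x, Decidable (p x)] {f g : α → β}
    (hp : PT fun x => decide (p x)) (hf : PT f) (hg : PT g) :
    PT fun x => if p x then f x else g x :=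
  pt_ite hp (fun _ => decide_eq_true_iff) hf hg

theorem pt_nlt {f g : α → ℕ} (hf : PT f) (hg : PT g) : PT fun x => decide (f x < g x) :=
  PT.ltb hf hg
theorem pt_neq {f g : α → ℕ} (hf : PT f) (hg : PT g) : PT fun x => decide (f x = g x) :=
  PT.eqb hf hg
theorem pt_nle {f g : α → ℕ} (hf : PT f) (hg : PT g) : PT fun x => decide (f x ≤ g x) :=
  (PT.ltb hg hf).not.congr fun x => by
    by_cases h : f x ≤ g x
    · simp [h]
    · simp [h, not_le.1 h]
theorem pt_qle {f g : α → ℚ} (hf : PT f) (hg : PT g) : PT fun x => decide (f x ≤ g x) :=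
  (pt_qlt hg hf).not.congr fun x => by
    by_cases h : f x ≤ g x
    · simp [h]
    · simp [h, not_le.1 h]
theorem pt_dand {p q : α → Prop} [∀ x, Decidable (p x)] [∀ x, Decidable (q x)]
    (hp : PT fun x => decide (p x)) (hq : PT fun x => decide (q x)) :
    PT fun x => decide (p x ∧ q x) := (hp.and hq).congr fun _ => Bool.decide_and _ _
theorem pt_dor {p q : α → Prop} [∀ x, Decidable (p x)] [∀ x, Decidable (q x)]
    (hp : PT fun x => decide (p x)) (hq : PT fun x => decide (q x)) :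
    PT fun x => decide (p x ∨ q x) := (hp.or hq).congr fun _ => Bool.decide_or _ _
theorem pt_dnot {p : α → Prop} [∀ x, Decidable (p x)]
    (hp : PT fun x => decide (p x)) : PT fun x => decide (¬ p x) :=
  hp.not.congr fun _ => decide_not
theorem pt_mem {a : α → ℕ} {l : α → List ℕ} (ha : PT a) (hl : PT l) :
    PT fun x => decide (a x ∈ l x) :=
  (PT.any (f := fun x b => eqb (a x) b) (by fun_prop) hl).congr fun x => by
    rw [Bool.eq_iff_iff]; simp
attribute [fun_prop] pt_nlt pt_neq pt_nle pt_qle pt_dand pt_dor pt_dnot pt_mem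

@[fun_prop] theorem pt_amin {f : α → β → ℚ} {a : α → β} {l : α → List β}
    (hf : PT fun p : α × β => f p.1 p.2) (ha : PT a) (hl : PT l) :
    PT fun x => amin (f x) (a x) (l x) := by
  have h1 : PT fun p : α × β × β => f p.1 p.2.1 :=
    PT.comp hf (g := fun p : α × β × β => (p.1, p.2.1)) (by fun_prop)
  have h2 : PT fun p : α × β × β => f p.1 p.2.2 :=
    PT.comp hf (g := fun p : α × β × β => (p.1, p.2.2)) (by fun_prop)
  refine PT.foldl' (f := fun x b c => if f x c < f x b then c else b)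
    (pt_if (pt_qlt h2 h1) (by fun_prop) (by fun_prop)) hl ha ⟨X, fun x s c => ?_⟩
  rw [eval_X]
  split_ifs <;> omega

theorem findGreatest_foldl (P : ℕ → Prop) [DecidablePred P] (n : ℕ) : Nat.findGreatest P n =
    (List.range (n + 1)).foldl (fun b t => if P t then t else b) 0 := by
  induction n with
  | zero => simp
  | succ n ih => rw [List.range_succ, List.foldl_append, ← ih, Nat.findGreatest_succ]; rfl

theorem pt_findGreatest {P : α → ℕ → Prop} [∀ x, DecidablePred (P x)] {u : α → ℕ}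
    (hP : PT fun p : α × ℕ => decide (P p.1 p.2)) (hu : PU u) :
    PT fun x => Nat.findGreatest (P x) (u x) := by
  have h2 : PT fun p : α × ℕ × ℕ => decide (P p.1 p.2.2) :=
    PT.comp hP (g := fun p : α × ℕ × ℕ => (p.1, p.2.2)) (by fun_prop)
  refine (PT.foldl' (f := fun x b t => if P x t then t else b) (i := fun _ => 0)
    (l := fun x => List.range (u x + 1))
    (pt_if h2 (by fun_prop) (by fun_prop)) (by fun_prop) (by fun_prop)
    ⟨X, fun x s c => ?_⟩).congr fun x => findGreatest_foldl _ _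
  rw [eval_X]
  split_ifs <;> omega

theorem pt_ifloor {f : α → ℚ} (hf : PT f) : PT fun x => ⌊f x⌋ :=
  (PT_iediv (ratPT_num hf) (ratPT_den hf).natCast).congr fun _ => Rat.floor_def'
@[fun_prop] theorem pt_nfloor {f : α → ℚ} (hf : PT f) : PT fun x => ⌊f x⌋₊ :=
  (pt_ifloor hf).toNat.congr fun _ => (Int.floor_toNat _).symm
@[fun_prop] theorem pt_nceil {f : α → ℚ} (hf : PT f) : PT fun x => ⌈f x⌉₊ :=
  (pt_ifloor (pt_qneg hf)).neg.toNat.congr fun _ => by
    rw [Int.floor_neg, neg_neg, Int.ceil_toNat]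

@[fun_prop] theorem pt_foldr_min {l : α → List ℕ} {d : α → ℕ} (hl : PT l) (hd : PT d) :
    PT fun x => (l x).foldr min (d x) := by
  refine (PT.foldl' (f := fun _ b a => min a b) (by fun_prop) hl.reverse hd
    ⟨X, fun x s c => ?_⟩).congr fun x => List.foldl_reverse.symm
  rw [eval_X]
  rcases min_choice c s with h | h <;> rw [h] <;> omega

@[fun_prop] theorem pt_zeta {f : α → ℚ} (hf : PT f) : PT fun x => zeta (f x) := by
  unfold zeta; fun_prop
@[fun_prop] theorem pt_tau {f : α → ℚ} (hf : PT f) : PT fun x => tau (f x) := by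
  unfold tau; fun_prop
@[fun_prop] theorem pt_tcl {f g : α → ℚ} (hf : PT f) (hg : PT g) :
    PT fun x => tcl (f x) (g x) := by
  unfold tcl; fun_prop
@[fun_prop] theorem pt_cN (M : ℕ) {f : α → ℚ} (hf : PT f) : PT fun x => cN M (f x) := by
  unfold cN cU
  refine pt_qsub (by fun_prop) (pt_qmul (by fun_prop) ?_)
  induction M with
  | zero => exact (PT.const 0).congr fun _ => sum_range_zero _
  | succ M ih => exact (pt_qadd ih (by fun_prop)).congr fun _ => sum_range_succ _ _

@[fun_prop] theorem pt_mass {n : α → ℕ} {y : α → ℕ → ℚ} (hn : PU n)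
    (hy : PT fun p : α × ℕ => y p.1 p.2) : PT fun x => mass (n x) (y x) := pt_fsumq hn hy

theorem pt_phi (M : ℕ) (ga tp : ℚ) {n : α → ℕ} {y d : α → ℕ → ℚ} {δ : α → ℚ} (hn : PU n)
    (hy : PT fun p : α × ℕ => y p.1 p.2) (hd : PT fun p : α × ℕ => d p.1 p.2) (hδ : PT δ) :
    PT fun x => phi (cN M) ga tp (n x) (y x) (d x) (δ x) := by
  have h1 : PT fun x => mass (n x) (y x) := pt_mass hn hy
  have h2 : PT fun x => acost (n x) (y x) (d x) := pt_fsumq hn (pt_qmul hy hd)
  have h3 : PT fun x => tcost (n x) (y x) (d x) (δ x) :=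
    pt_fsumq hn (pt_qmul hy (pt_tcl hd (PT.comp hδ PT.fst')))
  unfold phi phi0
  exact pt_qadd (pt_qadd (pt_qadd (pt_qadd (pt_qmul (pt_cN M h1) h2)
    (pt_qmul (pt_qsub (PT.const _) h1) hδ)) (pt_qmul (pt_tau h1) h3))
    (pt_qmul (PT.const _) h2)) (pt_qmul (PT.const _)
      (pt_qmul (pt_qmul h1 (pt_qsub (PT.const _) h1)) hδ))

/-! ### the context -/

variable {G : α → Ctx}

@[fun_prop] theorem pt_dd (hG : PT G) {u v : α → ℕ} (hu : PT u) (hv : PT v) :
    PT fun x => dd (G x) (u x) (v x) := by unfold dd; fun_prop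
@[fun_prop] theorem pt_dq (hG : PT G) {u v : α → ℕ} (hu : PT u) (hv : PT v) :
    PT fun x => dq (G x) (u x) (v x) := by unfold dq; fun_prop
@[fun_prop] theorem pt_cJ (hG : PT G) : PT fun x => cJ (G x) := by unfold cJ; fun_prop
@[fun_prop] theorem pt_cF (hG : PT G) : PT fun x => cF (G x) := by unfold cF; fun_prop
@[fun_prop] theorem pt_ck (hG : PT G) : PT fun x => ck (G x) := by unfold ck; fun_prop
@[fun_prop] theorem pu_nn (hG : PT G) : PU fun x => nn (G x) := pu_un (by fun_prop)
@[fun_prop] theorem pu_DD (hG : PT G) : PU fun x => DD (G x) := pu_un (by fun_prop)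
@[fun_prop] theorem pu_NN (L : ℕ) (hG : PT G) : PU fun x => NN L (G x) := by
  unfold NN; fun_prop
@[fun_prop] theorem pu_PP (L : ℕ) (hG : PT G) : PU fun x => PP L (G x) := by
  unfold PP; fun_prop
@[fun_prop] theorem pt_nn (hG : PT G) : PT fun x => nn (G x) := (pu_nn hG).pt
@[fun_prop] theorem pt_DD (hG : PT G) : PT fun x => DD (G x) := (pu_DD hG).pt
@[fun_prop] theorem pt_NN (L : ℕ) (hG : PT G) : PT fun x => NN L (G x) := (pu_NN L hG).pt
@[fun_prop] theorem pt_PP (L : ℕ) (hG : PT G) : PT fun x => PP L (G x) := (pu_PP L hG).pt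
@[fun_prop] theorem pt_LL (L : ℕ) (hG : PT G) : PT fun x => LL L (G x) := by
  unfold LL; fun_prop
@[fun_prop] theorem pt_QQ (L : ℕ) (hG : PT G) : PT fun x => QQ L (G x) := by
  unfold QQ; fun_prop
@[fun_prop] theorem pt_dS (hG : PT G) {S : α → List ℕ} {v : α → ℕ} (hS : PT S) (hv : PT v) :
    PT fun x => dS (G x) (S x) (v x) := by unfold dS; fun_prop
@[fun_prop] theorem pt_fl (L : ℕ) (hG : PT G) {v : α → ℚ} (hv : PT v) :
    PT fun x => fl L (G x) (v x) := by unfold fl; fun_prop

end Vale.Agent.P334
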