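import Vale.Agent.P334.PEv
import Vale.Agent.P334.Basic

/-! P334: the whole process is polynomial time. -/

namespace Vale.Agent.P334

open Vale.Agent.Lib.H23 Vale.Agent.P338 Finset Polynomial

variable {α : Type} [Enc α] (L M : ℕ) {G : α → Ctx}

theorem sz_nat_self {a B : ℕ} (h : a ≤ B) : sz a ≤ 4 * B + 1 :=
  sz_nat_le (h.trans_lt Nat.lt_two_pow_self)

theorem sz_rmap {β : Type} [Enc β] (n : ℕ) (f : ℕ → β) {B : ℕ} (h : ∀ i, sz (f i) ≤ B) :
    sz ((List.range n).map f) ≤ n * (B + 1) + 1 := by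
  have := sz_list_le (l := (List.range n).map f) (B := B) fun a ha => by
    obtain ⟨i, -, rfl⟩ := List.mem_map.1 ha
    exact h i
  simpa using this

@[fun_prop] theorem pt_yb (hG : PT G) {y : α → ℕ → ℚ} (hy : PT fun p : α × ℕ => y p.1 p.2)
    {j r : α → ℕ} (hj : PT j) (hr : PT r) : PT fun x => yb (G x) (y x) (j x) (r x) := by
  unfold yb; fun_prop
@[fun_prop] theorem pt_hd {a b : α → ℚ} (ha : PT a) (hb : PT b) :
    PT fun x => hd (a x) (b x) := by unfold hd; fun_prop
@[fun_prop] theorem pt_grad (hG : PT G) {y : α → ℕ → ℚ} (hy : PT fun p : α × ℕ => y p.1 p.2)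
    {i : α → ℕ} (hi : PT i) : PT fun x => grad (G x) (y x) (i x) := by
  unfold grad; fun_prop
@[fun_prop] theorem pt_fwy (hG : PT G) {t i : α → ℕ} {c : α → List ℕ} (ht : PT t) (hc : PT c)
    (hi : PT i) : PT fun x => fwy (G x) (t x) (c x) (i x) := by unfold fwy; fun_prop
@[fun_prop] theorem pt_fwStep (hG : PT G) {t : α → ℕ} {c : α → List ℕ} (hc : PT c) (ht : PT t) :
    PT fun x => fwStep (G x) (c x) (t x) := by
  have h : PT fun x => fwPick (G x) (fwy (G x) (t x) (c x)) := by
    unfold fwPick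
    exact pt_amin (pt_grad (by fun_prop) (by fun_prop) (by fun_prop)) (by fun_prop) (by fun_prop)
  unfold fwStep
  exact PT.map (PT.add (by fun_prop)
    (pt_if (pt_neq (by fun_prop) (PT.comp h PT.fst')) (by fun_prop) (by fun_prop))) (by fun_prop)

theorem fw_fold_bd (G : Ctx) (T : ℕ) (l : List ℕ) (hl : ∀ t ∈ l, t < T) : ∀ (cn : List ℕ) (B : ℕ),
    cn.length ≤ nn G → (∀ a ∈ cn, a ≤ B) → (l.foldl (fwStep G) cn).length ≤ nn G ∧
      ∀ a ∈ l.foldl (fwStep G) cn, a ≤ B + l.length * T := by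
  induction l with
  | nil => intro cn B h1 h2; simpa using ⟨h1, h2⟩
  | cons t l ih =>
    intro cn B h1 h2
    have ht := hl t (by simp)
    obtain ⟨h3, h4⟩ := ih (fun a ha => hl a (by simp [ha])) (fwStep G cn t) (B + T)
      (by simp [fwStep]) (fun a ha => by
        obtain ⟨i, -, rfl⟩ := List.mem_map.1 ha
        have : cn.getD i 0 ≤ B := by
          rw [List.getD_eq_getElem?_getD]
          cases h : cn[i]? with
          | none => simp
          | some b => exact h2 b (List.mem_of_getElem? h)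
        split_ifs <;> omega)
    refine ⟨h3, fun a ha => (h4 a ha).trans (le_of_eq ?_)⟩
    rw [List.length_cons]; ring

theorem pt_fwCnt (hG : PT G) {T : α → ℕ} (hT : PU T) : PT fun x => fwCnt (G x) (T x) := by
  obtain ⟨Q, hQ⟩ := PU.le (u := fun x => nn (G x) * (4 * (T x * T x) + 1 + 1) + 1) (by fun_prop)
  unfold fwCnt
  refine PT.foldl (f := fun x => fwStep (G x)) (by fun_prop) (by fun_prop) (by fun_prop)
    ⟨Q, fun x k => le_trans ?_ (hQ x)⟩
  obtain ⟨h1, h2⟩ := fw_fold_bd (G x) (T x) ((List.range (T x)).take k)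
    (fun t ht => List.mem_range.1 (List.mem_of_mem_take ht)) [] 0 (by simp) (by simp)
  have h3 : ((List.range (T x)).take k).length * T x ≤ T x * T x :=
    Nat.mul_le_mul_right _ (by simp)
  refine (sz_list_le (B := 4 * (T x * T x) + 1) fun a ha =>
    sz_nat_self ((h2 a ha).trans (by omega))).trans ?_
  exact Nat.add_le_add_right (Nat.mul_le_mul_right _ h1) _

@[fun_prop] theorem pt_y0L (hG : PT G) : PT fun x => y0L L (G x) := by
  have h : PT fun x => fwCnt (G x) (NN L (G x) ^ 6) := pt_fwCnt hG (by fun_prop)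
  unfold y0L y0 fwY
  exact PT.map (pt_fl L (by fun_prop) (pt_qmin (PT.const _)
    (pt_fwy (by fun_prop) (by fun_prop) (PT.comp h PT.fst') (by fun_prop)))) (by fun_prop)
@[fun_prop] theorem pt_x0 (hG : PT G) {y : α → List ℕ} {j i : α → ℕ} (hy : PT y) (hj : PT j)
    (hi : PT i) : PT fun x => x0 L (G x) (y x) (j x) (i x) := by unfold x0; fun_prop
theorem pt_init (hG : PT G) : PT fun x => init L (G x) := by unfold init; fun_prop

theorem sz_ev_le (G : Ctx) (s : St) {e : ℕ} (he : e ≤ nn G) : sz (ev L M G s e) ≤ sz s +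
    ((nn G + 1) * (nn G * (4 * NN L G ^ 10 + 1 + 1) + 1 + 1) + 4 * nn G +
      4 * (NN L G ^ 10 * NN L G) + 8) := by
  have hf : ∀ v, sz (fl L G v) ≤ 4 * NN L G ^ 10 + 1 := fun v => sz_nat_self (min_le_left _ _)
  have h1 := sz_rmap (nn G) (fun i => fl L G (kill (yq L G s) (lev L G s e) i)) fun _ => hf _
  have h2 := sz_rmap (nn G) (fun j => (List.range (nn G)).map fun i => fl L G (xn L M G s e j i))
    fun j => sz_rmap (nn G) _ fun _ => hf _
  have h3 : sz (nS G s e) ≤ sz s + 4 * nn G + 2 := by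
    have h4 : sz s.2.2.1 ≤ sz s := by
      rw [sz_prod s, sz_prod s.2, sz_prod s.2.2]; omega
    have h5 := sz_nat_self he
    unfold nS
    split_ifs
    · rw [sz_cons]; omega
    · omega
  have h4 : sz (min (QQ L G * NN L G) ⌈(QQ L G : ℚ) * (Wq L G s * wf L G s e)⌉₊) ≤
      4 * (NN L G ^ 10 * NN L G) + 1 := sz_nat_self (min_le_left _ _)
  unfold ev
  rw [sz_pair, sz_pair, sz_pair, add_mul (nn G) 1]
  omega

theorem pt_run (hG : PT G) : PT fun x => run L M (G x) := by
  obtain ⟨Q, hQ⟩ := PU.le (u := fun x => (nn (G x) + 1) *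
    (nn (G x) * (4 * NN L (G x) ^ 10 + 1 + 1) + 1 + 1) + 4 * nn (G x) +
      4 * (NN L (G x) ^ 10 * NN L (G x)) + 8) (by fun_prop)
  unfold run
  refine PT.foldl' (f := fun x s (_ : ℕ) => step L M (G x) s) (by fun_prop) (by fun_prop)
    (pt_init L hG) ⟨Q, fun x s a => ?_⟩
  have h1 := (hQ x).trans (eval_mono Q (Nat.le_add_right (sz x) (sz a)))
  unfold step
  split_ifs
  · omega
  · rcases List.mem_cons.1 (amin_mem' (pot L M (G x)) (ev L M (G x) s (nn (G x)))
      (((List.range (nn (G x))).filter fun o => decide (0 < s.1.getD o 0)).map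
        (ev L M (G x) s))) with h | h
    · rw [h]
      exact (sz_ev_le L M _ s le_rfl).trans (Nat.add_le_add_left h1 _)
    · obtain ⟨e, he, h⟩ := List.mem_map.1 h
      rw [← h]
      exact (sz_ev_le L M _ s (List.mem_range.1 (List.mem_filter.1 he).1).le).trans
        (Nat.add_le_add_left h1 _)

end Vale.Agent.P334
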