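import Vale.Agent.P334.PRun

/-! P334: the algorithm is polynomial time. -/

namespace Vale.Agent.P334

open Vale.Agent.Lib.H23 Vale.Agent.P338 Finset Polynomial

variable {α : Type} [Enc α] (L M : ℕ) {I : α → Inst}

@[fun_prop] theorem pt_dist (hI : PT I) {u v : α → ℕ} (hu : PT u) (hv : PT v) :
    PT fun x => dist (I x) (u x) (v x) := by unfold dist; fun_prop
@[fun_prop] theorem pu_sD (hI : PT I) : PU fun x => sD L (I x) := by unfold sD; fun_prop
@[fun_prop] theorem pt_sD (hI : PT I) : PT fun x => sD L (I x) := (pu_sD L hI).pt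
@[fun_prop] theorem pt_scale (hI : PT I) {g : α → ℚ} {k : α → ℕ} (hg : PT g) (hk : PT k) :
    PT fun x => scale L (I x) (g x) (k x) := by
  unfold scale
  refine PT.pair (by fun_prop) (PT.pair (by fun_prop) (PT.pair (by fun_prop) (PT.pair hk
    (PT.pair (pt_mkUn (by fun_prop)) (pt_mkUn (pu_sD L hI))))))
@[fun_prop] theorem pt_pseudo (hI : PT I) {g : α → ℚ} {k : α → ℕ} (hg : PT g) (hk : PT k) :
    PT fun x => pseudo L M (I x) (g x) (k x) := (pt_run L M (pt_scale L hI hg hk)).snd.snd.fst
@[fun_prop] theorem pt_guesses (hI : PT I) : PT fun x => guesses (I x) := by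
  have h : PT fun x => (List.range (I x).1.length).flatMap fun u =>
      (List.range (I x).1.length).flatMap fun v => (List.range ((I x).1.length + 1)).map
        fun t : ℕ => (t : ℚ) * dist (I x) u v := by fun_prop
  refine h.congr fun x => ?_
  simp [guesses, ← List.map_eq_flatMap, Function.comp_def]
@[fun_prop] theorem pt_near (hI : PT I) {W : α → List ℕ} {j : α → ℕ} (hW : PT W) (hj : PT j) :
    PT fun x => near (I x) (W x) (j x) := by unfold near; fun_prop
@[fun_prop] theorem pt_costL (hI : PT I) {W : α → List ℕ} (hW : PT W) :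
    PT fun x => costL (I x) (W x) := by unfold costL; fun_prop
@[fun_prop] theorem pt_lloyd (hI : PT I) {W : α → List ℕ} (hW : PT W) :
    PT fun x => lloyd (I x) (W x) := by unfold lloyd; fun_prop
@[fun_prop] theorem pt_tuples {F : α → List ℕ} (hF : PT F) (e : ℕ) :
    PT fun x => tuples (F x) e := by
  induction e with
  | zero => exact PT.const _
  | succ e ih =>
    unfold tuples
    exact PT_flatMap (PT.map (by fun_prop) (PT.comp ih PT.fst')) hF
@[fun_prop] theorem pt_variants (hI : PT I) {T : α → List ℕ} (hT : PT T) :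
    PT fun x => variants L (I x) (T x) := by unfold variants; fun_prop
@[fun_prop] theorem pt_cands (hI : PT I) : PT fun x => cands L M (I x) := by
  unfold cands; fun_prop
@[fun_prop] theorem pt_feasB (hI : PT I) {S : α → List ℕ} (hS : PT S) :
    PT fun x => feasB (I x) (S x) := by unfold feasB; fun_prop
theorem pt_alg : PT (alg L M) := by unfold alg; fun_prop

end Vale.Agent.P334
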