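import Vale.Agent.P334.Step
import Vale.Agent.P334.Init

/-! P334: the rounding theorem for integer instances.
PLAN. s t = step^[t] init (a fold of a constant step over `List.range`).  Induction with step_spec
(if Yq < 1/L the step is the identity): Inv (s t), pot (s t) ≤ pot init, and either Yq (s t) < 1/L or
pot (s t) ≤ pot init - t/(8 L LL).  For t = NN^8 the second is impossible: pot ≥ 0 (pot0),
pot init ≤ 3(L+4) n ≤ NN, 8 L NN^5 NN < NN^8.  Cost: pot0 gives (1 - 1/L) sum dS ≤ pot ≤ pot init.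
Count: n Wq ≤ 3(L+4) n, and x ≤ exp x - 1 ≤ Wq for x = vt (length + Yq - 1 - k) (`Real.add_one_le_exp`),
so length ≤ k + 1 + 12 L^4 (L+4). -/

namespace Vale.Agent.P334

open Finset

variable {L M : ℕ} {G : Ctx}

theorem round_iter (hG : CtxOK L G) (h0 : Inv L M G (init L G)) (t : ℕ) :
    Inv L M G ((List.range t).foldl (fun s _ => step L M G s) (init L G)) ∧
      pot L M G ((List.range t).foldl (fun s _ => step L M G s) (init L G)) ≤
        pot L M G (init L G) ∧
      (Yq L G ((List.range t).foldl (fun s _ => step L M G s) (init L G)) < 1 / L ∨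
        pot L M G ((List.range t).foldl (fun s _ => step L M G s) (init L G)) ≤
          pot L M G (init L G) - t * (1 / (8 * (L : ℚ) * LL L G))) := by
  induction t with
  | zero => exact ⟨h0, le_rfl, Or.inr (by simp)⟩
  | succ t ih =>
    rw [List.range_succ, List.foldl_append, List.foldl_cons, List.foldl_nil]
    generalize (List.range t).foldl (fun s _ => step L M G s) (init L G) = s at ih ⊢
    obtain ⟨h1, h2, h3⟩ := ih
    by_cases c : Yq L G s < 1 / L
    · rw [step, if_pos c]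
      exact ⟨h1, h2, Or.inl c⟩
    · obtain ⟨h4, h5⟩ := step_spec hG h1 (not_lt.1 c)
      have h6 : (0 : ℚ) ≤ 1 / (8 * (L : ℚ) * LL L G) := by positivity
      refine ⟨h4, by linarith, Or.inr ?_⟩
      have h7 := h3.resolve_left c
      push_cast
      linarith

theorem round_fin (hG : CtxOK L G) (h0 : Inv L M G (init L G)) :
    Inv L M G (run L M G) ∧ pot L M G (run L M G) ≤ pot L M G (init L G) ∧
      Yq L G (run L M G) < 1 / L := by
  obtain ⟨h1, h2, h3⟩ := round_iter hG h0 (NN L G ^ 8)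
  refine ⟨h1, h2, h3.resolve_right fun h4 => ?_⟩
  have h5 := (h1.pot0 hG).1
  have h6 := h0.pb
  have hL : (200 : ℚ) ≤ L := by exact_mod_cast hG.L200
  have hN : (800 : ℚ) ≤ NN L G := by exact_mod_cast hG.N800
  have hLN : (L : ℚ) ≤ NN L G := by exact_mod_cast hG.LN
  have hD : (4 * ((L : ℚ) + 4) * nn G) ≤ NN L G := by
    have := hG.DN
    rw [hG.hD] at this
    exact_mod_cast this
  have hn : (0 : ℚ) ≤ nn G := Nat.cast_nonneg _
  have h7 : (NN L G : ℚ) < (NN L G ^ 8 : ℕ) * (1 / (8 * (L : ℚ) * LL L G)) := by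
    rw [LL]
    push_cast
    rw [mul_one_div, lt_div_iff₀ (by positivity)]
    generalize (NN L G : ℚ) = N at *
    have h8 : 8 * (L : ℚ) < N ^ 2 := by nlinarith
    have h9 : 0 < N ^ 6 := by positivity
    calc N * (8 * L * N ^ 5) = 8 * L * N ^ 6 := by ring
      _ < N ^ 2 * N ^ 6 := mul_lt_mul_of_pos_right h8 h9
      _ = N ^ 8 := by ring
  nlinarith

theorem round_cnt {s : St} (hG : CtxOK L G) (h : Inv L M G s) : s.2.2.1.length ≤ ck G + CC L := by
  have hL : (200 : ℚ) ≤ L := by exact_mod_cast hG.L200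
  have hn : (1 : ℚ) ≤ nn G := by exact_mod_cast hG.n1
  have h1 : Wq L G s ≤ 3 * (L + 4) := by
    refine le_of_mul_le_mul_left ?_ (lt_of_lt_of_le one_pos hn)
    rw [mul_comm _ (3 * ((L : ℚ) + 4))]
    exact (h.pot0 hG).2.1.trans h.pb
  have h2 : vt L * ((s.2.2.1.length : ℚ) + Yq L G s - 1 - ck G) + 1 ≤ Wq L G s := by
    have := (Real.add_one_le_exp _).trans h.cnt
    exact_mod_cast this
  have h3 := Yq0 L G s
  have h4 : (s.2.2.1.length : ℚ) + Yq L G s - 1 - ck G ≤ 3 * (L + 4) * (4 * (L : ℚ) ^ 4) := by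
    rw [vt, one_div, inv_mul_eq_div] at h2
    rw [← div_le_iff₀ (by positivity)]
    linarith
  have h5 : (s.2.2.1.length : ℚ) ≤ (ck G + CC L : ℕ) := by
    rw [CC]
    push_cast
    linarith
  exact_mod_cast h5

theorem round_spec (hG : CtxOK L G) {O : Finset ℕ} (hO : ∀ i ∈ O, i ∈ cF G) (hk : O.card ≤ ck G)
    {w : ℕ → ℕ} (hw : ∀ j ∈ cJ G, ∃ i ∈ O, dd G j i ≤ w j)
    (hs : ((cJ G).map w).sum ≤ (L + 1) * nn G) :
    (run L M G).2.2.1 ≠ [] ∧ (∀ i ∈ (run L M G).2.2.1, i ∈ cF G) ∧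
      (run L M G).2.2.1.length ≤ ck G + CC L ∧
      ((((cJ G).map (dS G (run L M G).2.2.1)).sum : ℕ) : ℚ) ≤ (L : ℚ) / (L - 1) *
        ((cN M 1 + 200 / L) * ((((cJ G).map w).sum : ℕ) + 3 * (nn G : ℚ)) + 2 * nn G) := by
  obtain ⟨h1, h2, h3⟩ := round_fin hG (init_inv (M := M) hG hO hk hw hs)
  refine ⟨h1.Sne, h1.SF, round_cnt hG h1, ?_⟩
  have h4 := ((h1.pot0 hG).2.2.trans h2).trans (init_pot hG hO hk hw)
  have hL : (200 : ℚ) ≤ L := by exact_mod_cast hG.L200
  have h5 : (0 : ℚ) ≤ (((cJ G).map (dS G (run L M G).2.2.1)).sum : ℕ) := Nat.cast_nonneg _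
  have h6 := (mul_le_mul_of_nonneg_right (sub_le_sub_left h3.le 1) h5).trans h4
  have h7 : (1 : ℚ) - 1 / L = (L - 1) / L := by field_simp
  rw [h7, div_mul_eq_mul_div, div_le_iff₀ (by linarith)] at h6
  rw [div_mul_eq_mul_div, le_div_iff₀ (by linarith)]
  linarith

end Vale.Agent.P334
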