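import Vale.Agent.P334.Round
import Vale.Agent.P334.CostL

/-! P334: scaling to an integer metric.
PLAN. n = I.1.length ≥ 1, G = scale L I g k, u = g/(L n) > 0.  For points a, b < n: dd G a b = 0 if a = b,
else min DD (floor (dist/u) + 1) (getD_rmap).  Triangle inequality: floor (x+y) ≤ floor x + floor y + 1,
and min with DD keeps it.  dd G a b ≤ dist/u + 1, and dd G a b < DD implies dist ≤ u * dd G a b.
`pseudo_spec`: w j = dd G j (i j) with i j ∈ O attaining the inf' for j; sum w ≤ cost O/u + n ≤ (L+1) n.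
round_spec bounds sum dS by (L/(L-1))((11/4)(L+4) n + 2n) < 4 (L+4) n = DD (c_two of goodC M), so each
dS G T j < DD is attained at a member i of T (dS_ex) and dist j (near T j) ≤ dist j i ≤ u dS G T j.
So costL T ≤ u (L/(L-1)) ((cN M 1 + 200/L)(cost O/u + 4n) + 2n) ≤ al0 cost O + 14 g/L
(u n = g/L, (200/199)(11 + 2) ≤ 14). -/

namespace Vale.Agent.P334

open Finset

variable {L M : ℕ} {I : Inst}

theorem sc_dd (L : ℕ) (g : ℚ) (k : ℕ) {u v : ℕ} (hu : u < I.1.length) (hv : v < I.1.length) :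
    dd (scale L I g k) u v = if u = v then 0 else
      min (sD L I) (⌊dist I u v * (L * I.1.length / g)⌋₊ + 1) := by
  rw [dd, scale, getD_rmap hu, getD_rmap hv, mul_assoc, mul_div_assoc]

theorem sc_le (hI : Valid I) {g : ℚ} (hg : 0 < g) (k : ℕ) {u v : ℕ} (hu : u < I.1.length)
    (hv : v < I.1.length) :
    (dd (scale L I g k) u v : ℚ) ≤ dist I u v * (L * I.1.length / g) + 1 := by
  have h : 0 ≤ dist I u v * (L * I.1.length / g) := mul_nonneg (hI.nonneg hu hv) (by positivity)
  rw [sc_dd L g k hu hv]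
  split_ifs
  · exact Nat.cast_zero.trans_le (by linarith)
  · refine (Nat.cast_le.2 (min_le_right _ _)).trans ?_
    rw [Nat.cast_succ]
    exact add_le_add_left (Nat.floor_le h) 1

theorem sc_ge (hI : Valid I) (g : ℚ) (k : ℕ) {u v : ℕ} (hu : u < I.1.length)
    (hv : v < I.1.length) (h : dd (scale L I g k) u v < sD L I) :
    dist I u v * (L * I.1.length / g) ≤ dd (scale L I g k) u v := by
  rw [sc_dd L g k hu hv] at h ⊢
  split_ifs at h ⊢ with e
  · rw [(hI.zero_iff u hu v hv).2 e, zero_mul, Nat.cast_zero]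
  · rw [min_eq_right (by omega), Nat.cast_succ]
    exact (Nat.lt_floor_add_one _).le

theorem scale_ok (hL : 200 ≤ L) (hI : Valid I) {g : ℚ} (hg : 0 < g) {k : ℕ} (k1 : 1 ≤ k)
    (kn : k ≤ I.1.length) : CtxOK L (scale L I g k) := by
  have hD : 1 ≤ sD L I := Nat.mul_pos (by omega) (k1.trans kn)
  refine ⟨hL, fun u hu => ?_, fun u hu v hv h => ?_, fun u hu v hv => ?_,
    fun u hu v hv w hw => ?_, fun u hu v hv => ?_, hI.clients.1, hI.clients.2, hI.facilities.2,
    hI.Fne, k1, kn, rfl⟩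
  · rw [sc_dd L g k hu hu, if_pos rfl]
  · rw [sc_dd L g k hu hv, if_neg h]
    omega
  · rw [sc_dd L g k hu hv, sc_dd L g k hv hu, hI.symm u hu v hv]
    simp only [eq_comm]
  · by_cases h1 : u = v
    · rw [h1]; exact Nat.le_add_left _ _
    by_cases h2 : v = w
    · rw [h2]; exact Nat.le_add_right _ _
    have hs : (0 : ℚ) ≤ L * I.1.length / g := by positivity
    have h3 : ⌊dist I u w * (L * I.1.length / g)⌋₊ <
        ⌊dist I u v * (L * I.1.length / g)⌋₊ + ⌊dist I v w * (L * I.1.length / g)⌋₊ + 2 := by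
      rw [Nat.floor_lt (mul_nonneg (hI.nonneg hu hw) hs)]
      push_cast
      linarith [mul_le_mul_of_nonneg_right (hI.triangle u hu v hv w hw) hs,
        Nat.lt_floor_add_one (dist I u v * (L * I.1.length / g)),
        Nat.lt_floor_add_one (dist I v w * (L * I.1.length / g))]
    rw [sc_dd L g k hu hw, sc_dd L g k hu hv, sc_dd L g k hv hw, if_neg h1, if_neg h2]
    split_ifs <;> omega
  · rw [sc_dd L g k hu hv]
    split_ifs
    exacts [Nat.zero_le _, min_le_left _ _]

theorem sc_num (hL : 200 ≤ L) (M : ℕ) : 1 ≤ (L : ℚ) / (L - 1) ∧ (L : ℚ) / (L - 1) ≤ 200 / 199 ∧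
    3 / 2 ≤ cN M 1 + 200 / L ∧ cN M 1 + 200 / L ≤ 11 / 4 := by
  have h : (200 : ℚ) ≤ L := by exact_mod_cast hL
  have h1 : (200 : ℚ) / L ≤ 1 := (div_le_one (by linarith)).2 h
  have h2 : (0 : ℚ) ≤ 200 / L := by positivity
  refine ⟨(one_le_div (by linarith)).2 (by linarith), (div_le_iff₀ (by linarith)).2 (by linarith),
    by linarith [(goodC M).c_one], by linarith [(goodC M).c_two zero_le_one le_rfl]⟩

theorem pseudo_spec (hL : 200 ≤ L) (hI : Valid I) {g : ℚ} (hg : 0 < g) {k : ℕ} (k1 : 1 ≤ k)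
    (kn : k ≤ I.1.length) {O : Finset ℕ} (hO : O.Nonempty) (hF : O ⊆ I.2.2.1.toFinset)
    (hk : O.card ≤ k) (hc : cost I O hO ≤ g) :
    pseudo L M I g k ≠ [] ∧ (∀ i ∈ pseudo L M I g k, i ∈ I.2.2.1) ∧
      (pseudo L M I g k).length ≤ k + CC L ∧
      costL I (pseudo L M I g k) ≤ al0 L M * cost I O hO + 14 * g / L := by
  choose o ho ho' using fun j => exists_mem_eq_inf' hO (dist I j)
  have hL' : (200 : ℚ) ≤ L := by exact_mod_cast hL
  have hn : (1 : ℚ) ≤ I.1.length := by exact_mod_cast k1.trans kn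
  have hs : (0 : ℚ) < L * I.1.length / g := by positivity
  have hW : (((I.2.1.map fun j => dd (scale L I g k) j (o j)).sum : ℕ) : ℚ) ≤
      cost I O hO * (L * I.1.length / g) + I.1.length := by
    rw [← List.sum_toFinset _ hI.clients.1, Nat.cast_sum, cost, sum_mul]
    refine (sum_le_sum fun j hj => sc_le hI hg k (hI.clients.2 j (List.mem_toFinset.1 hj))
      (hI.facilities.2 _ (List.mem_toFinset.1 (hF (ho j))))).trans ?_
    rw [sum_add_distrib, sum_const, List.toFinset_card_of_nodup hI.clients.1, nsmul_one]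
    exact add_le_add (sum_congr rfl fun j _ => by rw [ho']).le (Nat.cast_le.2 hI.Jlen)
  have hcs : cost I O hO * (L * I.1.length / g) ≤ L * I.1.length :=
    (mul_le_mul_of_nonneg_right hc hs.le).trans_eq (mul_div_cancel₀ _ hg.ne')
  obtain ⟨a1, a2, a3, a4⟩ := round_spec (M := M) (scale_ok hL hI hg k1 kn)
    (fun i hi => List.mem_toFinset.1 (hF hi)) hk (w := fun j => dd (scale L I g k) j (o j))
    (fun j _ => ⟨o j, ho j, le_rfl⟩) (by
      have : (((I.2.1.map fun j => dd (scale L I g k) j (o j)).sum : ℕ) : ℚ) ≤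
        (L + 1) * I.1.length := by linarith
      exact_mod_cast this)
  refine ⟨a1, a2, a3, ?_⟩
  obtain ⟨b1, b2, b3, b4⟩ := sc_num hL M
  change (((I.2.1.map (dS (scale L I g k) (pseudo L M I g k))).sum : ℕ) : ℚ) ≤ (L : ℚ) / (L - 1) *
    ((cN M 1 + 200 / L) * ((((I.2.1.map fun j => dd (scale L I g k) j (o j)).sum : ℕ) : ℚ) +
      3 * (I.1.length : ℚ)) + 2 * (I.1.length : ℚ)) at a4
  change ∀ i ∈ pseudo L M I g k, i ∈ I.2.2.1 at a2
  rw [al0]
  generalize pseudo L M I g k = T at a2 a4 ⊢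
  generalize (L : ℚ) / (L - 1) = r at *
  generalize cN M 1 + 200 / L = c at *
  have hc0 := mul_nonneg (cost_nonneg hI hO hF) hs.le
  have h1 : (((I.2.1.map (dS (scale L I g k) T)).sum : ℕ) : ℚ) ≤
      c * r * (cost I O hO * (L * I.1.length / g)) + 14 * I.1.length := by
    have h2 := mul_le_mul_of_nonneg_left hW (by positivity : 0 ≤ r * c)
    have h3 := mul_le_mul_of_nonneg_right (mul_le_mul b2 b4 (by linarith) (by norm_num))
      (zero_le_one.trans hn)
    have h4 := mul_le_mul_of_nonneg_right b2 (zero_le_one.trans hn)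
    linarith
  have h2 : (I.2.1.map (dS (scale L I g k) T)).sum < sD L I := by
    have h3 := mul_le_mul (mul_le_mul b4 b2 (by linarith) (by norm_num)) hcs hc0 (by norm_num)
    have h4 := mul_le_mul_of_nonneg_right hL' (zero_le_one.trans hn)
    have : (((I.2.1.map (dS (scale L I g k) T)).sum : ℕ) : ℚ) < 4 * (L + 4) * I.1.length := by
      linarith
    exact_mod_cast this
  have h3 : costL I T * (L * I.1.length / g) ≤
      (((I.2.1.map (dS (scale L I g k) T)).sum : ℕ) : ℚ) := by
    rw [costL, ← List.sum_map_mul_right, Nat.cast_list_sum, List.map_map]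
    refine List.sum_le_sum fun j hj => ?_
    have h4 := (List.single_le_sum (fun _ _ => Nat.zero_le _) _
      (List.mem_map_of_mem (f := dS (scale L I g k) T) hj)).trans_lt h2
    obtain h5 | ⟨i, hi, h5⟩ := dS_ex (scale L I g k) T j
    · exact absurd h5 h4.ne
    rw [h5] at h4
    rw [Function.comp_apply, h5]
    exact (mul_le_mul_of_nonneg_right (near_le I hi j) hs.le).trans
      (sc_ge hI g k (hI.clients.2 j hj) (hI.facilities.2 i (a2 i hi)) h4)
  refine le_of_mul_le_mul_right ((h3.trans h1).trans_eq ?_) hs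
  field_simp

end Vale.Agent.P334
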