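import Vale.Agent.P334.Client
import Vale.Agent.P334.EvInv

/-! P334: one step decreases the potential.
PLAN. `avg`: N = NN, n = nn ≤ N, DD ≤ N, L ≤ N, 800 ≤ N.  By ev_pot and rate0, the sum is at most
sum over clients of client_drift (swap the list sum and the finite sum; at most n clients)
+ n Wq * w_drift + (n/k) * y_drift + (sum of rates) 4 N^3/N^10.  n Wq ≤ pot ≤ 3(L+4) n ≤ N (pot0, pb),
Yq ≤ n, n/k ≥ 1, Yq ≥ 1/L.  So ≤ 12 N^3/((L+1) N^5) + N^2/N^5 + N^3/N^5 - 1/(2L) + 8 N^8/N^10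
≤ -1/(4L) (10/N^2 + 1/N^3 ≤ 1/(4N) ≤ 1/(4L)).
`step_spec`: let s' = step s, p' = pot s'.  For e = n and for e < n with y e > 0: p' ≤ pot (ev e)
(amin_le'); the other events have rate 0.  So (sum of rates)(p' - pot s) ≤ -1/(4L); the sum of rates is in
(0, 2 LL] (rate n = LL), hence p' ≤ pot s - 1/(8 L LL).  s' = ev e for an admissible e (amin_mem'), and
ev_inv applies because p' ≤ pot s ≤ 3(L+4) n. -/

namespace Vale.Agent.P334

open Finset

variable {L M : ℕ} {G : Ctx} {s : St}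

theorem swap_step (T : Finset ℕ) (r : ℕ → ℚ) (a : ℕ → ℕ → ℚ) (b : ℕ → ℚ) (J : List ℕ) :
    ∑ e ∈ T, r e * ((J.map (a e)).sum - (J.map b).sum) =
      (J.map fun j => ∑ e ∈ T, r e * (a e j - b j)).sum := by
  induction J with
  | nil => simp
  | cons j J ih =>
    simp only [List.map_cons, List.sum_cons]
    rw [← ih, ← sum_add_distrib]
    refine sum_congr rfl fun e _ => ?_
    ring

theorem num_step {N n D L W Y k S : ℚ} (hN : 800 ≤ N) (hn : n ≤ N) (hD : D ≤ N) (hL : L ≤ N)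
    (hL2 : 200 ≤ L) (n0 : 0 ≤ n) (D0 : 0 ≤ D) (hW : n * W ≤ N) (hYn : Y ≤ n)
    (hY : 1 / L ≤ Y) (k1 : 1 ≤ k) (kn : k ≤ n) (hS : S ≤ 2 * N ^ 5) :
    n * (12 * n * D / ((L + 1) * N ^ 5) + D / N ^ 5) + n * W * (Y ^ 2 / N ^ 5) +
      n / k * -(Y / 2) + S * (4 * N ^ 3 / N ^ 10) ≤ -(1 / (4 * L)) := by
  have N0 : 0 < N := by linarith
  have L0 : 0 < L := by linarith
  have Y0 : 0 ≤ Y := le_trans (by positivity) hY
  have a1 : n * (12 * n * D / ((L + 1) * N ^ 5)) ≤ 1 / N ^ 2 := by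
    rw [← mul_div_assoc, div_le_div_iff₀ (by positivity) (by positivity)]
    have b1 : n * n * D ≤ N * N * N := by gcongr
    have b2 : n * (12 * n * D) * N ^ 2 = 12 * (n * n * D) * N ^ 2 := by ring
    have b3 : 12 * (n * n * D) * N ^ 2 ≤ 12 * (N * N * N) * N ^ 2 := by gcongr
    have b4 : 12 * (N * N * N) * N ^ 2 = 12 * N ^ 5 := by ring
    have b5 : 12 * N ^ 5 ≤ (L + 1) * N ^ 5 := by gcongr; linarith
    linarith
  have a2 : n * (D / N ^ 5) ≤ 1 / N ^ 2 := by
    rw [← mul_div_assoc, div_le_div_iff₀ (by positivity) (by positivity)]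
    have b1 : n * D ≤ N * N := by gcongr
    have b3 : n * D * N ^ 2 ≤ N * N * N ^ 2 := by gcongr
    have b4 : N * N * N ^ 2 * 1 ≤ N * N * N ^ 2 * N := by gcongr; linarith
    nlinarith
  have a3 : n * W * (Y ^ 2 / N ^ 5) ≤ 1 / N ^ 2 := by
    have b1 : Y ^ 2 / N ^ 5 ≤ N ^ 2 / N ^ 5 := by gcongr; linarith
    have b2 : n * W * (Y ^ 2 / N ^ 5) ≤ N * (Y ^ 2 / N ^ 5) := by gcongr
    have b3 : N * (Y ^ 2 / N ^ 5) ≤ N * (N ^ 2 / N ^ 5) := by gcongr
    have b4 : N * (N ^ 2 / N ^ 5) = 1 / N ^ 2 := by field_simp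
    linarith
  have a4 : n / k * -(Y / 2) ≤ -(1 / (2 * L)) := by
    have b1 : 1 ≤ n / k := by rw [le_div_iff₀ (by linarith)]; linarith
    have b2 : 1 / (2 * L) = 1 / L / 2 := by field_simp
    nlinarith
  have a5 : S * (4 * N ^ 3 / N ^ 10) ≤ 8 * (1 / N ^ 2) := by
    have b1 : S * (4 * N ^ 3 / N ^ 10) ≤ 2 * N ^ 5 * (4 * N ^ 3 / N ^ 10) := by gcongr
    have b2 : 2 * N ^ 5 * (4 * N ^ 3 / N ^ 10) = 8 * (1 / N ^ 2) := by field_simp; ring
    linarith
  have a6 : 11 * (1 / N ^ 2) ≤ 1 / (4 * L) := by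
    rw [← mul_div_assoc, div_le_div_iff₀ (by positivity) (by positivity)]
    nlinarith
  have a7 : 1 / (2 * L) = 2 * (1 / (4 * L)) := by field_simp; ring
  rw [mul_add]
  linarith

theorem avg (hG : CtxOK L G) (h : Inv L M G s) (hY : 1 / (L : ℚ) ≤ Yq L G s) :
    ∑ e ∈ range (nn G + 1), rate L G s e * (pot L M G (ev L M G s e) - pot L M G s) ≤
      -(1 / (4 * (L : ℚ))) := by
  set a : ℕ → ℕ → ℚ := fun e j => ph L M G (xn L M G s e j) j (dS G (nS G s e) j) with ha
  set b : ℕ → ℚ := fun j => ph L M G (xq L G s j) j (δq G s j) with hb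
  set E : ℚ := 4 * (NN L G : ℚ) ^ 3 / QQ L G with hE
  set c : ℚ := 12 * nn G * DD G / PP L G + (DD G : ℚ) / LL L G with hc
  have h1 : ∑ e ∈ range (nn G + 1), rate L G s e * (pot L M G (ev L M G s e) - pot L M G s) ≤
      ∑ e ∈ range (nn G + 1), (rate L G s e * (((cJ G).map (a e)).sum - ((cJ G).map b).sum) +
        nn G * Wq L G s * (rate L G s e * (wf L G s e - 1)) +
        (nn G : ℚ) / ck G * (rate L G s e *
          (mass (nn G) (kill (yq L G s) (lev L G s e)) - Yq L G s)) + rate L G s e * E) := by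
    refine sum_le_sum fun e _ => ?_
    have h2 := mul_le_mul_of_nonneg_left (ev_pot hG h e) (rate0 hG s e)
    have h3 : pot L M G s = ((cJ G).map b).sum + nn G * Wq L G s +
        (nn G : ℚ) / ck G * Yq L G s := rfl
    rw [h3]
    simp only [ha, hE] at h2 ⊢
    linarith
  rw [sum_add_distrib, sum_add_distrib, sum_add_distrib, ← mul_sum, ← mul_sum, ← sum_mul,
    swap_step] at h1
  have c0 : 0 ≤ c := by rw [hc]; positivity
  have h2 : ((cJ G).map fun j => ∑ e ∈ range (nn G + 1), rate L G s e * (a e j - b j)).sum ≤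
      nn G * c := by
    have h3 := List.sum_le_card_nsmul
      ((cJ G).map fun j => ∑ e ∈ range (nn G + 1), rate L G s e * (a e j - b j)) c (by
        intro x hx
        obtain ⟨j, hj, rfl⟩ := List.mem_map.1 hx
        exact client_drift hG h (hG.Jlt j hj))
    rw [List.length_map, nsmul_eq_mul] at h3
    refine h3.trans (mul_le_mul_of_nonneg_right ?_ c0)
    exact_mod_cast hG.Jlen
  have W0 : 0 ≤ (nn G : ℚ) * Wq L G s := mul_nonneg (Nat.cast_nonneg _) (Wq0 L G s)
  have h3 := mul_le_mul_of_nonneg_left (w_drift hG s) W0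
  have h4 := mul_le_mul_of_nonneg_left (y_drift hG s)
    (show (0 : ℚ) ≤ (nn G : ℚ) / ck G by positivity)
  have hD : (DD G : ℚ) = 4 * (L + 4) * nn G := by rw [hG.hD]; push_cast; ring
  have hDN : (DD G : ℚ) ≤ NN L G := by exact_mod_cast hG.DN
  have hW : (nn G : ℚ) * Wq L G s ≤ NN L G := by
    have b1 := (h.pot0 hG).2.1
    have b2 := h.pb
    have b3 : (0 : ℚ) ≤ (L + 4) * nn G := by positivity
    linarith
  have h5 := num_step (N := NN L G) (n := nn G) (D := DD G) (L := L) (W := Wq L G s)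
    (Y := Yq L G s) (k := ck G) (S := ∑ e ∈ range (nn G + 1), rate L G s e)
    (by exact_mod_cast hG.N800) (by exact_mod_cast hG.nN) hDN (by exact_mod_cast hG.LN)
    (by exact_mod_cast hG.L200) (Nat.cast_nonneg _) (Nat.cast_nonneg _) hW (h.Yn hG) hY
    (by exact_mod_cast hG.k1) (by exact_mod_cast hG.kn)
    (by have := rate_sum hG h; unfold LL at this; push_cast at this; exact this)
  have e1 : c = 12 * nn G * DD G / (((L : ℚ) + 1) * (NN L G : ℚ) ^ 5) +
      (DD G : ℚ) / (NN L G : ℚ) ^ 5 := by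
    rw [hc]; unfold PP LL; push_cast; rfl
  have e2 : E = 4 * (NN L G : ℚ) ^ 3 / (NN L G : ℚ) ^ 10 := by
    rw [hE]; unfold QQ; push_cast; rfl
  have e3 : (LL L G : ℚ) = (NN L G : ℚ) ^ 5 := by unfold LL; push_cast; rfl
  rw [← e1, ← e2, ← e3] at h5
  linarith

theorem step_spec (hG : CtxOK L G) (h : Inv L M G s) (hY : 1 / (L : ℚ) ≤ Yq L G s) :
    Inv L M G (step L M G s) ∧
      pot L M G (step L M G s) ≤ pot L M G s - 1 / (8 * (L : ℚ) * LL L G) := by
  set l := ((List.range (nn G)).filter fun o => decide (0 < s.1.getD o 0)).map (ev L M G s)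
    with hl
  have hs : step L M G s = amin (pot L M G) (ev L M G s (nn G)) l := by
    unfold step; rw [if_neg (not_lt.2 hY)]
  have hL : (0 : ℚ) < L := by have := hG.L200; exact_mod_cast (by omega : 0 < L)
  have hLL : (0 : ℚ) < LL L G := by
    have := hG.N800
    have h0 : 0 < NN L G := by omega
    unfold LL; positivity
  have h1 : ∀ e ∈ range (nn G + 1), rate L G s e * (pot L M G (step L M G s) - pot L M G s) ≤
      rate L G s e * (pot L M G (ev L M G s e) - pot L M G s) := by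
    intro e he
    by_cases hen : e < nn G
    · rcases Nat.eq_zero_or_pos (s.1.getD e 0) with h0 | h0
      · have : rate L G s e = 0 := by
          unfold rate yq; rw [if_pos hen, h0]; simp
        rw [this]; simp
      · refine mul_le_mul_of_nonneg_left ?_ (rate0 hG s e)
        have := amin_le' (pot L M G) (ev L M G s (nn G)) l (ev L M G s e)
          (List.mem_cons_of_mem _ (List.mem_map.2 ⟨e, List.mem_filter.2
            ⟨List.mem_range.2 hen, decide_eq_true h0⟩, rfl⟩))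
        rw [hs]; linarith
    · have : e = nn G := by have := mem_range.1 he; omega
      subst this
      refine mul_le_mul_of_nonneg_left ?_ (rate0 hG s _)
      have := amin_le' (pot L M G) (ev L M G s (nn G)) l _ List.mem_cons_self
      rw [hs]; linarith
  have h2 := (sum_le_sum h1).trans (avg hG h hY)
  rw [← sum_mul] at h2
  have h3 := rate_sum hG h
  have h4 : 0 ≤ ∑ e ∈ range (nn G + 1), rate L G s e := sum_nonneg fun e _ => rate0 hG s e
  have h5 : pot L M G (step L M G s) ≤ pot L M G s - 1 / (8 * (L : ℚ) * LL L G) := by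
    by_contra h5
    push Not at h5
    have h6 : -(1 / (8 * (L : ℚ) * LL L G)) < pot L M G (step L M G s) - pot L M G s := by linarith
    have h7 : (0 : ℚ) < 1 / (8 * (L : ℚ) * LL L G) := by positivity
    have h8 : 2 * (LL L G : ℚ) * (1 / (8 * (L : ℚ) * LL L G)) = 1 / (4 * (L : ℚ)) := by
      field_simp; ring
    have h9 : (0 : ℚ) < 1 / (4 * (L : ℚ)) := by positivity
    rcases h4.eq_or_lt with h0 | h0
    · rw [← h0] at h2; linarith
    · have b1 := mul_lt_mul_of_pos_left h6 h0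
      have b2 := mul_le_mul_of_nonneg_right h3 h7.le
      linarith
  refine ⟨?_, h5⟩
  have h7 : (0 : ℚ) < 1 / (8 * (L : ℚ) * LL L G) := by positivity
  have h6 : pot L M G (step L M G s) ≤ 3 * (L + 4) * nn G := by linarith [h.pb]
  have hm := amin_mem' (pot L M G) (ev L M G s (nn G)) l
  rw [← hs] at hm
  rcases List.mem_cons.1 hm with hm | hm
  · rw [hm] at h6 ⊢
    exact ev_inv hG h (fun h0 => absurd h0 (lt_irrefl _)) h6
  · obtain ⟨e, he, hm⟩ := List.mem_map.1 hm
    rw [← hm] at h6 ⊢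
    exact ev_inv hG h (fun _ => of_decide_eq_true (List.mem_filter.1 he).2) h6

end Vale.Agent.P334
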