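import Vale.Agent.P334.CDefs

/-! P334: elementary facts on `zeta`, `tau`, `eta`, `tcl`.
PLAN. `zeta` is the minimum of four lines; their break points are 13/25, 31/50, 7/10 and `-z1 m` is the
slope of the line active at `m`. Unfold, `min_def`/`max_def`, `split_ifs`, `linarith`/`nlinarith`.
`tau_step`: tau (m - D) = (1 - m + D) * zeta (m - D) ≤ (1 - m + D) * (zeta m + z1 m * D). -/

namespace Vale.Agent.P334

theorem zeta_four (m : ℚ) : zeta m ≤ 529 / 10000 + m / 20 ∧ zeta m ≤ 893 / 10000 - m / 50 ∧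
    zeta m ≤ 1451 / 10000 - 11 / 100 * m ∧ zeta m ≤ 227 / 1000 * (1 - m) :=
  ⟨(min_le_left _ _).trans (min_le_left _ _), (min_le_left _ _).trans (min_le_right _ _),
    (min_le_right _ _).trans (min_le_left _ _), (min_le_right _ _).trans (min_le_right _ _)⟩

theorem zeta_nonneg {m : ℚ} (h0 : 0 ≤ m) (h1 : m ≤ 1) : 0 ≤ zeta m :=
  le_min (le_min (by linarith) (by linarith)) (le_min (by linarith) (by linarith))
theorem zeta_le {m : ℚ} (h0 : 0 ≤ m) (h1 : m ≤ 1) : zeta m ≤ 2 / 25 := by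
  linarith [(zeta_four m).1, (zeta_four m).2.1]
theorem zeta_le' (m : ℚ) : zeta m ≤ 227 / 1000 * (1 - m) := (zeta_four m).2.2.2
theorem zeta_eq (m : ℚ) : zeta m =
    (if m ≤ 13 / 25 then 529 / 10000 else if m ≤ 31 / 50 then 893 / 10000 else
      if m ≤ 7 / 10 then 1451 / 10000 else 227 / 1000) - z1 m * m := by
  obtain ⟨a1, a2, a3, a4⟩ := zeta_four m
  unfold z1
  split_ifs with h1 h2 h3 <;>
    exact le_antisymm (by linarith)
      (le_min (le_min (by linarith) (by linarith)) (le_min (by linarith) (by linarith)))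
theorem zeta_tan (m' m : ℚ) : zeta m' ≤ zeta m + z1 m * (m - m') := by
  obtain ⟨a1, a2, a3, a4⟩ := zeta_four m'
  rw [zeta_eq m]
  unfold z1
  split_ifs <;> linarith
theorem z1_le (m : ℚ) : z1 m ≤ 227 / 1000 := by
  unfold z1
  split_ifs <;> norm_num
theorem eta_nonneg {m : ℚ} (h0 : 0 ≤ m) (h1 : m ≤ 1) : 0 ≤ eta m := by
  rw [eta, zeta_eq m]
  unfold z1
  split_ifs <;> linarith
theorem eta_le {m : ℚ} (h0 : 0 ≤ m) (h1 : m ≤ 1) : eta m ≤ 31 / 100 := by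
  rw [eta, zeta_eq m]
  unfold z1
  split_ifs <;> linarith
theorem eta_le' {m : ℚ} (h0 : 0 ≤ m) (h1 : m ≤ 1) : eta m ≤ 227 / 500 * (1 - m) := by
  have := mul_le_mul_of_nonneg_left (z1_le m) (sub_nonneg.2 h1)
  rw [eta]
  linarith [zeta_le' m]
theorem tau_nonneg {m : ℚ} (h0 : 0 ≤ m) (h1 : m ≤ 1) : 0 ≤ tau m :=
  mul_nonneg (sub_nonneg.2 h1) (zeta_nonneg h0 h1)
theorem tau_le {m : ℚ} (h0 : 0 ≤ m) (h1 : m ≤ 1) : tau m ≤ 2 / 25 * (1 - m) :=
  (mul_le_mul_of_nonneg_left (zeta_le h0 h1) (sub_nonneg.2 h1)).trans_eq (mul_comm _ _)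
theorem tau_step {m D : ℚ} (h0 : 0 ≤ D) (h : D ≤ m) (h1 : m ≤ 1) :
    tau (m - D) ≤ tau m + eta m * D + 227 / 1000 * D ^ 2 := by
  have h2 := mul_le_mul_of_nonneg_left (zeta_tan (m - D) m) (by linarith : 0 ≤ 1 - (m - D))
  have h3 := mul_le_mul_of_nonneg_right (z1_le m) (sq_nonneg D)
  unfold tau eta
  linarith
theorem tcl_nonneg (d δ : ℚ) : 0 ≤ tcl d δ := le_max_left _ _
theorem tcl_le {d : ℚ} (hd : 0 ≤ d) (δ : ℚ) : tcl d δ ≤ chi * d :=
  max_le (mul_nonneg (by norm_num [chi]) hd) (min_le_right _ _)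
theorem tcl_lip (d : ℚ) {δ' δ : ℚ} (h : δ' ≤ δ) : tcl d δ' ≤ tcl d δ + (δ - δ') := by
  simp only [tcl, max_def, min_def]
  split_ifs <;> linarith
theorem tcl_smul {μ : ℚ} (hμ : 0 ≤ μ) (d δ : ℚ) : tcl (μ * d) (μ * δ) = μ * tcl d δ := by
  rw [tcl, tcl, mul_max_of_nonneg _ _ hμ, mul_min_of_nonneg _ _ hμ, mul_zero, mul_sub,
    mul_left_comm μ, mul_left_comm μ]

variable {c g : ℚ → ℚ}
theorem GoodC.zeta_mono (G : GoodC c g) {m' m : ℚ} (h0 : 0 ≤ m') (h : m' ≤ m) (h1 : m ≤ 1) :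
    c m' ≤ c m - 1 / 2 * (m - m') := by
  have h2 := mul_le_mul_of_nonneg_right (G.g_ge m (h0.trans h) h1) (sub_nonneg.2 h)
  linarith [G.conc m' m h0 h h1, sq_nonneg (m - m')]
theorem GoodC.zeta_one (G : GoodC c g) : c 1 ≤ 87 / 50 :=
  (G.c_le 1 zero_le_one le_rfl).trans (by norm_num [cU])
/-- `cU m ≤ 7/4` and `gU m ≤ 1` on the unit interval -/
theorem GoodC.c_two (G : GoodC c g) {m : ℚ} (h0 : 0 ≤ m) (h1 : m ≤ 1) : c m ≤ 7 / 4 := by
  linarith [G.zeta_mono h0 h1 le_rfl, G.zeta_one]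
theorem GoodC.g_one (G : GoodC c g) {m : ℚ} (h0 : 0 ≤ m) (h1 : m ≤ 1) : g m ≤ 1 := by
  have h2 := G.g_le m h0 h1
  unfold gU at h2
  linarith [pow_le_of_le_one h0 h1 two_ne_zero, pow_le_of_le_one h0 h1 (n := 4) (by norm_num),
    pow_le_of_le_one h0 h1 (n := 6) (by norm_num), pow_nonneg h0 3, pow_nonneg h0 5]
theorem GoodC.mono (G : GoodC c g) {m' m : ℚ} (h0 : 0 ≤ m') (h : m' ≤ m) (h1 : m ≤ 1) :
    c m' ≤ c m := by
  linarith [G.zeta_mono h0 h h1]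
/-- from `conc m 1`, `g_ge`, `tau_le` -/
theorem GoodC.c_tau (G : GoodC c g) {m : ℚ} (h0 : 0 ≤ m) (h1 : m ≤ 1) :
    c m + chi * tau m ≤ c 1 := by
  unfold chi
  linarith [G.zeta_mono h0 h1 le_rfl, tau_le h0 h1]
/-- `c 1 ≤ cU 1 < 1.736` -/
theorem GoodC.c_ch (G : GoodC c g) {m : ℚ} (h0 : 0 ≤ m) (h1 : m ≤ 1) :
    c m + chi * tau m ≤ ch := (G.c_tau h0 h1).trans G.zeta_one

variable {n : ℕ} {x d : ℕ → ℚ} {δ : ℚ}
theorem Meas.m0 (h : Meas n x d δ) : 0 ≤ mass n x :=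
  Finset.sum_nonneg fun i hi => h.x0 i (Finset.mem_range.1 hi)
theorem Meas.a0 (h : Meas n x d δ) : 0 ≤ acost n x d :=
  Finset.sum_nonneg fun i hi =>
    mul_nonneg (h.x0 i (Finset.mem_range.1 hi)) (h.d0 i (Finset.mem_range.1 hi))
theorem Meas.t0 (h : Meas n x d δ) (δ' : ℚ) : 0 ≤ tcost n x d δ' :=
  Finset.sum_nonneg fun i hi => mul_nonneg (h.x0 i (Finset.mem_range.1 hi)) (tcl_nonneg _ _)
theorem Meas.t_le (h : Meas n x d δ) (δ' : ℚ) : tcost n x d δ' ≤ chi * acost n x d := by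
  rw [acost, Finset.mul_sum]
  exact Finset.sum_le_sum fun i hi => (mul_le_mul_of_nonneg_left
    (tcl_le (h.d0 i (Finset.mem_range.1 hi)) δ') (h.x0 i (Finset.mem_range.1 hi))).trans_eq
      (mul_left_comm _ _ _)
theorem Meas.t_lip (h : Meas n x d δ) {δ' δ'' : ℚ} (hh : δ' ≤ δ'') :
    tcost n x d δ' ≤ tcost n x d δ'' + mass n x * (δ'' - δ') := by
  rw [tcost, tcost, mass, Finset.sum_mul, ← Finset.sum_add_distrib]
  exact Finset.sum_le_sum fun i hi => (mul_le_mul_of_nonneg_left (tcl_lip (d i) hh)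
    (h.x0 i (Finset.mem_range.1 hi))).trans_eq (mul_add _ _ _)
theorem Meas.kill (h : Meas n x d δ) {l : ℕ → ℚ} (l0 : ∀ i < n, 0 ≤ l i) (l1 : ∀ i < n, l i ≤ 1)
    {δ' : ℚ} (h' : 0 ≤ δ') : Meas n (kill x l) d δ' :=
  ⟨fun i hi => mul_nonneg (h.x0 i hi) (sub_nonneg.2 (l1 i hi)),
    (Finset.sum_le_sum fun i hi => mul_le_of_le_one_right (h.x0 i (Finset.mem_range.1 hi))
      (sub_le_self _ (l0 i (Finset.mem_range.1 hi)))).trans h.m1, h.d0, h'⟩
theorem mass_kill (n : ℕ) (x l : ℕ → ℚ) :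
    mass n (kill x l) = mass n x - ∑ i ∈ Finset.range n, x i * l i := by
  rw [mass, mass, ← Finset.sum_sub_distrib]
  exact Finset.sum_congr rfl fun i _ => by unfold kill; ring
theorem acost_kill (n : ℕ) (x l d : ℕ → ℚ) :
    acost n (kill x l) d = acost n x d - ∑ i ∈ Finset.range n, x i * l i * d i := by
  rw [acost, acost, ← Finset.sum_sub_distrib]
  exact Finset.sum_congr rfl fun i _ => by unfold kill; ring
theorem tcost_kill (n : ℕ) (x l d : ℕ → ℚ) (δ : ℚ) :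
    tcost n (kill x l) d δ = tcost n x d δ - ∑ i ∈ Finset.range n, x i * l i * tcl (d i) δ := by
  rw [tcost, tcost, ← Finset.sum_sub_distrib]
  exact Finset.sum_congr rfl fun i _ => by unfold kill; ring

end Vale.Agent.P334
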